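import Mathlib

/-!
# Injective holomorphic functions of one complex variable

* `Crest.Agent.Lib.deriv_ne_zero_of_injOn` : an injective holomorphic function on an open set has
  nonvanishing derivative;
* `Crest.Agent.Lib.exists_holomorphic_inverse` : its inverse is holomorphic on the (open) image.
-/

set_option autoImplicit false

open Set Filter Metric
open scoped Topology

namespace Crest.Agent.Lib

/-- An injective holomorphic function is not constant near a point. -/
theorem not_eventually_const_of_injOn {f : ℂ → ℂ} {U : Set ℂ} (hU : IsOpen U)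
    (hinj : InjOn f U) {z : ℂ} (hz : z ∈ U) (c : ℂ) : ¬ ∀ᶠ w in 𝓝 z, f w = c := by
  intro h
  have h1 : ∀ᶠ w in 𝓝 z, f w = c ∧ w ∈ U := h.and (hU.mem_nhds hz)
  obtain ⟨ε, hε, hb⟩ := Metric.eventually_nhds_iff_ball.1 h1
  have hz' : z + (ε / 2 : ℝ) ∈ ball z ε := by
    rw [mem_ball, dist_eq_norm]
    simp only [add_sub_cancel_left, Complex.norm_real, Real.norm_eq_abs]
    rw [abs_of_pos (by linarith)]; linarith
  have h2 := hb _ hz'
  have h3 := hb z (mem_ball_self hε)
  have h4 := hinj h2.2 h3.2 (h2.1.trans h3.1.symm)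
  have h5 : ((ε / 2 : ℝ) : ℂ) = 0 := by
    have : z + ((ε / 2 : ℝ) : ℂ) = z + 0 := by rw [h4, add_zero]
    exact add_left_cancel this
  rw [Complex.ofReal_eq_zero] at h5
  linarith

/-- Injective holomorphic maps are open. -/
theorem nhds_le_map_nhds_of_injOn {f : ℂ → ℂ} {U : Set ℂ} (hU : IsOpen U)
    (hf : DifferentiableOn ℂ f U) (hinj : InjOn f U) {z : ℂ} (hz : z ∈ U) :
    𝓝 (f z) ≤ map f (𝓝 z) := by
  have ha : AnalyticAt ℂ f z := hf.analyticAt (hU.mem_nhds hz)
  exact ha.eventually_constant_or_nhds_le_map_nhds.resolve_left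
    (not_eventually_const_of_injOn hU hinj hz _)

theorem isOpen_image_of_injOn {f : ℂ → ℂ} {U : Set ℂ} (hU : IsOpen U)
    (hf : DifferentiableOn ℂ f U) (hinj : InjOn f U) : IsOpen (f '' U) := by
  rw [isOpen_iff_mem_nhds]
  rintro _ ⟨z, hz, rfl⟩
  exact nhds_le_map_nhds_of_injOn hU hf hinj hz (image_mem_map (hU.mem_nhds hz))

/-- A left inverse of an injective holomorphic map is continuous at the image points. -/
theorem continuousAt_inverse_of_injOn {f g : ℂ → ℂ} {U : Set ℂ} (hU : IsOpen U)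
    (hf : DifferentiableOn ℂ f U) (hinj : InjOn f U) (hg : ∀ z ∈ U, g (f z) = z) {z : ℂ}
    (hz : z ∈ U) : ContinuousAt g (f z) := by
  rw [ContinuousAt, hg z hz]
  intro N hN
  have h1 : N ∩ U ∈ 𝓝 z := inter_mem hN (hU.mem_nhds hz)
  have h2 : f '' (N ∩ U) ∈ 𝓝 (f z) :=
    nhds_le_map_nhds_of_injOn hU hf hinj hz (image_mem_map h1)
  rw [mem_map]
  filter_upwards [h2] with w hw
  obtain ⟨z', hz', rfl⟩ := hw
  rw [mem_preimage, hg z' hz'.2]
  exact hz'.1

/-- An injective holomorphic function has nonvanishing derivative. -/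
theorem deriv_ne_zero_of_injOn {f : ℂ → ℂ} {U : Set ℂ} (hU : IsOpen U)
    (hf : DifferentiableOn ℂ f U) (hinj : InjOn f U) {z : ℂ} (hz : z ∈ U) : deriv f z ≠ 0 := by
  classical
  set g : ℂ → ℂ := Function.invFunOn f U with hg
  have hgf : ∀ z ∈ U, g (f z) = z := fun z hz => hinj.leftInvOn_invFunOn hz
  have ha : AnalyticAt ℂ f z := hf.analyticAt (hU.mem_nhds hz)
  -- the derivative is not identically zero near `z`
  have hder : ∀ᶠ w in 𝓝[≠] z, deriv f w ≠ 0 := by
    refine ha.deriv.eventually_eq_zero_or_eventually_ne_zero.resolve_left ?_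
    intro h0
    obtain ⟨ε, hε, hb⟩ := Metric.eventually_nhds_iff_ball.1 (h0.and (hU.mem_nhds hz))
    have hconst : ∀ w ∈ ball z ε, f w = f z := by
      intro w hw
      refine (convex_ball z ε).is_const_of_fderivWithin_eq_zero (𝕜 := ℂ) (f := f)
        (hf.mono fun x hx => (hb x hx).2) ?_ hw (mem_ball_self hε)
      intro x hx
      rw [fderivWithin_of_isOpen isOpen_ball hx]
      ext
      simp [(hb x hx).1]
    exact not_eventually_const_of_injOn hU hinj hz (f z)
      (Metric.eventually_nhds_iff_ball.2 ⟨ε, hε, hconst⟩)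
  -- the inverse is analytic at `f z`
  have hopen := isOpen_image_of_injOn hU hf hinj
  have hgc : ContinuousAt g (f z) := continuousAt_inverse_of_injOn hU hf hinj hgf hz
  have hgd : ∀ᶠ w in 𝓝[≠] (f z), DifferentiableAt ℂ g w := by
    rw [eventually_nhdsWithin_iff] at hder ⊢
    have h1 : {w | (w ≠ z → deriv f w ≠ 0) ∧ w ∈ U} ∈ 𝓝 z := hder.and (hU.mem_nhds hz)
    have h2 := nhds_le_map_nhds_of_injOn hU hf hinj hz (image_mem_map h1)
    filter_upwards [h2] with w hw hwz
    obtain ⟨x, ⟨hx1, hx2⟩, rfl⟩ := hw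
    have hxz : x ≠ z := fun h => hwz (by rw [h]; rfl)
    have hc := continuousAt_inverse_of_injOn hU hf hinj hgf hx2
    have hd : HasDerivAt f (deriv f x) (g (f x)) := by
      rw [hgf x hx2]
      exact (hf.differentiableAt (hU.mem_nhds hx2)).hasDerivAt
    refine (HasDerivAt.of_local_left_inverse hc hd (hx1 hxz) ?_).differentiableAt
    filter_upwards [hopen.mem_nhds (mem_image_of_mem f hx2)] with y hy
    obtain ⟨y', hy', rfl⟩ := hy
    rw [hgf y' hy']
  have hga : AnalyticAt ℂ g (f z) :=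
    Complex.analyticAt_of_differentiable_on_punctured_nhds_of_continuousAt hgd hgc
  intro h0
  have h1 : HasDerivAt (fun w => g (f w)) (deriv g (f z) * deriv f z) z :=
    hga.differentiableAt.hasDerivAt.comp z ha.differentiableAt.hasDerivAt
  have h2 : HasDerivAt (fun w => g (f w)) 1 z := by
    refine (hasDerivAt_id z).congr_of_eventuallyEq ?_
    filter_upwards [hU.mem_nhds hz] with w hw
    exact hgf w hw
  have h3 := h1.unique h2
  rw [h0, mul_zero] at h3
  exact zero_ne_one h3

/-- The inverse of an injective holomorphic function is holomorphic. -/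
theorem differentiableOn_inverse_of_injOn {f g : ℂ → ℂ} {U : Set ℂ} (hU : IsOpen U)
    (hf : DifferentiableOn ℂ f U) (hinj : InjOn f U) (hg : ∀ z ∈ U, g (f z) = z) :
    DifferentiableOn ℂ g (f '' U) := by
  rintro _ ⟨z, hz, rfl⟩
  have hc := continuousAt_inverse_of_injOn hU hf hinj hg hz
  have hd : HasDerivAt f (deriv f z) (g (f z)) := by
    rw [hg z hz]
    exact (hf.differentiableAt (hU.mem_nhds hz)).hasDerivAt
  refine (HasDerivAt.of_local_left_inverse hc hd
    (deriv_ne_zero_of_injOn hU hf hinj hz) ?_).differentiableAt.differentiableWithinAt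
  filter_upwards [(isOpen_image_of_injOn hU hf hinj).mem_nhds (mem_image_of_mem f hz)] with y hy
  obtain ⟨y', hy', rfl⟩ := hy
  rw [hg y' hy']

theorem exists_holomorphic_inverse {f : ℂ → ℂ} {U : Set ℂ} (hU : IsOpen U)
    (hf : DifferentiableOn ℂ f U) (hinj : InjOn f U) :
    ∃ g : ℂ → ℂ, DifferentiableOn ℂ g (f '' U) ∧ InjOn g (f '' U) ∧ g '' (f '' U) = U ∧
      (∀ z ∈ U, g (f z) = z) ∧ (∀ w ∈ f '' U, f (g w) = w) := by
  classical
  have hgf : ∀ z ∈ U, Function.invFunOn f U (f z) = z := fun z hz => hinj.leftInvOn_invFunOn hz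
  refine ⟨Function.invFunOn f U, differentiableOn_inverse_of_injOn hU hf hinj hgf, ?_, ?_, hgf, ?_⟩
  · rintro _ ⟨a, ha, rfl⟩ _ ⟨b, hb, rfl⟩ h
    rw [hgf a ha, hgf b hb] at h
    rw [h]
  · ext z
    constructor
    · rintro ⟨_, ⟨a, ha, rfl⟩, rfl⟩
      rw [hgf a ha]; exact ha
    · intro hz
      exact ⟨f z, mem_image_of_mem f hz, hgf z hz⟩
  · rintro _ ⟨a, ha, rfl⟩
    rw [hgf a ha]

end Crest.Agent.Lib
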