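import Mathlib
import Crest.Agent.Lib.InjHolo

set_option autoImplicit false

namespace Crest.Agent.Lib.Bieberbach

open MeasureTheory Metric Set Filter Topology
open scoped ComplexConjugate Real

/-- unit circle point -/
noncomputable def eu (θ : ℝ) : ℂ := (Real.cos θ : ℂ) + Real.sin θ * Complex.I

theorem eu_eq (θ : ℝ) : eu θ = Complex.exp (θ * Complex.I) := by
  rw [eu, Complex.exp_mul_I, Complex.ofReal_cos, Complex.ofReal_sin]

theorem norm_eu (θ : ℝ) : ‖eu θ‖ = 1 := by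
  rw [eu_eq, Complex.norm_exp_ofReal_mul_I]

@[fun_prop]
theorem continuous_eu : Continuous eu := by
  unfold eu
  fun_prop

theorem norm_smul_eu {ρ : ℝ} (hρ : 0 ≤ ρ) (θ : ℝ) : ‖(ρ : ℂ) * eu θ‖ = ρ := by
  rw [norm_mul, norm_eu, mul_one, Complex.norm_real, Real.norm_eq_abs, abs_of_nonneg hρ]

/-- mean value property in the interval form -/
theorem mean_zero {Φ : ℂ → ℂ} (hΦ : DifferentiableOn ℂ Φ (ball 0 1)) {ρ : ℝ} (hρ : 0 < ρ)
    (hρ1 : ρ < 1) : ∫ θ in (-π)..π, Φ (ρ * eu θ) = (2 * π) • Φ 0 := by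
  have hd : DiffContOnCl ℂ Φ (ball 0 |ρ|) := by
    apply DifferentiableOn.diffContOnCl
    rw [abs_of_pos hρ, closure_ball _ hρ.ne']
    exact hΦ.mono (closedBall_subset_ball hρ1)
  have h1 := hd.circleAverage
  rw [Real.circleAverage_def] at h1
  have h2 : (∫ θ in (-π)..π, Φ (ρ * eu θ)) = ∫ θ in (0:ℝ)..(2 * π), Φ (circleMap 0 ρ θ) := by
    have hper : Function.Periodic (fun θ : ℝ => Φ (circleMap 0 ρ θ)) (2 * π) := by
      intro θ
      simp only
      rw [periodic_circleMap]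
    have h3 := hper.intervalIntegral_add_eq (-π) 0
    have e1 : (-π : ℝ) + 2 * π = π := by ring
    rw [e1, zero_add] at h3
    rw [← h3]
    apply intervalIntegral.integral_congr
    intro θ _
    simp only [circleMap, zero_add, eu_eq]
  rw [h2, ← h1, smul_smul, mul_inv_cancel₀ (by positivity), one_smul]


/-- open annulus -/
def ann (ε r : ℝ) : Set ℂ := {z | ε < ‖z‖ ∧ ‖z‖ < r}

theorem isOpen_ann (ε r : ℝ) : IsOpen (ann ε r) :=
  (isOpen_lt continuous_const continuous_norm).inter (isOpen_lt continuous_norm continuous_const)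

theorem polar_ann {F : ℂ → ℝ} {ε r : ℝ} (hε : 0 < ε)
    (hF : ContinuousOn F {z : ℂ | ε ≤ ‖z‖ ∧ ‖z‖ ≤ r}) :
    IntegrableOn F (ann ε r) ∧
    IntegrableOn (fun ρ : ℝ => ∫ θ in Ioo (-π) π, ρ * F ((ρ : ℂ) * eu θ)) (Ioo ε r) ∧
    ∫ z in ann ε r, F z = ∫ ρ : ℝ in Ioo ε r, ∫ θ : ℝ in Ioo (-π) π, ρ * F ((ρ : ℂ) * eu θ) := by
  classical
  have hK : IsCompact {z : ℂ | ε ≤ ‖z‖ ∧ ‖z‖ ≤ r} := by
    apply (isCompact_closedBall (0 : ℂ) r).of_isClosed_subset
    · exact (isClosed_le continuous_const continuous_norm).inter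
        (isClosed_le continuous_norm continuous_const)
    · intro z hz
      simpa using hz.2
  have hsub : ann ε r ⊆ {z : ℂ | ε ≤ ‖z‖ ∧ ‖z‖ ≤ r} := fun z hz => ⟨hz.1.le, hz.2.le⟩
  have hI1 : IntegrableOn F (ann ε r) := (hF.integrableOn_compact hK).mono_set hsub
  set H : ℝ × ℝ → ℝ := fun p => p.1 * F (p.1 * eu p.2) with hH
  have hHc : ContinuousOn H (Icc ε r ×ˢ Icc (-π) π) := by
    apply ContinuousOn.mul continuous_fst.continuousOn
    apply hF.comp
    · apply Continuous.continuousOn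
      fun_prop
    · rintro ⟨ρ, θ⟩ hp
      have h1 : 0 ≤ ρ := hε.le.trans hp.1.1
      simp only [mem_ofPred_eq, norm_smul_eu h1]
      exact hp.1
  have hI2 : IntegrableOn H (Ioo ε r ×ˢ Ioo (-π) π) :=
    (hHc.integrableOn_compact (isCompact_Icc.prod isCompact_Icc)).mono_set
      (prod_mono Ioo_subset_Icc_self Ioo_subset_Icc_self)
  have h1 : ∫ z in ann ε r, F z = ∫ p in Ioo ε r ×ˢ Ioo (-π) π, H p := by
    rw [← MeasureTheory.integral_indicator (isOpen_ann ε r).measurableSet,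
      ← Complex.integral_comp_polarCoord_symm]
    have hm1 : MeasurableSet (polarCoord.target) := polarCoord.open_target.measurableSet
    have hm2 : MeasurableSet (Ioo ε r ×ˢ Ioo (-π) π : Set (ℝ × ℝ)) :=
      measurableSet_Ioo.prod measurableSet_Ioo
    rw [← MeasureTheory.integral_indicator hm1, ← MeasureTheory.integral_indicator hm2]
    congr 1
    funext p
    obtain ⟨ρ, θ⟩ := p
    by_cases hp : (ρ, θ) ∈ polarCoord.target
    · rw [indicator_of_mem hp]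
      have hp' := hp
      rw [polarCoord_target] at hp'
      have hρ : 0 < ρ := hp'.1
      have he : Complex.polarCoord.symm (ρ, θ) = ρ * eu θ := by
        rw [Complex.polarCoord_symm_apply, eu]
      simp only [he]
      by_cases hq : ε < ρ ∧ ρ < r
      · have m1 : (ρ : ℂ) * eu θ ∈ ann ε r := by
          simp only [ann, mem_ofPred_eq, norm_smul_eu hρ.le]; exact hq
        have m2 : (ρ, θ) ∈ (Ioo ε r ×ˢ Ioo (-π) π : Set (ℝ × ℝ)) := ⟨hq, hp'.2⟩
        rw [indicator_of_mem m1, indicator_of_mem m2]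
        simp [hH]
      · have m1 : (ρ : ℂ) * eu θ ∉ ann ε r := by
          simp only [ann, mem_ofPred_eq, norm_smul_eu hρ.le]; exact hq
        have m2 : (ρ, θ) ∉ (Ioo ε r ×ˢ Ioo (-π) π : Set (ℝ × ℝ)) := fun h => hq h.1
        rw [indicator_of_notMem m1, indicator_of_notMem m2]
        simp
    · rw [indicator_of_notMem hp]
      have m2 : (ρ, θ) ∉ (Ioo ε r ×ˢ Ioo (-π) π : Set (ℝ × ℝ)) := by
        intro h
        apply hp
        rw [polarCoord_target]
        exact ⟨hε.trans h.1.1, h.2⟩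
      rw [indicator_of_notMem m2]
  refine ⟨hI1, ?_, ?_⟩
  · have h3 : Integrable H ((volume.restrict (Ioo ε r)).prod (volume.restrict (Ioo (-π) π))) := by
      rw [Measure.prod_restrict]
      exact hI2
    exact h3.integral_prod_left
  · rw [h1, Measure.volume_eq_prod, setIntegral_prod H hI2]

theorem lower_pt (b z k : ℂ) (hz : z ≠ 0) {ρ : ℝ} (hρ : ‖z‖ = ρ) :
    (1 / ρ ^ 4 + ‖b‖ ^ 2) +
      ((-(2 / (ρ:ℂ) ^ 4) * b * z ^ 2 + 2 * (-(z ^ 2) / (ρ:ℂ) ^ 4 + conj b) * (k - b))).re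
      ≤ ‖-(z ^ 2)⁻¹ + k‖ ^ 2 := by
  have hρ0 : 0 < ρ := by rw [← hρ]; exact norm_pos_iff.2 hz
  have hρc : (ρ : ℂ) ≠ 0 := by exact_mod_cast hρ0.ne'
  have hzz : z * conj z = (ρ : ℂ) ^ 2 := by
    rw [Complex.mul_conj, Complex.normSq_eq_norm_sq, hρ]; push_cast; ring
  have hcz : conj z ≠ 0 := by
    intro h; apply hz; simpa using h
  -- conj of the principal part
  set p : ℂ := -(z ^ 2)⁻¹ + b with hp
  have hcp : conj p = -(z ^ 2) / (ρ:ℂ) ^ 4 + conj b := by
    rw [hp]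
    simp only [map_add, map_neg, map_inv₀, map_pow]
    have : ((ρ:ℂ)) ^ 4 = z ^ 2 * conj z ^ 2 := by
      rw [← mul_pow, hzz]; ring
    rw [this]
    field_simp
  have h1 : ‖-(z ^ 2)⁻¹ + k‖ ^ 2 = ‖p‖ ^ 2 + 2 * (conj p * (k - b)).re + ‖k - b‖ ^ 2 := by
    have : -(z ^ 2)⁻¹ + k = p + (k - b) := by rw [hp]; ring
    rw [this, ← Complex.normSq_eq_norm_sq, ← Complex.normSq_eq_norm_sq,
      ← Complex.normSq_eq_norm_sq, Complex.normSq_add]
    have : (p * conj (k - b)).re = (conj p * (k - b)).re := by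
      simp [Complex.mul_re]
      ring
    rw [this]; ring
  have h2 : ‖p‖ ^ 2 = 1 / ρ ^ 4 + ‖b‖ ^ 2 + (-(2 / (ρ:ℂ) ^ 4) * b * z ^ 2).re := by
    have h3 : ((‖p‖ ^ 2 : ℝ) : ℂ) = p * conj p := by
      rw [Complex.mul_conj, Complex.normSq_eq_norm_sq]
    have h4 : ((‖b‖ ^ 2 : ℝ) : ℂ) = b * conj b := by
      rw [Complex.mul_conj, Complex.normSq_eq_norm_sq]
    have h5 : p * conj p = 1 / (ρ:ℂ) ^ 4 + b * conj b + (-(conj b * (z ^ 2)⁻¹)
        - b * z ^ 2 / (ρ:ℂ)^4) := by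
      rw [hcp, hp]
      field_simp
      ring
    have h6 : (conj b * (z ^ 2)⁻¹) = conj (b * z ^ 2 / (ρ:ℂ)^4) := by
      simp only [map_div₀, map_mul, map_pow, Complex.conj_ofReal]
      have : ((ρ:ℂ)) ^ 4 = z ^ 2 * conj z ^ 2 := by
        rw [← mul_pow, hzz]; ring
      rw [this]
      field_simp
    have h7 : (‖p‖ ^ 2 : ℝ) = ((‖p‖ ^ 2 : ℝ) : ℂ).re := (Complex.ofReal_re _).symm
    rw [h7, h3, h5, ← h4, h6]
    have e1 : (-(2 / (ρ:ℂ) ^ 4) * b * z ^ 2) = (-2 : ℝ) * (b * z ^ 2 / (ρ:ℂ)^4) := by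
      push_cast; ring
    rw [e1, Complex.re_ofReal_mul]
    have e2 : (1 / (ρ:ℂ) ^ 4) = ((1 / ρ ^ 4 : ℝ) : ℂ) := by push_cast; ring
    rw [e2]
    simp only [Complex.add_re, Complex.sub_re, Complex.neg_re, Complex.ofReal_re,
      Complex.conj_re]
    ring
  rw [h1, h2, hcp, Complex.add_re]
  have e3 : (2 * (-(z ^ 2) / (ρ:ℂ) ^ 4 + conj b) * (k - b)).re =
      2 * ((-(z ^ 2) / (ρ:ℂ) ^ 4 + conj b) * (k - b)).re := by
    rw [mul_assoc]
    have : (2 : ℂ) = ((2 : ℝ) : ℂ) := by norm_num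
    rw [this, Complex.re_ofReal_mul]
  rw [e3]
  have := sq_nonneg ‖k - b‖
  linarith


theorem area_lower {k : ℂ → ℂ} (hk : DifferentiableOn ℂ k (ball 0 1)) {ε r : ℝ} (hε : 0 < ε)
    (hεr : ε < r) (hr : r < 1) :
    IntegrableOn (fun z : ℂ => ‖-(z ^ 2)⁻¹ + k z‖ ^ 2) (ann ε r) ∧
    π * (1 / ε ^ 2 - 1 / r ^ 2) + π * ‖k 0‖ ^ 2 * (r ^ 2 - ε ^ 2) ≤
      ∫ z in ann ε r, ‖-(z ^ 2)⁻¹ + k z‖ ^ 2 := by
  set b : ℂ := k 0 with hb
  have hkc : ContinuousOn k (ball 0 1) := hk.continuousOn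
  have hsub : {z : ℂ | ε ≤ ‖z‖ ∧ ‖z‖ ≤ r} ⊆ ball 0 1 := by
    intro z hz
    rw [mem_ball_zero_iff]
    exact lt_of_le_of_lt hz.2 hr
  have hF : ContinuousOn (fun z : ℂ => ‖-(z ^ 2)⁻¹ + k z‖ ^ 2) {z : ℂ | ε ≤ ‖z‖ ∧ ‖z‖ ≤ r} := by
    apply ContinuousOn.pow
    apply ContinuousOn.norm
    apply ContinuousOn.add _ (hkc.mono hsub)
    apply ContinuousOn.neg
    apply ContinuousOn.inv₀ (continuous_pow 2).continuousOn
    intro z hz
    apply pow_ne_zero
    rw [← norm_pos_iff]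
    exact lt_of_lt_of_le hε hz.1
  obtain ⟨hI0, hI, he⟩ := polar_ann hε hF
  refine ⟨hI0, ?_⟩
  rw [he]
  -- circle inequality
  have hcirc : ∀ ρ ∈ Ioo ε r, 2 * π * (1 / ρ ^ 3 + ‖b‖ ^ 2 * ρ) ≤
      ∫ θ in Ioo (-π) π, ρ * ‖-(((ρ : ℂ) * eu θ) ^ 2)⁻¹ + k ((ρ : ℂ) * eu θ)‖ ^ 2 := by
    intro ρ hρ
    have hρ0 : 0 < ρ := hε.trans hρ.1
    have hρ1 : ρ < 1 := hρ.2.trans hr
    set Φ : ℂ → ℂ := fun z =>
      -(2 / (ρ:ℂ) ^ 4) * b * z ^ 2 + 2 * (-(z ^ 2) / (ρ:ℂ) ^ 4 + conj b) * (k z - b) with hΦ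
    have hΦd : DifferentiableOn ℂ Φ (ball 0 1) := by
      rw [hΦ]
      apply DifferentiableOn.add
      · fun_prop
      · apply DifferentiableOn.mul
        · fun_prop
        · exact hk.sub_const b
    have hΦ0 : Φ 0 = 0 := by simp [hΦ, hb]
    have hm := mean_zero hΦd hρ0 hρ1
    rw [hΦ0, smul_zero] at hm
    have hcurve : Continuous (fun θ : ℝ => (ρ : ℂ) * eu θ) := by fun_prop
    have hmaps : ∀ θ : ℝ, (ρ : ℂ) * eu θ ∈ ball (0:ℂ) 1 := by
      intro θ
      rw [mem_ball_zero_iff, norm_smul_eu hρ0.le]; exact hρ1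
    have hΦcont : Continuous (fun θ : ℝ => Φ ((ρ : ℂ) * eu θ)) :=
      hΦd.continuousOn.comp_continuous hcurve hmaps
    have hFcont : Continuous (fun θ : ℝ =>
        ρ * ‖-(((ρ : ℂ) * eu θ) ^ 2)⁻¹ + k ((ρ : ℂ) * eu θ)‖ ^ 2) := by
      apply Continuous.mul continuous_const
      apply hF.comp_continuous hcurve
      intro θ
      simp only [mem_ofPred_eq, norm_smul_eu hρ0.le]
      exact ⟨hρ.1.le, hρ.2.le⟩
    rw [← integral_Ioc_eq_integral_Ioo, ← intervalIntegral.integral_of_le (by linarith [Real.pi_pos])]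
    have hre : ∫ θ in (-π)..π, (Φ ((ρ : ℂ) * eu θ)).re = 0 := by
      have := Complex.reCLM.intervalIntegral_comp_comm
        (hΦcont.intervalIntegrable (μ := volume) (-π) π)
      simp only [Complex.reCLM_apply] at this
      rw [this, hm]; simp
    calc 2 * π * (1 / ρ ^ 3 + ‖b‖ ^ 2 * ρ)
        = ∫ θ in (-π)..π, (ρ * (1 / ρ ^ 4 + ‖b‖ ^ 2) + ρ * (Φ ((ρ : ℂ) * eu θ)).re) := by
          have hi2 : IntervalIntegrable (fun θ : ℝ => ρ * (Φ ((ρ : ℂ) * eu θ)).re) volume (-π) π :=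
            (continuous_const.mul (Complex.continuous_re.comp hΦcont)).intervalIntegrable _ _
          have hi3 : ∫ θ in (-π)..π, ρ * (Φ ((ρ : ℂ) * eu θ)).re = 0 := by
            rw [intervalIntegral.integral_const_mul, hre, mul_zero]
          rw [intervalIntegral.integral_add (by simp) hi2, hi3, intervalIntegral.integral_const]
          simp only [smul_eq_mul]
          field_simp
          ring
      _ ≤ _ := by
          apply intervalIntegral.integral_mono_on (by linarith [Real.pi_pos])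
          · exact (continuous_const.add
              (continuous_const.mul (Complex.continuous_re.comp hΦcont))).intervalIntegrable _ _
          · exact hFcont.intervalIntegrable _ _
          · intro θ _
            rw [← mul_add]
            apply mul_le_mul_of_nonneg_left _ hρ0.le
            apply lower_pt
            · rw [← norm_pos_iff, norm_smul_eu hρ0.le]; exact hρ0
            · exact norm_smul_eu hρ0.le θ
  have hlhs : π * (1 / ε ^ 2 - 1 / r ^ 2) + π * ‖b‖ ^ 2 * (r ^ 2 - ε ^ 2) =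
      ∫ ρ in Ioo ε r, 2 * π * (1 / ρ ^ 3 + ‖b‖ ^ 2 * ρ) := by
    rw [← integral_Ioc_eq_integral_Ioo, ← intervalIntegral.integral_of_le hεr.le]
    have hcont : ContinuousOn (fun ρ : ℝ => 2 * π * (1 / ρ ^ 3 + ‖b‖ ^ 2 * ρ)) (uIcc ε r) := by
      rw [uIcc_of_le hεr.le]
      intro x hx
      have : x ≠ 0 := (hε.trans_le hx.1).ne'
      apply ContinuousAt.continuousWithinAt
      fun_prop (disch := positivity)
    rw [intervalIntegral.integral_eq_sub_of_hasDerivAt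
      (f := fun ρ : ℝ => -π * (1 / ρ ^ 2) + π * ‖b‖ ^ 2 * ρ ^ 2)]
    · ring
    · intro x hx
      rw [uIcc_of_le hεr.le] at hx
      have hx0 : x ≠ 0 := (hε.trans_le hx.1).ne'
      have h1 : HasDerivAt (fun ρ : ℝ => 1 / ρ ^ 2) (-(2 * x) / (x ^ 2) ^ 2) x := by
        have := (hasDerivAt_pow 2 x).fun_inv (pow_ne_zero 2 hx0)
        simpa using this
      have h2 := (h1.const_mul (-π)).add ((hasDerivAt_pow 2 x).const_mul (π * ‖b‖ ^ 2))
      have h3 : -π * (-(2 * x) / (x ^ 2) ^ 2) + π * ‖b‖ ^ 2 * (((2 : ℕ) : ℝ) * x ^ (2 - 1)) =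
          2 * π * (1 / x ^ 3 + ‖b‖ ^ 2 * x) := by
        norm_num
        field_simp
      rw [h3] at h2
      exact h2
    · exact hcont.intervalIntegrable
  rw [hlhs]
  apply setIntegral_mono_on _ hI measurableSet_Ioo hcirc
  have : ContinuousOn (fun ρ : ℝ => 2 * π * (1 / ρ ^ 3 + ‖b‖ ^ 2 * ρ)) (Icc ε r) := by
    intro x hx
    have : x ≠ 0 := (hε.trans_le hx.1).ne'
    apply ContinuousAt.continuousWithinAt
    fun_prop (disch := positivity)
  exact (this.integrableOn_compact isCompact_Icc).mono_set Ioo_subset_Icc_self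


theorem vol_image {G G' : ℂ → ℂ} {s : Set ℂ} (hs : MeasurableSet s)
    (hG : ∀ z ∈ s, HasDerivAt G (G' z) z) (hinj : InjOn G s) :
    ∫⁻ z in s, ENNReal.ofReal (‖G' z‖ ^ 2) = volume (G '' s) := by
  rw [← lintegral_abs_det_fderiv_eq_addHaar_image volume hs
    (fun z hz => ((hG z hz).hasFDerivAt.restrictScalars ℝ).hasFDerivWithinAt) hinj]
  apply setLIntegral_congr_fun hs
  intro z _
  simp only
  congr 1
  simp [ContinuousLinearMap.det, LinearMap.det_restrictScalars, Algebra.norm_complex_eq,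
    Complex.normSq_eq_norm_sq]

/-- the ellipse `{w : |w - c conj w| ≤ T}` -/
def ell (c : ℂ) (T : ℝ) : Set ℂ := {w | ‖w - c * conj w‖ ≤ T}

/-- the linear map `w - c conj w` -/
noncomputable def lmap (c : ℂ) : ℂ →ₗ[ℝ] ℂ where
  toFun w := w - c * conj w
  map_add' x y := by simp only [map_add]; ring
  map_smul' r x := by
    simp only [Complex.real_smul, map_mul, Complex.conj_ofReal, RingHom.id_apply]; ring

theorem det_lmap (c : ℂ) : LinearMap.det (lmap c) = 1 - ‖c‖ ^ 2 := by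
  rw [← LinearMap.det_toMatrix Complex.basisOneI, Matrix.det_fin_two]
  simp only [LinearMap.toMatrix_apply, Complex.coe_basisOneI, Complex.coe_basisOneI_repr]
  rw [← Complex.normSq_eq_norm_sq, Complex.normSq_apply]
  simp [lmap]
  ring

theorem vol_ell (c : ℂ) (hc : ‖c‖ < 1) {T : ℝ} (hT : 0 ≤ T) :
    volume (ell c T) = ENNReal.ofReal (π * T ^ 2 / (1 - ‖c‖ ^ 2)) := by
  have hd : LinearMap.det (lmap c) ≠ 0 := by
    rw [det_lmap]
    nlinarith [norm_nonneg c]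
  have h1 : ell c T = lmap c ⁻¹' (closedBall 0 T) := by
    ext w
    simp [ell, lmap]
  rw [h1, Measure.addHaar_preimage_linearMap volume hd, Complex.volume_closedBall, det_lmap]
  have hp : 0 < 1 - ‖c‖ ^ 2 := by nlinarith [norm_nonneg c]
  rw [abs_of_pos (inv_pos.2 hp)]
  have e1 : (NNReal.pi : ENNReal) = ENNReal.ofReal π := by
    rw [ENNReal.ofReal, Real.toNNReal_of_nonneg Real.pi_pos.le]; rfl
  rw [e1, ← ENNReal.ofReal_pow hT, ← ENNReal.ofReal_mul (by positivity),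
    ← ENNReal.ofReal_mul (inv_pos.2 hp).le]
  congr 1
  field_simp

theorem isPreconnected_vset_aux {c u : ℂ} {T s : ℝ} (hT : 0 ≤ T) (hs0 : 0 < s) (hs1 : s ≤ 1)
    (h : T * ‖u‖ ^ 2 < ‖conj u - c * u‖) :
    T * ‖(s : ℂ) * u‖ ^ 2 < ‖conj ((s : ℂ) * u) - c * ((s : ℂ) * u)‖ := by
  have e1 : conj ((s : ℂ) * u) - c * ((s : ℂ) * u) = (s : ℂ) * (conj u - c * u) := by
    rw [map_mul, Complex.conj_ofReal]; ring
  rw [e1, norm_mul, norm_mul, Complex.norm_real, Real.norm_eq_abs, abs_of_pos hs0]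
  have h1 : T * (s * ‖u‖) ^ 2 ≤ s * (T * ‖u‖ ^ 2) := by
    have : T * (s * ‖u‖) ^ 2 = s * (s * (T * ‖u‖ ^ 2)) := by ring
    rw [this]
    apply mul_le_mul_of_nonneg_left _ hs0.le
    have h2 : 0 ≤ T * ‖u‖ ^ 2 := by positivity
    nlinarith
  have h3 : s * (T * ‖u‖ ^ 2) < s * ‖conj u - c * u‖ := mul_lt_mul_of_pos_left h hs0
  linarith

/-- the inverted exterior of the ellipse, together with `0` -/
def vset (c : ℂ) (T : ℝ) : Set ℂ := {u | u = 0 ∨ T * ‖u‖ ^ 2 < ‖conj u - c * u‖}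

theorem isPreconnected_vset (c : ℂ) {T : ℝ} (hT : 0 ≤ T) : IsPreconnected (vset c T) := by
  apply isPreconnected_of_forall (0 : ℂ)
  intro y hy
  refine ⟨segment ℝ 0 y, ?_, left_mem_segment ℝ 0 y, right_mem_segment ℝ 0 y,
    (convex_segment 0 y).isPreconnected⟩
  rintro x ⟨a, s, ha, hs, has, rfl⟩
  rw [smul_zero, zero_add, Complex.real_smul]
  rcases hy with hy | hy
  · left; simp [hy]
  rcases hs.eq_or_lt with hs | hs
  · left; simp [← hs]
  right
  exact isPreconnected_vset_aux hT hs (by linarith) hy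

theorem mem_vset_iff {c u : ℂ} {T : ℝ} (hu : u ≠ 0) : u ∈ vset c T ↔ u⁻¹ ∉ ell c T := by
  have hn : 0 < ‖u‖ ^ 2 := by positivity
  have h1 : ‖u⁻¹ - c * conj u⁻¹‖ = ‖conj u - c * u‖ / ‖u‖ ^ 2 := by
    have e1 : ((‖u‖ ^ 2 : ℝ) : ℂ) = u * conj u := by
      rw [Complex.mul_conj, Complex.normSq_eq_norm_sq]
    have hcu : conj u ≠ 0 := by
      intro h; apply hu; simpa using h
    have e2 : u⁻¹ - c * conj u⁻¹ = (conj u - c * u) / ((‖u‖ ^ 2 : ℝ) : ℂ) := by
      rw [e1, map_inv₀]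
      field_simp
    rw [e2, norm_div, Complex.norm_real, Real.norm_eq_abs, abs_of_pos hn]
  simp only [vset, ell, mem_ofPred_eq, not_le]
  rw [h1, lt_div_iff₀ hn]
  constructor
  · rintro (h | h)
    · exact absurd h hu
    · exact h
  · intro h; exact Or.inr h

theorem contain {g : ℂ → ℂ} (hg : DifferentiableOn ℂ g (ball 0 1)) (hinj : InjOn g (ball 0 1))
    (h0 : g 0 = 0) {ε : ℝ} (hε : 0 < ε) (hε1 : ε < 1) {V : Set ℂ} (hV : IsPreconnected V)
    (h0V : (0 : ℂ) ∈ V) (hsph : ∀ z : ℂ, ‖z‖ = ε → g z ∉ V) :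
    V ⊆ g '' ball 0 ε := by
  have hb : ball (0:ℂ) ε ⊆ ball 0 1 := ball_subset_ball hε1.le
  have hcb : closedBall (0:ℂ) ε ⊆ ball 0 1 := closedBall_subset_ball hε1
  apply hV.subset_left_of_subset_union (u := g '' ball 0 ε) (v := (g '' closedBall 0 ε)ᶜ)
  · exact isOpen_image_of_injOn isOpen_ball (hg.mono hb) (hinj.mono hb)
  · apply isOpen_compl_iff.2
    exact ((isCompact_closedBall _ _).image_of_continuousOn (hg.continuousOn.mono hcb)).isClosed
  · apply disjoint_compl_right.mono_left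
    exact image_mono ball_subset_closedBall
  · intro u hu
    by_cases h : u ∈ g '' closedBall 0 ε
    · left
      obtain ⟨z, hz, rfl⟩ := h
      rw [mem_closedBall_zero_iff] at hz
      rcases hz.lt_or_eq with hz | hz
      · exact ⟨z, by simpa using hz, rfl⟩
      · exact absurd hu (hsph z hz)
    · right; exact h
  · exact ⟨0, h0V, 0, mem_ball_self hε, h0⟩

/-- one step of the area theorem -/
theorem area_step {g ψ : ℂ → ℂ} (hg : DifferentiableOn ℂ g (ball 0 1))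
    (hinj : InjOn g (ball 0 1)) (hψ : DifferentiableOn ℂ ψ (ball 0 1))
    (hgψ : ∀ z ∈ ball (0:ℂ) 1, g z * ψ z = z) (hψ0 : ψ 0 = 1) (hψ1 : deriv ψ 0 = 0)
    {C : ℝ} (hC0 : 0 ≤ C)
    (hC : ∀ z : ℂ, ‖z‖ ≤ 1 / 2 → ‖dslope ψ 0 z - deriv (dslope ψ 0) 0 * z‖ ≤ C * ‖z‖ ^ 2 ∧
      ‖dslope ψ 0 z‖ ≤ C)
    {ε r : ℝ} (hε : 0 < ε) (hε2 : ε ≤ 1 / 2) (hεr : ε < r) (hr : r < 1)
    (hbε : ‖deriv (dslope ψ 0) 0‖ * ε ^ 2 < 1) :
    (1 / ε ^ 2 - 1 / r ^ 2) + ‖deriv (dslope ψ 0) 0‖ ^ 2 * (r ^ 2 - ε ^ 2) ≤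
      (1 / ε + C * (1 + ‖deriv (dslope ψ 0) 0‖) * ε ^ 2) ^ 2 /
        (1 - (‖deriv (dslope ψ 0) 0‖ * ε ^ 2) ^ 2) := by
  set h : ℂ → ℂ := dslope ψ 0 with hh
  set b : ℂ := deriv h 0 with hb
  have hhd : DifferentiableOn ℂ h (ball 0 1) :=
    (Complex.differentiableOn_dslope (ball_mem_nhds 0 one_pos)).2 hψ
  have h00 : h 0 = 0 := by rw [hh, dslope_same, hψ1]
  have hψh : ∀ z, ψ z = 1 + z * h z := by
    intro z
    have := sub_smul_dslope ψ 0 z
    rw [sub_zero, hψ0, smul_eq_mul] at this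
    rw [hh, this]; ring
  have hkd : DifferentiableOn ℂ (deriv h) (ball 0 1) := hhd.deriv isOpen_ball
  have hg0 : g 0 = 0 := by
    have := hgψ 0 (mem_ball_self one_pos)
    rwa [hψ0, mul_one] at this
  have hgne : ∀ z ∈ ball (0:ℂ) 1, z ≠ 0 → g z ≠ 0 := by
    intro z hz hz0 h1
    have := hgψ z hz
    rw [h1, zero_mul] at this
    exact hz0 this.symm
  have hginv : ∀ z ∈ ball (0:ℂ) 1, z ≠ 0 → (g z)⁻¹ = z⁻¹ + h z := by
    intro z hz hz0
    have h1 := hgψ z hz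
    have h2 := hgne z hz hz0
    have h3 : ψ z = z * (g z)⁻¹ := by
      field_simp
      rw [mul_comm]; exact h1
    have h4 : z * (g z)⁻¹ = 1 + z * h z := by rw [← h3]; exact hψh z
    have h5 : (g z)⁻¹ = z⁻¹ * (z * (g z)⁻¹) := by
      field_simp
    rw [h5, h4]; field_simp
  set c : ℂ := b * (ε : ℂ) ^ 2 with hc
  have hcn : ‖c‖ = ‖b‖ * ε ^ 2 := by
    rw [hc, norm_mul, norm_pow, Complex.norm_real, Real.norm_eq_abs, abs_of_pos hε]
  have hc1 : ‖c‖ < 1 := by rw [hcn]; exact hbε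
  set T : ℝ := 1 / ε + C * (1 + ‖b‖) * ε ^ 2 with hT
  have hT0 : 0 ≤ T := by positivity
  have hε1 : ε < 1 := hεr.trans hr
  -- the circle `|z| = ε` is mapped into the ellipse
  have hsph : ∀ z : ℂ, ‖z‖ = ε → g z ∉ vset c T := by
    intro z hz
    have hz0 : z ≠ 0 := by rw [← norm_pos_iff, hz]; exact hε
    have hz1 : z ∈ ball (0:ℂ) 1 := by rw [mem_ball_zero_iff, hz]; exact hε1
    rw [mem_vset_iff (hgne z hz1 hz0), not_not, hginv z hz1 hz0]
    simp only [ell, mem_ofPred_eq]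
    have hzz : z * conj z = (ε : ℂ) ^ 2 := by
      rw [Complex.mul_conj, Complex.normSq_eq_norm_sq, hz]; push_cast; ring
    have hcz : conj z ≠ 0 := by
      intro h; apply hz0; simpa using h
    have e1 : z⁻¹ + h z - c * conj (z⁻¹ + h z) =
        z⁻¹ + (h z - b * z) - c * conj (h z) := by
      rw [map_add, map_inv₀, hc, ← hzz]
      field_simp
      ring
    rw [e1]
    obtain ⟨k1, k2⟩ := hC z (by rw [hz]; exact hε2)
    calc ‖z⁻¹ + (h z - b * z) - c * conj (h z)‖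
        ≤ ‖z⁻¹‖ + ‖h z - b * z‖ + ‖c * conj (h z)‖ :=
          (norm_sub_le _ _).trans (add_le_add_left (norm_add_le _ _) _)
      _ ≤ 1 / ε + C * ε ^ 2 + (‖b‖ * ε ^ 2) * C := by
          gcongr
          · rw [norm_inv, hz, one_div]
          · rw [← hz]; exact k1
          · rw [norm_mul, hcn, RCLike.norm_conj]
            exact mul_le_mul_of_nonneg_left k2 (by positivity)
      _ = T := by rw [hT]; ring
  have hcont := contain hg hinj hg0 hε hε1 (isPreconnected_vset c hT0) (Or.inl rfl) hsph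
  -- the image of the annulus lies in the ellipse
  have hann1 : ann ε r ⊆ ball 0 1 := by
    intro z hz
    rw [mem_ball_zero_iff]; exact hz.2.trans hr
  have hann0 : ∀ z ∈ ann ε r, z ≠ 0 := by
    intro z hz
    rw [← norm_pos_iff]; exact hε.trans hz.1
  have himg : (fun z => (g z)⁻¹) '' ann ε r ⊆ ell c T := by
    rintro _ ⟨z, hz, rfl⟩
    by_contra hcon
    simp only at hcon
    rw [← mem_vset_iff (hgne z (hann1 hz) (hann0 z hz))] at hcon
    obtain ⟨y, hy, hyz⟩ := hcont hcon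
    have : y = z := hinj (ball_subset_ball hε1.le hy) (hann1 hz) hyz
    rw [this, mem_ball_zero_iff] at hy
    exact lt_asymm hy hz.1
  have hder : ∀ z ∈ ann ε r, HasDerivAt (fun z => (g z)⁻¹) (-(z ^ 2)⁻¹ + deriv h z) z := by
    intro z hz
    have hz1 := hann1 hz
    have hz0 := hann0 z hz
    have h1 : HasDerivAt h (deriv h z) z :=
      (hhd.differentiableAt (isOpen_ball.mem_nhds hz1)).hasDerivAt
    have h2 : HasDerivAt (fun z : ℂ => z⁻¹ + h z) (-(z ^ 2)⁻¹ + deriv h z) z :=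
      (hasDerivAt_inv hz0).add h1
    apply h2.congr_of_eventuallyEq
    filter_upwards [(isOpen_ann ε r).mem_nhds hz] with y hy
    exact hginv y (hann1 hy) (hann0 y hy)
  have hinj' : InjOn (fun z => (g z)⁻¹) (ann ε r) := by
    intro x hx y hy hxy
    exact hinj (hann1 hx) (hann1 hy) (inv_injective hxy)
  have hvol := vol_image (isOpen_ann ε r).measurableSet hder hinj'
  obtain ⟨hint, hlow⟩ := area_lower hkd hε hεr hr
  have h1 : ENNReal.ofReal (∫ z in ann ε r, ‖-(z ^ 2)⁻¹ + deriv h z‖ ^ 2) ≤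
      ENNReal.ofReal (π * T ^ 2 / (1 - ‖c‖ ^ 2)) := by
    rw [ofReal_integral_eq_lintegral_ofReal hint (by
      filter_upwards with z
      positivity), hvol, ← vol_ell c hc1 hT0]
    exact measure_mono himg
  have hp : 0 < 1 - ‖c‖ ^ 2 := by nlinarith [norm_nonneg c]
  have h2 := (ENNReal.ofReal_le_ofReal_iff (by positivity)).1 h1
  have h3 := hlow.trans h2
  rw [hcn] at h3
  have h4 : π * ((1 / ε ^ 2 - 1 / r ^ 2) + ‖b‖ ^ 2 * (r ^ 2 - ε ^ 2)) ≤
      π * (T ^ 2 / (1 - (‖b‖ * ε ^ 2) ^ 2)) := by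
    calc _ = π * (1 / ε ^ 2 - 1 / r ^ 2) + π * ‖b‖ ^ 2 * (r ^ 2 - ε ^ 2) := by ring
      _ ≤ _ := h3
      _ = _ := by ring
  exact le_of_mul_le_mul_left h4 Real.pi_pos

/-- **Area theorem** (first coefficient). `g` univalent on the disc, `g(z) ψ(z) = z`,
`ψ(z) = 1 + β z² + ...`, i.e. `1/g = 1/z + β z + ...`; then `|β| ≤ 1`. -/
theorem area_theorem {g ψ : ℂ → ℂ} (hg : DifferentiableOn ℂ g (ball 0 1))
    (hinj : InjOn g (ball 0 1)) (hψ : DifferentiableOn ℂ ψ (ball 0 1))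
    (hgψ : ∀ z ∈ ball (0:ℂ) 1, g z * ψ z = z) (hψ0 : ψ 0 = 1) (hψ1 : deriv ψ 0 = 0) :
    ‖deriv (dslope ψ 0) 0‖ ≤ 1 := by
  set h : ℂ → ℂ := dslope ψ 0 with hh
  set b : ℂ := deriv h 0 with hb
  have hhd : DifferentiableOn ℂ h (ball 0 1) :=
    (Complex.differentiableOn_dslope (ball_mem_nhds 0 one_pos)).2 hψ
  have h00 : h 0 = 0 := by rw [hh, dslope_same, hψ1]
  -- second order bound
  obtain ⟨C, hC0, hC⟩ : ∃ C : ℝ, 0 ≤ C ∧ ∀ z : ℂ, ‖z‖ ≤ 1 / 2 →
      ‖h z - b * z‖ ≤ C * ‖z‖ ^ 2 ∧ ‖h z‖ ≤ C := by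
    set h1 : ℂ → ℂ := dslope h 0 with hh1
    have hh1d : DifferentiableOn ℂ h1 (ball 0 1) :=
      (Complex.differentiableOn_dslope (ball_mem_nhds 0 one_pos)).2 hhd
    set h2 : ℂ → ℂ := dslope h1 0 with hh2
    have hh2d : DifferentiableOn ℂ h2 (ball 0 1) :=
      (Complex.differentiableOn_dslope (ball_mem_nhds 0 one_pos)).2 hh1d
    have hsub : closedBall (0:ℂ) (1/2) ⊆ ball 0 1 := closedBall_subset_ball (by norm_num)
    obtain ⟨C1, hC1⟩ := (isCompact_closedBall (0:ℂ) (1/2)).exists_bound_of_continuousOn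
      (hh2d.continuousOn.mono hsub)
    obtain ⟨C2, hC2⟩ := (isCompact_closedBall (0:ℂ) (1/2)).exists_bound_of_continuousOn
      (hhd.continuousOn.mono hsub)
    refine ⟨max (max C1 C2) 0, le_max_right _ _, fun z hz => ?_⟩
    have hzm : z ∈ closedBall (0:ℂ) (1/2) := by rwa [mem_closedBall_zero_iff]
    have e1 : h z = z * h1 z := by
      have := sub_smul_dslope h 0 z
      rw [sub_zero, h00, smul_eq_mul, sub_zero] at this
      rw [hh1, this]
    have e2 : h1 z - b = z * h2 z := by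
      have := sub_smul_dslope h1 0 z
      rw [sub_zero, smul_eq_mul] at this
      rw [hh2, this]
      congr 1
      rw [hh1, dslope_same]
    have e3 : h z - b * z = z ^ 2 * h2 z := by
      rw [e1, show z * h1 z - b * z = z * (h1 z - b) by ring, e2]; ring
    constructor
    · rw [e3, norm_mul, norm_pow, mul_comm]
      apply mul_le_mul_of_nonneg_right _ (by positivity)
      exact (hC1 z hzm).trans ((le_max_left _ _).trans (le_max_left _ _))
    · exact (hC2 z hzm).trans ((le_max_right _ _).trans (le_max_left _ _))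
  -- limit ε → 0
  have key : ∀ r : ℝ, 0 < r → r < 1 → ‖b‖ ^ 2 * r ^ 4 ≤ 1 := by
    intro r hr0 hr1
    set K : ℝ := C * (1 + ‖b‖) with hK
    -- the inequality for small ε
    have hineq : ∀ᶠ ε : ℝ in 𝓝[>] 0, ‖b‖ ^ 2 * (r ^ 2 - ε ^ 2) - 1 / r ^ 2 ≤
        (2 * K * ε + K ^ 2 * ε ^ 4 + ‖b‖ ^ 2 * ε ^ 2) / (1 - (‖b‖ * ε ^ 2) ^ 2) := by
      have a1 : ∀ᶠ ε : ℝ in 𝓝[>] 0, ε < min (1/2) r :=
        nhdsWithin_le_nhds (gt_mem_nhds (lt_min (by norm_num) hr0))
      have a2 : ∀ᶠ ε : ℝ in 𝓝[>] 0, ‖b‖ * ε ^ 2 < 1 := by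
        have : Tendsto (fun ε : ℝ => ‖b‖ * ε ^ 2) (𝓝 0) (𝓝 (‖b‖ * 0 ^ 2)) := by
          apply Continuous.tendsto; fun_prop
        have h2 := this.eventually (gt_mem_nhds (show ‖b‖ * 0 ^ 2 < 1 by simp))
        exact nhdsWithin_le_nhds h2
      filter_upwards [a1, a2, self_mem_nhdsWithin] with ε h1 h2 h3
      have hε : 0 < ε := h3
      have h4 := area_step hg hinj hψ hgψ hψ0 hψ1 hC0 hC hε (h1.le.trans (min_le_left _ _))
        (h1.trans_le (min_le_right _ _)) hr1 h2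
      have hp : 0 < 1 - (‖b‖ * ε ^ 2) ^ 2 := by
        have : 0 ≤ ‖b‖ * ε ^ 2 := by positivity
        nlinarith
      have h5 : (1 / ε + K * ε ^ 2) ^ 2 / (1 - (‖b‖ * ε ^ 2) ^ 2) - 1 / ε ^ 2 =
          (2 * K * ε + K ^ 2 * ε ^ 4 + ‖b‖ ^ 2 * ε ^ 2) / (1 - (‖b‖ * ε ^ 2) ^ 2) := by
        have h6 : (1 / ε + K * ε ^ 2) ^ 2 - (1 - (‖b‖ * ε ^ 2) ^ 2) / ε ^ 2 =
            2 * K * ε + K ^ 2 * ε ^ 4 + ‖b‖ ^ 2 * ε ^ 2 := by
          field_simp
          ring
        rw [← h6, sub_div, div_div, mul_comm (ε ^ 2), ← div_div, div_self hp.ne']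
      rw [← h5]
      change (1 / ε ^ 2 - 1 / r ^ 2) + ‖b‖ ^ 2 * (r ^ 2 - ε ^ 2) ≤
        (1 / ε + K * ε ^ 2) ^ 2 / (1 - (‖b‖ * ε ^ 2) ^ 2) at h4
      linarith
    have hl : Tendsto (fun ε : ℝ => ‖b‖ ^ 2 * (r ^ 2 - ε ^ 2) - 1 / r ^ 2) (𝓝[>] 0)
        (𝓝 (‖b‖ ^ 2 * (r ^ 2 - 0 ^ 2) - 1 / r ^ 2)) := by
      apply Tendsto.mono_left _ nhdsWithin_le_nhds
      apply Continuous.tendsto (f := fun ε : ℝ => ‖b‖ ^ 2 * (r ^ 2 - ε ^ 2) - 1 / r ^ 2)
      fun_prop
    have hrr : Tendsto (fun ε : ℝ =>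
        (2 * K * ε + K ^ 2 * ε ^ 4 + ‖b‖ ^ 2 * ε ^ 2) / (1 - (‖b‖ * ε ^ 2) ^ 2)) (𝓝[>] 0)
        (𝓝 ((2 * K * 0 + K ^ 2 * 0 ^ 4 + ‖b‖ ^ 2 * 0 ^ 2) / (1 - (‖b‖ * 0 ^ 2) ^ 2))) := by
      apply Tendsto.mono_left _ nhdsWithin_le_nhds
      apply Tendsto.div
      · apply Continuous.tendsto
          (f := fun ε : ℝ => 2 * K * ε + K ^ 2 * ε ^ 4 + ‖b‖ ^ 2 * ε ^ 2)
        fun_prop
      · apply Continuous.tendsto (f := fun ε : ℝ => 1 - (‖b‖ * ε ^ 2) ^ 2)
        fun_prop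
      · simp
    have hfin := le_of_tendsto_of_tendsto hl hrr hineq
    have h6 : ‖b‖ ^ 2 * r ^ 2 ≤ 1 / r ^ 2 := by
      have : (2 * K * 0 + K ^ 2 * 0 ^ 4 + ‖b‖ ^ 2 * 0 ^ 2) / (1 - (‖b‖ * 0 ^ 2) ^ 2) = 0 := by
        simp
      rw [this] at hfin
      linarith
    rw [le_div_iff₀ (by positivity)] at h6
    calc ‖b‖ ^ 2 * r ^ 4 = ‖b‖ ^ 2 * r ^ 2 * r ^ 2 := by ring
      _ ≤ 1 := h6
  have hlim : ‖b‖ ^ 2 * 1 ^ 4 ≤ 1 := by
    have h1 : Tendsto (fun r : ℝ => ‖b‖ ^ 2 * r ^ 4) (𝓝[<] 1) (𝓝 (‖b‖ ^ 2 * 1 ^ 4)) := by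
      apply Tendsto.mono_left _ nhdsWithin_le_nhds
      apply Continuous.tendsto (f := fun r : ℝ => ‖b‖ ^ 2 * r ^ 4)
      fun_prop
    apply le_of_tendsto h1
    have h2 : ∀ᶠ r : ℝ in 𝓝[<] 1, 0 < r := nhdsWithin_le_nhds (lt_mem_nhds one_pos)
    filter_upwards [h2, self_mem_nhdsWithin] with r hr0 hr1
    exact key r hr0 hr1
  nlinarith [norm_nonneg b]

/-- nonvanishing analytic functions on the disc have analytic square roots -/
theorem exists_sqrt {φ : ℂ → ℂ} (hφ : DifferentiableOn ℂ φ (ball 0 1))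
    (hne : ∀ z ∈ ball (0:ℂ) 1, φ z ≠ 0) (h1 : φ 0 = 1) :
    ∃ s : ℂ → ℂ, DifferentiableOn ℂ s (ball 0 1) ∧ s 0 = 1 ∧
      ∀ z ∈ ball (0:ℂ) 1, s z ^ 2 = φ z := by
  have hd : DifferentiableOn ℂ (fun z => deriv φ z / φ z) (ball 0 1) :=
    (hφ.deriv isOpen_ball).div hφ hne
  obtain ⟨L0, hL0⟩ := hd.isExactOn_ball
  set L : ℂ → ℂ := fun z => L0 z - L0 0 with hL
  have hLd : ∀ z ∈ ball (0:ℂ) 1, HasDerivAt L (deriv φ z / φ z) z := by
    intro z hz
    exact (hL0 z hz).sub_const _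
  have hconst : ∀ z ∈ ball (0:ℂ) 1, φ z * Complex.exp (-L z) = 1 := by
    have hF : ∀ z ∈ ball (0:ℂ) 1, HasDerivAt (fun z => φ z * Complex.exp (-L z)) 0 z := by
      intro z hz
      have a1 : HasDerivAt φ (deriv φ z) z :=
        (hφ.differentiableAt (isOpen_ball.mem_nhds hz)).hasDerivAt
      have a2 := (hLd z hz).neg.cexp
      have a3 := a1.mul a2
      have a4 : deriv φ z * Complex.exp (-L z) +
          φ z * (Complex.exp (-L z) * -(deriv φ z / φ z)) = 0 := by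
        have := hne z hz
        field_simp
        ring
      rw [← a4]
      exact a3
    intro z hz
    have hconv : Convex ℝ (ball (0:ℂ) 1) := convex_ball 0 1
    have := hconv.is_const_of_fderivWithin_eq_zero (𝕜 := ℂ)
      (f := fun z => φ z * Complex.exp (-L z))
      (fun z hz => (hF z hz).differentiableAt.differentiableWithinAt) ?_ hz
      (mem_ball_self one_pos)
    · rw [this, h1, hL]; simp
    · intro x hx
      rw [fderivWithin_of_isOpen isOpen_ball hx, (hF x hx).hasFDerivAt.fderiv]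
      ext
      simp
  refine ⟨fun z => Complex.exp (L z / 2), ?_, ?_, ?_⟩
  · intro z hz
    exact ((hLd z hz).div_const 2).cexp.differentiableAt.differentiableWithinAt
  · simp [hL]
  · intro z hz
    have a1 := hconst z hz
    have a2 : φ z = Complex.exp (L z) := by
      have : φ z * Complex.exp (-L z) * Complex.exp (L z) = Complex.exp (L z) := by
        rw [a1, one_mul]
      rwa [mul_assoc, ← Complex.exp_add, neg_add_cancel, Complex.exp_zero, mul_one] at this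
    simp only
    rw [a2, ← Complex.exp_nat_mul]
    congr 1
    push_cast; ring

theorem bieberbach_normalized {f : ℂ → ℂ} (hf : DifferentiableOn ℂ f (ball 0 1))
    (hinj : InjOn f (ball 0 1)) (h0 : f 0 = 0) (h1 : deriv f 0 = 1) :
    ‖deriv (deriv f) 0‖ ≤ 4 := by
  have h0m : (0:ℂ) ∈ ball (0:ℂ) 1 := mem_ball_self one_pos
  have hnh : ball (0:ℂ) 1 ∈ 𝓝 (0:ℂ) := ball_mem_nhds 0 one_pos
  set φ : ℂ → ℂ := dslope f 0 with hφ
  have hφd : DifferentiableOn ℂ φ (ball 0 1) :=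
    (Complex.differentiableOn_dslope hnh).2 hf
  have hfφ : ∀ z, f z = z * φ z := by
    intro z
    have := sub_smul_dslope f 0 z
    rw [sub_zero, h0, smul_eq_mul, sub_zero] at this
    rw [hφ, this]
  have hφ0 : φ 0 = 1 := by rw [hφ, dslope_same, h1]
  have hφne : ∀ z ∈ ball (0:ℂ) 1, φ z ≠ 0 := by
    intro z hz hz0
    by_cases h : z = 0
    · rw [h, hφ0] at hz0; exact one_ne_zero hz0
    · apply h
      apply hinj hz h0m
      rw [hfφ z, hz0, mul_zero, h0]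
  obtain ⟨s, hsd, hs0, hs⟩ := exists_sqrt hφd hφne hφ0
  have hsne : ∀ z ∈ ball (0:ℂ) 1, s z ≠ 0 := by
    intro z hz h
    apply hφne z hz
    rw [← hs z hz, h]; simp
  have hsq : ∀ z ∈ ball (0:ℂ) 1, z ^ 2 ∈ ball (0:ℂ) 1 := by
    intro z hz
    rw [mem_ball_zero_iff] at hz ⊢
    rw [norm_pow]
    have := norm_nonneg z
    nlinarith
  have hsqd : DifferentiableOn ℂ (fun z : ℂ => z ^ 2) (ball 0 1) := by fun_prop
  set τ : ℂ → ℂ := fun z => (s z)⁻¹ with hτ
  have hτd : DifferentiableOn ℂ τ (ball 0 1) := hsd.inv hsne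
  set g : ℂ → ℂ := fun z => z * s (z ^ 2) with hg
  set ψ : ℂ → ℂ := fun z => τ (z ^ 2) with hψ
  have hgd : DifferentiableOn ℂ g (ball 0 1) := by
    apply DifferentiableOn.mul differentiableOn_id
    exact hsd.comp hsqd hsq
  have hψd : DifferentiableOn ℂ ψ (ball 0 1) := hτd.comp hsqd hsq
  have hg2 : ∀ z ∈ ball (0:ℂ) 1, g z ^ 2 = f (z ^ 2) := by
    intro z hz
    rw [hg]
    simp only
    rw [mul_pow, hs _ (hsq z hz), hfφ]
  have hginj : InjOn g (ball 0 1) := by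
    intro x hx y hy hxy
    have h2 : f (x ^ 2) = f (y ^ 2) := by rw [← hg2 x hx, ← hg2 y hy, hxy]
    have h3 := hinj (hsq x hx) (hsq y hy) h2
    rcases sq_eq_sq_iff_eq_or_eq_neg.1 h3 with h4 | h4
    · exact h4
    · have h5 : g x = - g x := by
        conv_rhs => rw [hxy]
        rw [hg]
        simp only
        rw [h4]; simp
      have h6 : g x = 0 := by
        have : g x + g x = 0 := by nth_rewrite 1 [h5]; ring
        exact add_self_eq_zero.1 this
      rw [hg] at h6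
      simp only at h6
      rcases mul_eq_zero.1 h6 with h7 | h7
      · rw [h7] at h4
        rw [h7]
        have : y = -(-y) := (neg_neg y).symm
        rw [this, ← h4, neg_zero]
      · exact absurd h7 (hsne _ (hsq x hx))
  have hgψ : ∀ z ∈ ball (0:ℂ) 1, g z * ψ z = z := by
    intro z hz
    rw [hg, hψ, hτ]
    simp only
    rw [mul_assoc, mul_inv_cancel₀ (hsne _ (hsq z hz)), mul_one]
  have hψ0 : ψ 0 = 1 := by simp [hψ, hτ, hs0]
  have hτ' : HasDerivAt τ (deriv τ 0) ((0:ℂ) ^ 2) := by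
    have : (0:ℂ)^2 = 0 := by simp
    rw [this]
    exact (hτd.differentiableAt hnh).hasDerivAt
  have hsq' : HasDerivAt (fun z : ℂ => z ^ 2) 0 0 := by
    have := hasDerivAt_pow 2 (0:ℂ)
    simpa using this
  have hψ1 : deriv ψ 0 = 0 := by
    have := hτ'.comp (0:ℂ) hsq'
    rw [mul_zero] at this
    exact this.deriv
  have harea := area_theorem hgd hginj hψd hgψ hψ0 hψ1
  -- compute the coefficient
  have hds : dslope ψ 0 = fun z => z * dslope τ 0 (z ^ 2) := by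
    funext z
    by_cases hz : z = 0
    · rw [hz, dslope_same, hψ1, zero_mul]
    · have hz2 : z ^ 2 ≠ 0 := pow_ne_zero 2 hz
      rw [dslope_of_ne _ hz, dslope_of_ne _ hz2, slope_def_field, slope_def_field, hψ]
      simp only [sub_zero]
      have : (0:ℂ)^2 = 0 := by simp
      rw [this]
      field_simp
  have hdτ : DifferentiableOn ℂ (dslope τ 0) (ball 0 1) :=
    (Complex.differentiableOn_dslope hnh).2 hτd
  have hb : deriv (dslope ψ 0) 0 = deriv τ 0 := by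
    rw [hds]
    have a1 : HasDerivAt (dslope τ 0) (deriv (dslope τ 0) 0) ((0:ℂ) ^ 2) := by
      have : (0:ℂ)^2 = 0 := by simp
      rw [this]
      exact (hdτ.differentiableAt hnh).hasDerivAt
    have a2 := (hasDerivAt_id (0:ℂ)).mul (a1.comp (0:ℂ) hsq')
    have a3 := a2.deriv
    have a4 : (id * (dslope τ 0 ∘ fun z : ℂ => z ^ 2)) = fun z => z * dslope τ 0 (z ^ 2) := rfl
    rw [a4] at a3
    rw [a3]
    simp
  have hs' : HasDerivAt s (deriv s 0) 0 := (hsd.differentiableAt hnh).hasDerivAt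
  have hτ0 : deriv τ 0 = - deriv s 0 := by
    have a1 : HasDerivAt τ (-deriv s 0 / s 0 ^ 2) 0 := hs'.inv (by rw [hs0]; exact one_ne_zero)
    rw [a1.deriv, hs0]; simp
  have hφ' : deriv φ 0 = 2 * deriv s 0 := by
    have a1 : HasDerivAt φ (2 * deriv s 0) 0 := by
      have a2 := hs'.pow 2
      have a3 : (2:ℕ) * s 0 ^ (2 - 1) * deriv s 0 = 2 * deriv s 0 := by rw [hs0]; simp
      rw [a3] at a2
      apply a2.congr_of_eventuallyEq
      filter_upwards [hnh] with z hz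
      exact (hs z hz).symm
    exact a1.deriv
  have hf2 : deriv (deriv f) 0 = 2 * deriv φ 0 := by
    have a1 : ∀ z ∈ ball (0:ℂ) 1, deriv f z = φ z + z * deriv φ z := by
      intro z hz
      have a2 : HasDerivAt φ (deriv φ z) z :=
        (hφd.differentiableAt (isOpen_ball.mem_nhds hz)).hasDerivAt
      have a3 := (hasDerivAt_id z).mul a2
      have a4 : (id * φ) = f := by funext y; simp [hfφ y]
      rw [a4] at a3
      rw [a3.deriv]; simp
    have a5 : DifferentiableOn ℂ (deriv φ) (ball 0 1) := hφd.deriv isOpen_ball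
    have a6 : HasDerivAt (fun z => φ z + z * deriv φ z)
        (deriv φ 0 + (1 * deriv φ 0 + 0 * deriv (deriv φ) 0)) 0 :=
      (hφd.differentiableAt hnh).hasDerivAt.add
        ((hasDerivAt_id (0:ℂ)).mul (a5.differentiableAt hnh).hasDerivAt)
    have a7 : HasDerivAt (deriv f)
        (deriv φ 0 + (1 * deriv φ 0 + 0 * deriv (deriv φ) 0)) 0 := by
      apply a6.congr_of_eventuallyEq
      filter_upwards [hnh] with z hz
      exact a1 z hz
    rw [a7.deriv]; ring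
  rw [hb, hτ0, norm_neg] at harea
  rw [hf2, hφ']
  calc ‖2 * (2 * deriv s 0)‖ = 4 * ‖deriv s 0‖ := by
        rw [← mul_assoc, norm_mul]; norm_num
    _ ≤ 4 := by linarith

/-- **Bieberbach**: `|f''(0)| ≤ 4 |f'(0)|` for `f` univalent on the unit disc. -/
theorem bieberbach {f : ℂ → ℂ} (hf : DifferentiableOn ℂ f (ball 0 1))
    (hinj : InjOn f (ball 0 1)) : ‖deriv (deriv f) 0‖ ≤ 4 * ‖deriv f 0‖ := by
  have hne : deriv f 0 ≠ 0 := deriv_ne_zero_of_injOn isOpen_ball hf hinj (mem_ball_self one_pos)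
  set a : ℂ := deriv f 0 with ha
  set F : ℂ → ℂ := fun z => a⁻¹ * (f z - f 0) with hF
  have hFd : DifferentiableOn ℂ F (ball 0 1) := (hf.sub_const _).const_mul _
  have hFi : InjOn F (ball 0 1) := by
    intro x hx y hy hxy
    apply hinj hx hy
    have := mul_left_cancel₀ (inv_ne_zero hne) hxy
    exact sub_left_injective this
  have hF0 : F 0 = 0 := by simp [hF]
  have hFder : deriv F = fun z => a⁻¹ * deriv f z := by
    funext z
    rw [hF, deriv_const_mul_field]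
    simp
  have hF1 : deriv F 0 = 1 := by
    rw [hFder]; simp only; rw [← ha, inv_mul_cancel₀ hne]
  have h := bieberbach_normalized hFd hFi hF0 hF1
  rw [hFder, deriv_const_mul_field, norm_mul, norm_inv] at h
  have hp : 0 < ‖a‖ := norm_pos_iff.2 hne
  rw [inv_mul_le_iff₀ hp] at h
  linarith

theorem bieberbach_comp {U : Set ℂ} (hU : IsOpen U) {f m : ℂ → ℂ}
    (hf : DifferentiableOn ℂ f U) (hfi : InjOn f U)
    (hm : DifferentiableOn ℂ m (ball 0 1)) (hmi : InjOn m (ball 0 1))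
    (hmaps : MapsTo m (ball 0 1) U) :
    ‖deriv (deriv f) (m 0) * deriv m 0 ^ 2 + deriv f (m 0) * deriv (deriv m) 0‖ ≤
      4 * (‖deriv f (m 0)‖ * ‖deriv m 0‖) := by
  have h0m : (0:ℂ) ∈ ball (0:ℂ) 1 := mem_ball_self one_pos
  have hnh : ball (0:ℂ) 1 ∈ 𝓝 (0:ℂ) := ball_mem_nhds 0 one_pos
  have h := bieberbach (hf.comp hm hmaps) (hfi.comp hmi hmaps)
  have hd : ∀ z ∈ ball (0:ℂ) 1, deriv (f ∘ m) z = deriv f (m z) * deriv m z := by
    intro z hz
    exact deriv_comp z (hf.differentiableAt (hU.mem_nhds (hmaps hz)))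
      (hm.differentiableAt (isOpen_ball.mem_nhds hz))
  have hd2 : deriv (deriv (f ∘ m)) 0 =
      deriv (deriv f) (m 0) * deriv m 0 ^ 2 + deriv f (m 0) * deriv (deriv m) 0 := by
    have a1 : HasDerivAt m (deriv m 0) 0 := (hm.differentiableAt hnh).hasDerivAt
    have a2 : HasDerivAt (deriv f) (deriv (deriv f) (m 0)) (m 0) :=
      ((hf.deriv hU).differentiableAt (hU.mem_nhds (hmaps h0m))).hasDerivAt
    have a3 : HasDerivAt (deriv m) (deriv (deriv m) 0) 0 :=
      ((hm.deriv isOpen_ball).differentiableAt hnh).hasDerivAt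
    have a4 := (a2.comp (0:ℂ) a1).mul a3
    have a5 : HasDerivAt (deriv (f ∘ m)) (deriv (deriv f) (m 0) * deriv m 0 * deriv m 0 +
        (deriv f ∘ m) 0 * deriv (deriv m) 0) 0 := by
      apply a4.congr_of_eventuallyEq
      filter_upwards [hnh] with z hz
      exact hd z hz
    rw [a5.deriv]
    simp only [Function.comp]
    ring
  rw [hd2, hd 0 h0m, norm_mul] at h
  exact h

/-- Bieberbach in the upper half plane. -/
theorem bieberbach_halfplane {v : ℂ → ℂ} (hv : DifferentiableOn ℂ v {z | 0 < z.im})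
    (hvi : InjOn v {z | 0 < z.im}) {x : ℂ} (hx : 0 < x.im) :
    ‖(x.im : ℂ) * deriv (deriv v) x - Complex.I * deriv v x‖ ≤ 2 * ‖deriv v x‖ := by
  have hU : IsOpen {z : ℂ | 0 < z.im} := isOpen_lt continuous_const Complex.continuous_im
  have h0m : (0:ℂ) ∈ ball (0:ℂ) 1 := mem_ball_self one_pos
  have hnh : ball (0:ℂ) 1 ∈ 𝓝 (0:ℂ) := ball_mem_nhds 0 one_pos
  set a : ℂ := x - conj x with ha
  have ha2 : a = 2 * x.im * Complex.I := by
    rw [ha, Complex.sub_conj]; push_cast; ring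
  have hane : a ≠ 0 := by
    rw [ha2]
    simp [hx.ne']
  set m : ℂ → ℂ := fun ζ => conj x + a * (1 - ζ)⁻¹ with hm
  have hne : ∀ ζ ∈ ball (0:ℂ) 1, 1 - ζ ≠ 0 := by
    intro ζ hζ h
    rw [mem_ball_zero_iff] at hζ
    have : ζ = 1 := (sub_eq_zero.1 h).symm
    rw [this, norm_one] at hζ
    exact lt_irrefl _ hζ
  have hm0 : m 0 = x := by simp [hm, ha]
  have hmder : ∀ ζ ∈ ball (0:ℂ) 1, HasDerivAt m (a * ((1 - ζ) ^ 2)⁻¹) ζ := by
    intro ζ hζ
    have h1 : HasDerivAt (fun ζ : ℂ => 1 - ζ) (-1) ζ := by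
      simpa using (hasDerivAt_id ζ).const_sub 1
    have h2 := ((h1.fun_inv (hne ζ hζ)).const_mul a).const_add (conj x)
    have h3 : a * (- -1 / (1 - ζ) ^ 2) = a * ((1 - ζ) ^ 2)⁻¹ := by
      rw [neg_neg, one_div]
    rw [h3] at h2
    exact h2
  have hmd : DifferentiableOn ℂ m (ball 0 1) := fun ζ hζ =>
    (hmder ζ hζ).differentiableAt.differentiableWithinAt
  have hmi : InjOn m (ball 0 1) := by
    intro p hp q hq hpq
    have h1 := mul_left_cancel₀ hane (add_left_cancel hpq)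
    have h2 := inv_injective h1
    exact sub_right_injective h2
  have hmaps : MapsTo m (ball 0 1) {z | 0 < z.im} := by
    intro ζ hζ
    have hz := hne ζ hζ
    rw [mem_ball_zero_iff] at hζ
    simp only [mem_ofPred_eq, hm]
    have hns : 0 < Complex.normSq (1 - ζ) := Complex.normSq_pos.2 hz
    have e1 : (conj x + a * (1 - ζ)⁻¹).im =
        x.im * ((1 - Complex.normSq ζ) / Complex.normSq (1 - ζ)) := by
      rw [ha2, Complex.add_im, Complex.conj_im, Complex.mul_im, Complex.inv_re, Complex.inv_im]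
      have e2 : (2 * (x.im : ℂ) * Complex.I).re = 0 := by simp
      have e3 : (2 * (x.im : ℂ) * Complex.I).im = 2 * x.im := by simp
      rw [e2, e3]
      have e4 : Complex.normSq (1 - ζ) = 1 - 2 * ζ.re + Complex.normSq ζ := by
        simp [Complex.normSq_apply]; ring
      have e5 : (1 - ζ).re = 1 - ζ.re := by simp
      rw [e5]
      field_simp
      rw [e4]; ring
    rw [e1]
    have : Complex.normSq ζ < 1 := by
      rw [Complex.normSq_eq_norm_sq]
      have := norm_nonneg ζ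
      nlinarith
    have h3 : 0 < 1 - Complex.normSq ζ := by linarith
    positivity
  have hm1 : deriv m 0 = a := by
    rw [(hmder 0 h0m).deriv]; simp
  have hm2 : deriv (deriv m) 0 = 2 * a := by
    have h1 : HasDerivAt (fun ζ : ℂ => 1 - ζ) (-1) 0 := by
      simpa using (hasDerivAt_id (0:ℂ)).const_sub 1
    have h2 := ((h1.pow 2).fun_inv (by simp)).const_mul a
    have h3 : HasDerivAt (deriv m) (a * (-((2:ℕ) * (1 - 0) ^ (2 - 1) * -1) / ((1 - 0) ^ 2) ^ 2)) 0 := by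
      apply h2.congr_of_eventuallyEq
      filter_upwards [hnh] with z hz
      exact (hmder z hz).deriv
    rw [h3.deriv]
    norm_num
    ring
  have h := bieberbach_comp hU hv hvi hmd hmi hmaps
  rw [hm0, hm1, hm2] at h
  have e1 : deriv (deriv v) x * a ^ 2 + deriv v x * (2 * a) =
      (-4 * x.im : ℝ) * ((x.im : ℂ) * deriv (deriv v) x - Complex.I * deriv v x) := by
    rw [ha2]
    push_cast
    have := Complex.I_sq
    linear_combination (4 * (x.im : ℂ)^2 * deriv (deriv v) x) * this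
  have e2 : ‖a‖ = 2 * x.im := by
    rw [ha2]
    simp [abs_of_pos hx]
  rw [e1, norm_mul, Complex.norm_real, Real.norm_eq_abs, e2] at h
  have e3 : |(-4 * x.im)| = 4 * x.im := by
    rw [abs_mul, abs_of_pos hx]; norm_num
  rw [e3] at h
  have h5 : (4 * x.im) * ‖(x.im : ℂ) * deriv (deriv v) x - Complex.I * deriv v x‖ ≤
      (4 * x.im) * (2 * ‖deriv v x‖) := by linarith
  exact le_of_mul_le_mul_left h5 (by positivity)

theorem bieberbach_halfplane' {v : ℂ → ℂ} (hv : DifferentiableOn ℂ v {z | 0 < z.im})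
    (hvi : InjOn v {z | 0 < z.im}) {x : ℂ} (hx : 0 < x.im) :
    ‖(x.im : ℂ) * deriv (deriv v) x / deriv v x - Complex.I‖ ≤ 2 := by
  have hU : IsOpen {z : ℂ | 0 < z.im} := isOpen_lt continuous_const Complex.continuous_im
  have hne : deriv v x ≠ 0 := deriv_ne_zero_of_injOn hU hv hvi hx
  have h := bieberbach_halfplane hv hvi hx
  have e : (x.im : ℂ) * deriv (deriv v) x / deriv v x - Complex.I =
      ((x.im : ℂ) * deriv (deriv v) x - Complex.I * deriv v x) / deriv v x := by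
    field_simp
  rw [e, norm_div, div_le_iff₀ (norm_pos_iff.2 hne)]
  exact h

/-- Bieberbach at an arbitrary point of the disc. -/
theorem bieberbach_disc {f : ℂ → ℂ} (hf : DifferentiableOn ℂ f (ball 0 1))
    (hfi : InjOn f (ball 0 1)) {z : ℂ} (hz : ‖z‖ < 1) :
    ‖(1 - ‖z‖ ^ 2 : ℝ) * deriv (deriv f) z - 2 * conj z * deriv f z‖ ≤ 4 * ‖deriv f z‖ := by
  have h0m : (0:ℂ) ∈ ball (0:ℂ) 1 := mem_ball_self one_pos
  have hnh : ball (0:ℂ) 1 ∈ 𝓝 (0:ℂ) := ball_mem_nhds 0 one_pos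
  set q : ℝ := 1 - ‖z‖ ^ 2 with hq
  have hqp : 0 < q := by have := norm_nonneg z; nlinarith
  have hqc : (q : ℂ) = 1 - z * conj z := by
    rw [Complex.mul_conj, Complex.normSq_eq_norm_sq, hq]; push_cast; ring
  have hden : ∀ ζ ∈ ball (0:ℂ) 1, 1 + conj z * ζ ≠ 0 := by
    intro ζ hζ h
    rw [mem_ball_zero_iff] at hζ
    have h1 : ‖conj z * ζ‖ = 1 := by
      have : conj z * ζ = -1 := by linear_combination h
      rw [this]; simp
    rw [norm_mul, RCLike.norm_conj] at h1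
    have := norm_nonneg z
    have := norm_nonneg ζ
    nlinarith
  set m : ℂ → ℂ := fun ζ => (ζ + z) * (1 + conj z * ζ)⁻¹ with hm
  have hm0 : m 0 = z := by simp [hm]
  have hdd : ∀ ζ : ℂ, HasDerivAt (fun ζ : ℂ => 1 + conj z * ζ) (conj z) ζ := by
    intro ζ
    simpa using ((hasDerivAt_id ζ).const_mul (conj z)).const_add 1
  have hmder : ∀ ζ ∈ ball (0:ℂ) 1, HasDerivAt m (q * ((1 + conj z * ζ) ^ 2)⁻¹) ζ := by
    intro ζ hζ
    have h1 : HasDerivAt (fun ζ : ℂ => ζ + z) 1 ζ := (hasDerivAt_id ζ).add_const z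
    have h2 := h1.mul ((hdd ζ).fun_inv (hden ζ hζ))
    have h3 : 1 * (1 + conj z * ζ)⁻¹ + (ζ + z) * (-conj z / (1 + conj z * ζ) ^ 2) =
        q * ((1 + conj z * ζ) ^ 2)⁻¹ := by
      have := hden ζ hζ
      rw [hqc]
      field_simp
      ring
    rw [← h3]
    exact h2
  have hmd : DifferentiableOn ℂ m (ball 0 1) := fun ζ hζ =>
    (hmder ζ hζ).differentiableAt.differentiableWithinAt
  have hmi : InjOn m (ball 0 1) := by
    intro p hp r hr hpr
    simp only [hm] at hpr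
    rw [← div_eq_mul_inv, ← div_eq_mul_inv, div_eq_div_iff (hden p hp) (hden r hr)] at hpr
    have h1 : (q : ℂ) * (p - r) = 0 := by rw [hqc]; linear_combination hpr
    rcases mul_eq_zero.1 h1 with h2 | h2
    · exact absurd h2 (by exact_mod_cast hqp.ne')
    · exact sub_eq_zero.1 h2
  have hmaps : MapsTo m (ball 0 1) (ball 0 1) := by
    intro ζ hζ
    have hd := hden ζ hζ
    rw [mem_ball_zero_iff] at hζ ⊢
    simp only [hm]
    rw [norm_mul, norm_inv, ← div_eq_mul_inv, div_lt_one (norm_pos_iff.2 hd)]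
    have h1 : ‖ζ + z‖ ^ 2 < ‖1 + conj z * ζ‖ ^ 2 := by
      rw [← Complex.normSq_eq_norm_sq, ← Complex.normSq_eq_norm_sq]
      have e1 : Complex.normSq (1 + conj z * ζ) - Complex.normSq (ζ + z) =
          (1 - ‖z‖ ^ 2) * (1 - ‖ζ‖ ^ 2) := by
        rw [← Complex.normSq_eq_norm_sq, ← Complex.normSq_eq_norm_sq]
        simp [Complex.normSq_apply]
        ring
      have h2 : 0 < 1 - ‖ζ‖ ^ 2 := by have := norm_nonneg ζ; nlinarith
      have h3 : 0 < (1 - ‖z‖ ^ 2) * (1 - ‖ζ‖ ^ 2) := mul_pos hqp h2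
      linarith
    exact lt_of_pow_lt_pow_left₀ 2 (norm_nonneg _) h1
  have hm1 : deriv m 0 = q := by
    rw [(hmder 0 h0m).deriv]; simp
  have hm2 : deriv (deriv m) 0 = -2 * conj z * q := by
    have h2 := (((hdd 0).pow 2).fun_inv (by simp)).const_mul (q : ℂ)
    have h3 : HasDerivAt (deriv m) (q * (-((2:ℕ) * (1 + conj z * 0) ^ (2 - 1) * conj z) /
        ((1 + conj z * 0) ^ 2) ^ 2)) 0 := by
      apply h2.congr_of_eventuallyEq
      filter_upwards [hnh] with z hz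
      exact (hmder z hz).deriv
    rw [h3.deriv]
    norm_num
    ring
  have h := bieberbach_comp isOpen_ball hf hfi hmd hmi hmaps
  rw [hm0, hm1, hm2] at h
  have e1 : deriv (deriv f) z * (q : ℂ) ^ 2 + deriv f z * (-2 * conj z * q) =
      (q : ℂ) * ((q : ℂ) * deriv (deriv f) z - 2 * conj z * deriv f z) := by ring
  rw [e1, norm_mul, Complex.norm_real, Real.norm_eq_abs, abs_of_pos hqp] at h
  have h5 : q * ‖(q : ℂ) * deriv (deriv f) z - 2 * conj z * deriv f z‖ ≤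
      q * (4 * ‖deriv f z‖) := by linarith
  exact le_of_mul_le_mul_left h5 hqp

end Crest.Agent.Lib.Bieberbach
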