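import Mathlib
import Crest.Agent.R137.BU

/-! # Borsuk–Ulam theorem (classical form) -/

set_option autoImplicit false

namespace Crest.Agent.Lib.BorsukUlam

/-- **Borsuk–Ulam**, zero version: a continuous odd map from `W ∖ {0}` to a space of smaller
dimension has a zero. -/
theorem exists_zero_of_odd {W E : Type*}
    [NormedAddCommGroup W] [NormedSpace ℝ W] [FiniteDimensional ℝ W]
    [NormedAddCommGroup E] [NormedSpace ℝ E] [FiniteDimensional ℝ E]
    (h : Module.finrank ℝ E < Module.finrank ℝ W)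
    (f : W → E) (hf : ContinuousOn f {x | x ≠ 0}) (hodd : ∀ x, x ≠ 0 → f (-x) = -f x) :
    ∃ x, x ≠ 0 ∧ f x = 0 := by
  obtain ⟨s, v, _, hv, h1, _⟩ := Crest.Agent.R137.borsukUlam_prod' (V := ℝ) (W := W) (E₁ := E)
    (E₂ := Fin 0 → ℝ) h (by simp) (fun _ v => f v) (fun _ _ => 0)
    (hf.comp continuousOn_snd (fun p hp => hp.2)) continuousOn_const
    (fun _ _ _ _ => rfl) (fun _ v _ hv => hodd v hv) (by simp) (by simp)
  exact ⟨v, hv, h1⟩

/-- **Borsuk–Ulam** on the unit sphere: an odd continuous map to a space of smaller dimension has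
a zero. -/
theorem exists_zero_of_odd_sphere {W E : Type*}
    [NormedAddCommGroup W] [NormedSpace ℝ W] [FiniteDimensional ℝ W]
    [NormedAddCommGroup E] [NormedSpace ℝ E] [FiniteDimensional ℝ E]
    (h : Module.finrank ℝ E < Module.finrank ℝ W)
    (f : Metric.sphere (0 : W) 1 → E) (hf : Continuous f) (hodd : ∀ x, f (-x) = -f x) :
    ∃ x, f x = 0 := by
  classical
  have hnorm : ∀ x : W, x ≠ 0 → ‖x‖⁻¹ • x ∈ Metric.sphere (0 : W) 1 := by
    intro x hx
    have : ‖x‖ ≠ 0 := norm_ne_zero_iff.2 hx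
    simp [norm_smul, this]
  obtain ⟨x, hx, h0⟩ := exists_zero_of_odd h
    (fun x => if hx : x ≠ 0 then f ⟨‖x‖⁻¹ • x, hnorm x hx⟩ else 0) (by
      rw [continuousOn_iff_continuous_domRestrict]
      have : ({x : W | x ≠ 0}.domRestrict
          (fun x => if hx : x ≠ 0 then f ⟨‖x‖⁻¹ • x, hnorm x hx⟩ else 0)) =
          fun x : {x : W | x ≠ 0} => f ⟨‖(x : W)‖⁻¹ • (x : W), hnorm x x.2⟩ := by
        funext x
        have hx : (x : W) ≠ 0 := x.2
        simp [Set.domRestrict, hx]
      rw [this]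
      refine hf.comp (Continuous.subtype_mk ?_ _)
      refine Continuous.smul (Continuous.inv₀ (continuous_norm.comp continuous_subtype_val) ?_)
        continuous_subtype_val
      intro x
      exact norm_ne_zero_iff.2 x.2) (by
      intro x hx
      have hx' : -x ≠ 0 := neg_ne_zero.2 hx
      simp only [ne_eq, hx, not_false_iff, hx', dite_true]
      rw [← hodd]
      congr 1
      apply Subtype.ext
      simp)
  rw [dif_pos hx] at h0
  exact ⟨_, h0⟩

/-- **Borsuk–Ulam**, antipodal version. -/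
theorem exists_eq_neg_sphere {W E : Type*}
    [NormedAddCommGroup W] [NormedSpace ℝ W] [FiniteDimensional ℝ W]
    [NormedAddCommGroup E] [NormedSpace ℝ E] [FiniteDimensional ℝ E]
    (h : Module.finrank ℝ E < Module.finrank ℝ W)
    (f : Metric.sphere (0 : W) 1 → E) (hf : Continuous f) :
    ∃ x, f x = f (-x) := by
  obtain ⟨x, hx⟩ := exists_zero_of_odd_sphere h (fun x => f x - f (-x))
    (hf.sub (hf.comp continuous_neg)) (fun x => by simp)
  exact ⟨x, sub_eq_zero.1 hx⟩

end Crest.Agent.Lib.BorsukUlam
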