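import Mathlib

/-!
# Mertens' theorems with explicit constants

* `mertens_one` : `|∑_{p ≤ n} log p / p - log n| ≤ 3` for `n ≥ 1`.
* `mertens_two_nat` : `|∑_{m < p ≤ n} 1/p - (log log n - log log m)| ≤ 7 / log m` for `2 ≤ m ≤ n`.
-/

set_option autoImplicit false

namespace Crest.Agent.Lib.Mertens

open Finset Nat

/-- `A n = ∑_{p ≤ n} log p / p` -/
noncomputable def A (n : ℕ) : ℝ := ∑ p ∈ Nat.primesLE n, Real.log p / p

lemma sum_log_div_mul_le (n : ℕ) :
    ∑ m ∈ Finset.Icc 2 n, Real.log m / (m * (m - 1)) ≤ 2 := by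
  have key : ∀ n : ℕ, 1 ≤ n → ∑ m ∈ Finset.Icc 2 n, Real.log m / (m * (m - 1)) ≤
      2 - (Real.log n + 2) / n := by
    intro n hn
    induction n, hn using Nat.le_induction with
    | base => simp
    | succ k hk ih =>
      rw [Finset.sum_Icc_succ_top (by omega)]
      have hk0 : (0 : ℝ) < k := by exact_mod_cast hk
      have h1 : Real.log ((k : ℝ) + 1) - Real.log k ≤ 1 / k := by
        rw [← Real.log_div (by positivity) hk0.ne']
        refine (Real.log_le_sub_one_of_pos (by positivity)).trans ?_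
        apply le_of_eq
        field_simp
        ring
      push_cast
      have h2 : Real.log ((k : ℝ) + 1) / ((k + 1) * ((k : ℝ) + 1 - 1)) ≤
          (Real.log k + 2) / k - (Real.log ((k : ℝ) + 1) + 2) / (k + 1) := by
        rw [div_sub_div _ _ hk0.ne' (by positivity), add_sub_cancel_right,
          div_le_div_iff₀ (by positivity) (by positivity)]
        have h3 : (k : ℝ) * (Real.log ((k : ℝ) + 1) - Real.log k) ≤ 1 := by
          calc (k : ℝ) * (Real.log ((k : ℝ) + 1) - Real.log k) ≤ k * (1 / k) :=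
                mul_le_mul_of_nonneg_left h1 hk0.le
            _ = 1 := by field_simp
        have h4 : Real.log ((k : ℝ) + 1) ≤ (Real.log k + 2) * (k + 1) -
            k * (Real.log ((k : ℝ) + 1) + 2) := by
          have h5 : Real.log ((k : ℝ) + 1) - Real.log k ≤ 1 := by
            refine h1.trans ?_
            rw [div_le_one hk0]
            exact_mod_cast hk
          nlinarith
        have h6 : 0 ≤ (k : ℝ) * (k + 1) := by positivity
        nlinarith [mul_le_mul_of_nonneg_right h4 h6]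
      linarith
  rcases Nat.lt_or_ge n 1 with h | h
  · have : n = 0 := by omega
    subst this
    simp
  · refine (key n h).trans ?_
    have : 0 ≤ (Real.log n + 2) / n := by
      have := Real.log_nonneg (show (1 : ℝ) ≤ n by exact_mod_cast h)
      positivity
    linarith

lemma sum_primes_log_div_mul_le (n : ℕ) :
    ∑ p ∈ Nat.primesLE n, Real.log p / (p * (p - 1)) ≤ 2 := by
  refine le_trans ?_ (sum_log_div_mul_le n)
  apply Finset.sum_le_sum_of_subset_of_nonneg
  · intro p hp
    rw [Nat.mem_primesLE] at hp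
    rw [Finset.mem_Icc]
    exact ⟨hp.2.two_le, hp.1⟩
  · intro m hm _
    rw [Finset.mem_Icc] at hm
    have h1 : (2 : ℝ) ≤ m := by exact_mod_cast hm.1
    have := Real.log_nonneg (show (1 : ℝ) ≤ m by linarith)
    have h2 : (0 : ℝ) ≤ m - 1 := by linarith
    positivity

lemma log_factorial_eq (n : ℕ) :
    Real.log (n ! : ℕ) = ∑ p ∈ Nat.primesLE n, ((n !).factorization p : ℝ) * Real.log p := by
  rw [Real.log_nat_eq_sum_factorization, Finsupp.sum_of_support_subset]
  · intro p hp
    rw [Nat.support_factorization, Nat.mem_primeFactors] at hp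
    rw [Nat.mem_primesLE]
    exact ⟨(hp.1.dvd_factorial).1 hp.2.1, hp.1⟩
  · simp

lemma factorization_factorial_le (n p : ℕ) (hp : p.Prime) :
    ((n !).factorization p : ℝ) ≤ n / (p - 1) := by
  have := Fact.mk hp
  rw [Nat.factorization_def _ hp]
  have h := sub_one_mul_padicValNat_factorial (p := p) n
  have h2 : (p - 1) * padicValNat p n ! ≤ n := by rw [h]; exact Nat.sub_le _ _
  have hp1 : (0 : ℝ) < (p : ℝ) - 1 := by
    have : (2 : ℝ) ≤ p := by exact_mod_cast hp.two_le
    linarith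
  rw [le_div_iff₀ hp1, mul_comm]
  have h3 : (((p - 1 : ℕ) : ℝ)) * (padicValNat p n ! : ℝ) ≤ n := by exact_mod_cast h2
  rwa [Nat.cast_sub hp.one_le, Nat.cast_one] at h3

lemma div_le_factorization_factorial (n p : ℕ) (hp : p.Prime) :
    (n : ℝ) / p - 1 ≤ ((n !).factorization p : ℝ) := by
  have := Fact.mk hp
  have h1 : n / p ≤ (n !).factorization p := by
    have h2 : (p * (n / p))! ∣ n ! := Nat.factorial_dvd_factorial (Nat.mul_div_le n p)
    have h3 := (Nat.factorization_le_iff_dvd (Nat.factorial_ne_zero _)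
      (Nat.factorial_ne_zero _)).2 h2 p
    refine le_trans ?_ h3
    rw [Nat.factorization_def _ hp, padicValNat_factorial_mul]
    exact Nat.le_add_left _ _
  have h4 : (n : ℝ) / p < ((n / p : ℕ) : ℝ) + 1 := by
    have hp0 : (0 : ℝ) < p := by exact_mod_cast hp.pos
    rw [div_lt_iff₀ hp0]
    have := Nat.lt_div_mul_add (a := n) hp.pos
    have h5 : n < (n / p + 1) * p := by
      calc n < n / p * p + p := this
        _ = (n / p + 1) * p := by ring
    exact_mod_cast h5
  have h6 : ((n / p : ℕ) : ℝ) ≤ ((n !).factorization p : ℝ) := by exact_mod_cast h1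
  linarith

lemma theta_nat (n : ℕ) : ∑ p ∈ Nat.primesLE n, Real.log p ≤ Real.log 4 * n := by
  have := Chebyshev.theta_le_log4_mul_x (x := (n : ℝ)) (by positivity)
  rwa [Chebyshev.theta_eq_sum_primesLE_log] at this

theorem A_le (n : ℕ) (hn : 1 ≤ n) : A n ≤ Real.log n + Real.log 4 := by
  have hn0 : (0 : ℝ) < n := by exact_mod_cast hn
  have h1 : (n : ℝ) * A n - Real.log 4 * n ≤ Real.log (n ! : ℕ) := by
    rw [log_factorial_eq, A, Finset.mul_sum]
    have h2 : ∑ p ∈ Nat.primesLE n, (n : ℝ) * (Real.log p / p) -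
        ∑ p ∈ Nat.primesLE n, Real.log p ≤
        ∑ p ∈ Nat.primesLE n, ((n !).factorization p : ℝ) * Real.log p := by
      rw [← Finset.sum_sub_distrib]
      refine Finset.sum_le_sum fun p hp => ?_
      have hpp := Nat.prime_of_mem_primesLE hp
      have h3 := div_le_factorization_factorial n p hpp
      have h4 : 0 ≤ Real.log p := Real.log_nonneg (by exact_mod_cast hpp.one_le)
      calc (n : ℝ) * (Real.log p / p) - Real.log p = ((n : ℝ) / p - 1) * Real.log p := by ring
        _ ≤ _ := mul_le_mul_of_nonneg_right h3 h4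
    have := theta_nat n
    linarith
  have h5 : Real.log (n ! : ℕ) ≤ n * Real.log n := by
    rw [← Real.log_pow]
    apply Real.log_le_log (by exact_mod_cast Nat.factorial_pos n)
    exact_mod_cast Nat.factorial_le_pow n
  have h6 : (n : ℝ) * A n ≤ n * (Real.log n + Real.log 4) := by nlinarith
  exact le_of_mul_le_mul_left h6 hn0

theorem le_A (n : ℕ) (hn : 1 ≤ n) : Real.log n - 3 ≤ A n := by
  have hn0 : (0 : ℝ) < n := by exact_mod_cast hn
  have h1 : (n : ℝ) * Real.log n - n ≤ Real.log (n ! : ℕ) := by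
    have h2 := Real.pow_div_factorial_le_exp (n : ℝ) hn0.le n
    have hf : (0 : ℝ) < (n ! : ℕ) := by exact_mod_cast Nat.factorial_pos n
    have h3 := Real.log_le_log (by positivity) h2
    rw [Real.log_div (by positivity) hf.ne', Real.log_pow, Real.log_exp] at h3
    linarith
  have h4 : Real.log (n ! : ℕ) ≤ n * A n + n * 2 := by
    rw [log_factorial_eq, A]
    have h5 : ∑ p ∈ Nat.primesLE n, ((n !).factorization p : ℝ) * Real.log p ≤
        ∑ p ∈ Nat.primesLE n, ((n : ℝ) * (Real.log p / p) +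
          n * (Real.log p / (p * (p - 1)))) := by
      refine Finset.sum_le_sum fun p hp => ?_
      have hpp := Nat.prime_of_mem_primesLE hp
      have h6 := factorization_factorial_le n p hpp
      have h7 : 0 ≤ Real.log p := Real.log_nonneg (by exact_mod_cast hpp.one_le)
      have h2 : (2 : ℝ) ≤ p := by exact_mod_cast hpp.two_le
      have h8 : (p : ℝ) - 1 ≠ 0 := by linarith
      have h9 : (p : ℝ) ≠ 0 := by linarith
      calc ((n !).factorization p : ℝ) * Real.log p ≤ n / (p - 1) * Real.log p :=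
            mul_le_mul_of_nonneg_right h6 h7
        _ = _ := by field_simp; ring
    refine h5.trans ?_
    rw [Finset.sum_add_distrib, ← Finset.mul_sum, ← Finset.mul_sum]
    have := mul_le_mul_of_nonneg_left (sum_primes_log_div_mul_le n) hn0.le
    linarith
  have h6 : (n : ℝ) * (Real.log n - 3) ≤ n * A n := by nlinarith
  exact le_of_mul_le_mul_left h6 hn0

/-- Mertens' first theorem. -/
theorem mertens_one (n : ℕ) (hn : 1 ≤ n) : |A n - Real.log n| ≤ 3 := by
  rw [abs_le]
  have h1 := A_le n hn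
  have h2 := le_A n hn
  have h3 : Real.log 4 ≤ 3 := by
    have : Real.log 4 ≤ 4 - 1 := Real.log_le_sub_one_of_pos (by norm_num)
    linarith
  constructor <;> linarith

/-- primes in `(m, n]` -/
def primesIoc (m n : ℕ) : Finset ℕ := (Finset.Ioc m n).filter Nat.Prime

lemma mem_primesIoc {m n p : ℕ} : p ∈ primesIoc m n ↔ (m < p ∧ p ≤ n) ∧ p.Prime := by
  simp [primesIoc]

/-- `S m n = ∑_{m < p ≤ n} 1 / p` -/
noncomputable def S (m n : ℕ) : ℝ := ∑ p ∈ primesIoc m n, (1 : ℝ) / p

lemma A_succ (n : ℕ) : A (n + 1) = A n +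
    if (n + 1).Prime then Real.log ((n + 1 : ℕ) : ℝ) / ((n + 1 : ℕ) : ℝ) else 0 := by
  unfold A
  rw [Nat.primesLE_eq_filter_range, Nat.primesLE_eq_filter_range, Finset.sum_filter,
    Finset.sum_filter, Finset.sum_range_succ _ (n + 1)]

lemma S_succ (m n : ℕ) (h : m ≤ n) : S m (n + 1) = S m n +
    if (n + 1).Prime then (1 : ℝ) / ((n + 1 : ℕ) : ℝ) else 0 := by
  unfold S primesIoc
  rw [Finset.sum_filter, Finset.sum_filter, ← Finset.insert_Ioc_right_eq_Ioc_add_one h,
    Finset.sum_insert (by simp), add_comm]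

lemma S_self (m : ℕ) : S m m = 0 := by simp [S, primesIoc]

lemma S_eq (m n : ℕ) (hm : 2 ≤ m) (hmn : m ≤ n) :
    S m n = A n / Real.log n - A m / Real.log m +
      ∑ k ∈ Finset.Ico m n, A k * (1 / Real.log k - 1 / Real.log ((k + 1 : ℕ) : ℝ)) := by
  induction n, hmn using Nat.le_induction with
  | base => simp [S_self]
  | succ n hn ih =>
    rw [S_succ m n hn, ih, Finset.sum_Ico_succ_top hn, A_succ]
    have hlog : Real.log ((n + 1 : ℕ) : ℝ) ≠ 0 := by
      have : (1 : ℝ) < ((n + 1 : ℕ) : ℝ) := by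
        have : 1 < n + 1 := by omega
        exact_mod_cast this
      exact (Real.log_pos this).ne'
    split_ifs with h
    · have h3 : Real.log ((n + 1 : ℕ) : ℝ) / ((n + 1 : ℕ) : ℝ) / Real.log ((n + 1 : ℕ) : ℝ) =
          1 / ((n + 1 : ℕ) : ℝ) := by
        field_simp
      rw [add_div, h3]
      ring
    · rw [add_zero, add_zero]
      ring

lemma log_succ_sub_le (k : ℕ) (hk : 1 ≤ k) :
    Real.log ((k + 1 : ℕ) : ℝ) - Real.log k ≤ 1 := by
  have hk0 : (0 : ℝ) < k := by exact_mod_cast hk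
  push_cast
  rw [← Real.log_div (by positivity) hk0.ne']
  refine (Real.log_le_sub_one_of_pos (by positivity)).trans ?_
  rw [sub_le_iff_le_add, div_le_iff₀ hk0]
  have : (1 : ℝ) ≤ k := by exact_mod_cast hk
  linarith

lemma loglog_bounds (k : ℕ) (hk : 2 ≤ k) :
    0 ≤ (Real.log (Real.log ((k + 1 : ℕ) : ℝ)) - Real.log (Real.log k)) -
      Real.log k * (1 / Real.log k - 1 / Real.log ((k + 1 : ℕ) : ℝ)) ∧
    (Real.log (Real.log ((k + 1 : ℕ) : ℝ)) - Real.log (Real.log k)) -
      Real.log k * (1 / Real.log k - 1 / Real.log ((k + 1 : ℕ) : ℝ)) ≤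
      1 / Real.log k - 1 / Real.log ((k + 1 : ℕ) : ℝ) := by
  set u := Real.log k with hu
  set v := Real.log ((k + 1 : ℕ) : ℝ) with hv
  have hu0 : 0 < u := Real.log_pos (by exact_mod_cast hk)
  have huv : u ≤ v := by
    apply Real.log_le_log
    · have : 0 < k := by omega
      exact_mod_cast this
    · push_cast; linarith
  have hv0 : 0 < v := by linarith
  have hvu : v - u ≤ 1 := log_succ_sub_le k (by omega)
  have h1 : Real.log v - Real.log u = Real.log (v / u) := (Real.log_div hv0.ne' hu0.ne').symm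
  have h2 : Real.log (v / u) ≤ v / u - 1 := Real.log_le_sub_one_of_pos (by positivity)
  have h3 : 1 - u / v ≤ Real.log (v / u) := by
    have := Real.log_le_sub_one_of_pos (show (0 : ℝ) < u / v by positivity)
    have h4 : Real.log (u / v) = -Real.log (v / u) := by
      rw [← Real.log_inv, inv_div]
    linarith
  rw [h1]
  have h5 : u * (1 / u - 1 / v) = 1 - u / v := by field_simp
  rw [h5]
  constructor
  · linarith
  · have h6 : v / u - 1 - (1 - u / v) ≤ 1 / u - 1 / v := by
      have e1 : v / u - 1 - (1 - u / v) = (v - u) ^ 2 / (u * v) := by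
        rw [eq_div_iff (by positivity)]
        field_simp
      have e2 : 1 / u - 1 / v = (v - u) / (u * v) := by field_simp
      rw [e1, e2]
      exact div_le_div_of_nonneg_right (by nlinarith) (by positivity)
    linarith

/-- Mertens' second theorem on intervals, natural number version. -/
theorem mertens_two_nat (m n : ℕ) (hm : 2 ≤ m) (hmn : m ≤ n) :
    |S m n - (Real.log (Real.log n) - Real.log (Real.log m))| ≤ 7 / Real.log m := by
  have hlogpos : ∀ k : ℕ, 2 ≤ k → 0 < Real.log k := fun k hk =>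
    Real.log_pos (by exact_mod_cast hk)
  have hg : ∀ k : ℕ, 2 ≤ k → 0 ≤ 1 / Real.log k - 1 / Real.log ((k + 1 : ℕ) : ℝ) := by
    intro k hk
    rw [sub_nonneg]
    apply one_div_le_one_div_of_le (hlogpos k hk)
    apply Real.log_le_log
    · have : 0 < k := by omega
      exact_mod_cast this
    · push_cast; linarith
  have htel : ∑ k ∈ Finset.Ico m n, (1 / Real.log k - 1 / Real.log ((k + 1 : ℕ) : ℝ)) =
      1 / Real.log m - 1 / Real.log n := by
    have := Finset.sum_Ico_sub (f := fun k : ℕ => -(1 / Real.log k)) hmn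
    have e : ∀ k : ℕ, -(1 / Real.log ((k + 1 : ℕ) : ℝ)) - -(1 / Real.log k) =
        1 / Real.log k - 1 / Real.log ((k + 1 : ℕ) : ℝ) := fun k => by ring
    simp only [e] at this
    rw [this]
    ring
  have htel2 : ∑ k ∈ Finset.Ico m n,
      (Real.log (Real.log ((k + 1 : ℕ) : ℝ)) - Real.log (Real.log k)) =
      Real.log (Real.log n) - Real.log (Real.log m) := by
    rw [Finset.sum_Ico_sub (f := fun k : ℕ => Real.log (Real.log k)) hmn]
  set R : ℕ → ℝ := fun k => A k - Real.log k with hR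
  have hRle : ∀ k, 1 ≤ k → |R k| ≤ 3 := fun k hk => mertens_one k hk
  have hlm := hlogpos m hm
  have hln := hlogpos n (hm.trans hmn)
  have hsplit : S m n - (Real.log (Real.log n) - Real.log (Real.log m)) =
      (R n / Real.log n - R m / Real.log m +
        ∑ k ∈ Finset.Ico m n, R k * (1 / Real.log k - 1 / Real.log ((k + 1 : ℕ) : ℝ))) -
      ∑ k ∈ Finset.Ico m n, ((Real.log (Real.log ((k + 1 : ℕ) : ℝ)) - Real.log (Real.log k)) -
        Real.log k * (1 / Real.log k - 1 / Real.log ((k + 1 : ℕ) : ℝ))) := by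
    rw [S_eq m n hm hmn, Finset.sum_sub_distrib, htel2]
    have e1 : ∑ k ∈ Finset.Ico m n, A k * (1 / Real.log k - 1 / Real.log ((k + 1 : ℕ) : ℝ)) =
        ∑ k ∈ Finset.Ico m n, R k * (1 / Real.log k - 1 / Real.log ((k + 1 : ℕ) : ℝ)) +
        ∑ k ∈ Finset.Ico m n,
          Real.log k * (1 / Real.log k - 1 / Real.log ((k + 1 : ℕ) : ℝ)) := by
      rw [← Finset.sum_add_distrib]
      refine Finset.sum_congr rfl fun k _ => ?_
      rw [hR]; ring
    rw [e1]
    have e2 : A n / Real.log n = R n / Real.log n + 1 := by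
      rw [hR]; field_simp; ring
    have e3 : A m / Real.log m = R m / Real.log m + 1 := by
      rw [hR]; field_simp; ring
    rw [e2, e3]
    ring
  have hb1 : |R n / Real.log n| ≤ 3 / Real.log n := by
    rw [abs_div, abs_of_pos hln]
    exact div_le_div_of_nonneg_right (hRle n (by omega)) hln.le
  have hb2 : |R m / Real.log m| ≤ 3 / Real.log m := by
    rw [abs_div, abs_of_pos hlm]
    exact div_le_div_of_nonneg_right (hRle m (by omega)) hlm.le
  have hb3 : |∑ k ∈ Finset.Ico m n, R k * (1 / Real.log k - 1 / Real.log ((k + 1 : ℕ) : ℝ))| ≤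
      3 * (1 / Real.log m - 1 / Real.log n) := by
    rw [← htel, Finset.mul_sum]
    refine (Finset.abs_sum_le_sum_abs _ _).trans (Finset.sum_le_sum fun k hk => ?_)
    rw [Finset.mem_Ico] at hk
    rw [abs_mul, abs_of_nonneg (hg k (by omega))]
    exact mul_le_mul_of_nonneg_right (hRle k (by omega)) (hg k (by omega))
  have hb4 : 0 ≤ ∑ k ∈ Finset.Ico m n,
      ((Real.log (Real.log ((k + 1 : ℕ) : ℝ)) - Real.log (Real.log k)) -
        Real.log k * (1 / Real.log k - 1 / Real.log ((k + 1 : ℕ) : ℝ))) := by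
    refine Finset.sum_nonneg fun k hk => ?_
    rw [Finset.mem_Ico] at hk
    exact (loglog_bounds k (by omega)).1
  have hb5 : ∑ k ∈ Finset.Ico m n,
      ((Real.log (Real.log ((k + 1 : ℕ) : ℝ)) - Real.log (Real.log k)) -
        Real.log k * (1 / Real.log k - 1 / Real.log ((k + 1 : ℕ) : ℝ))) ≤
      1 / Real.log m - 1 / Real.log n := by
    rw [← htel]
    refine Finset.sum_le_sum fun k hk => ?_
    rw [Finset.mem_Ico] at hk
    exact (loglog_bounds k (by omega)).2
  rw [hsplit]
  rw [abs_le] at hb1 hb2 hb3 ⊢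
  have hn0 : 0 < 1 / Real.log n := by positivity
  have e7 : 7 / Real.log m = 7 * (1 / Real.log m) := by ring
  have e3m : 3 / Real.log m = 3 * (1 / Real.log m) := by ring
  have e3n : 3 / Real.log n = 3 * (1 / Real.log n) := by ring
  rw [e3n] at hb1
  rw [e3m] at hb2
  rw [e7]
  constructor <;> linarith [hb1.1, hb1.2, hb2.1, hb2.2, hb3.1, hb3.2]

/-- `L m n = ∑_{m < p ≤ n} -log (1 - 1 / p)` -/
noncomputable def L (m n : ℕ) : ℝ := ∑ p ∈ primesIoc m n, -Real.log (1 - 1 / (p : ℝ))

lemma S_le_L (m n : ℕ) : S m n ≤ L m n := by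
  refine Finset.sum_le_sum fun p hp => ?_
  have hpp := (mem_primesIoc.1 hp).2
  have h2 : (2 : ℝ) ≤ p := by exact_mod_cast hpp.two_le
  have h3 : 1 / (p : ℝ) ≤ 1 / 2 := one_div_le_one_div_of_le (by norm_num) h2
  have := Real.log_le_sub_one_of_pos (show (0 : ℝ) < 1 - 1 / (p : ℝ) by linarith)
  linarith

lemma sum_inv_mul_le (m n : ℕ) (hm : 1 ≤ m) (hmn : m ≤ n) :
    ∑ k ∈ Finset.Ioc m n, 1 / ((k : ℝ) * (k - 1)) ≤ 1 / m := by
  have key : ∑ k ∈ Finset.Ioc m n, 1 / ((k : ℝ) * (k - 1)) = 1 / m - 1 / n := by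
    induction n, hmn using Nat.le_induction with
    | base => simp
    | succ n hn ih =>
      rw [← Finset.insert_Ioc_right_eq_Ioc_add_one hn, Finset.sum_insert (by simp), ih]
      have hn0 : (0 : ℝ) < n := by
        have : 0 < n := by omega
        exact_mod_cast this
      push_cast
      rw [add_sub_cancel_right]
      field_simp
      ring
  rw [key]
  have : (0 : ℝ) ≤ 1 / (n : ℝ) := by positivity
  linarith

lemma L_le (m n : ℕ) (hm : 1 ≤ m) (hmn : m ≤ n) : L m n ≤ S m n + 1 / m := by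
  have h1 : L m n ≤ ∑ p ∈ primesIoc m n, ((1 : ℝ) / p + 1 / ((p : ℝ) * (p - 1))) := by
    refine Finset.sum_le_sum fun p hp => ?_
    have hpp := (mem_primesIoc.1 hp).2
    have h2 : (2 : ℝ) ≤ p := by exact_mod_cast hpp.two_le
    have hp1 : (0 : ℝ) < (p : ℝ) - 1 := by linarith
    have hp0 : (0 : ℝ) < (p : ℝ) := by linarith
    have e1 : -Real.log (1 - 1 / (p : ℝ)) = Real.log ((p : ℝ) / (p - 1)) := by
      rw [← Real.log_inv]
      congr 1
      field_simp
    rw [e1]
    refine (Real.log_le_sub_one_of_pos (by positivity)).trans (le_of_eq ?_)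
    field_simp
    ring
  rw [Finset.sum_add_distrib] at h1
  have h2 : ∑ p ∈ primesIoc m n, 1 / ((p : ℝ) * (p - 1)) ≤ 1 / m := by
    refine le_trans ?_ (sum_inv_mul_le m n hm hmn)
    apply Finset.sum_le_sum_of_subset_of_nonneg
    · exact Finset.filter_subset _ _
    · intro k hk _
      rw [Finset.mem_Ioc] at hk
      have : (1 : ℝ) ≤ k := by
        have : 1 ≤ k := by omega
        exact_mod_cast this
      have h3 : (0 : ℝ) ≤ (k : ℝ) - 1 := by linarith
      positivity
  unfold S
  linarith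

/-- Mertens' third theorem on intervals, logarithmic natural number version. -/
theorem mertens_three_nat (m n : ℕ) (hm : 2 ≤ m) (hmn : m ≤ n) :
    |L m n - (Real.log (Real.log n) - Real.log (Real.log m))| ≤ 9 / Real.log m := by
  have h1 := mertens_two_nat m n hm hmn
  have h2 := S_le_L m n
  have h3 := L_le m n (by omega) hmn
  have hm0 : (0 : ℝ) < m := by
    have : 0 < m := by omega
    exact_mod_cast this
  have hlm : 0 < Real.log m := Real.log_pos (by exact_mod_cast hm)
  have h4 : 1 / (m : ℝ) ≤ 1 / Real.log m :=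
    one_div_le_one_div_of_le hlm ((Real.log_le_sub_one_of_pos hm0).trans (by linarith))
  have e7 : 7 / Real.log m = 7 * (1 / Real.log m) := by ring
  have e9 : 9 / Real.log m = 9 * (1 / Real.log m) := by ring
  rw [e7] at h1
  rw [e9]
  have h5 : 0 < 1 / Real.log m := by positivity
  rw [abs_le] at h1 ⊢
  constructor <;> linarith [h1.1, h1.2]

lemma prod_eq_exp (m n : ℕ) :
    ∏ p ∈ primesIoc m n, (1 - 1 / (p : ℝ)) = Real.exp (-L m n) := by
  unfold L
  rw [← Finset.sum_neg_distrib, Real.exp_sum]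
  refine Finset.prod_congr rfl fun p hp => ?_
  have hpp := (mem_primesIoc.1 hp).2
  have h2 : (2 : ℝ) ≤ p := by exact_mod_cast hpp.two_le
  have h3 : 1 / (p : ℝ) ≤ 1 / 2 := one_div_le_one_div_of_le (by norm_num) h2
  rw [neg_neg, Real.exp_log (by linarith)]

/-! ### Real variable versions -/

/-- primes in `(a, b]`, for real `a, b` -/
noncomputable def pr (a b : ℝ) : Finset ℕ := (Finset.Ioc ⌊a⌋₊ ⌊b⌋₊).filter Nat.Prime

lemma pr_eq (a b : ℝ) : pr a b = primesIoc ⌊a⌋₊ ⌊b⌋₊ := rfl

lemma mem_pr {a b : ℝ} {p : ℕ} (ha : 0 ≤ a) (hb : 0 ≤ b) :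
    p ∈ pr a b ↔ (a < p ∧ (p : ℝ) ≤ b) ∧ p.Prime := by
  rw [pr_eq, mem_primesIoc, Nat.floor_lt ha, Nat.le_floor_iff hb]

lemma floor_facts (x : ℝ) (hx : 2 ≤ x) :
    2 ≤ ⌊x⌋₊ ∧ 0 ≤ Real.log (Real.log x) - Real.log (Real.log (⌊x⌋₊ : ℝ)) ∧
      Real.log (Real.log x) - Real.log (Real.log (⌊x⌋₊ : ℝ)) ≤ 1 / Real.log (⌊x⌋₊ : ℝ) ∧
      1 / Real.log (⌊x⌋₊ : ℝ) ≤ 2 / Real.log x := by
  have hn : 2 ≤ ⌊x⌋₊ := Nat.le_floor (by exact_mod_cast hx)
  set n := ⌊x⌋₊ with hnd
  have hnx : (n : ℝ) ≤ x := Nat.floor_le (by linarith)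
  have hxn : x < (n : ℝ) + 1 := Nat.lt_floor_add_one x
  have hn0 : (0 : ℝ) < n := by
    have : 0 < n := by omega
    exact_mod_cast this
  have hn2 : (2 : ℝ) ≤ n := by exact_mod_cast hn
  have hln : 0 < Real.log n := Real.log_pos (by linarith)
  have hlx : 0 < Real.log x := Real.log_pos (by linarith)
  have hle : Real.log n ≤ Real.log x := Real.log_le_log hn0 hnx
  have hle2 : Real.log x ≤ Real.log ((n + 1 : ℕ) : ℝ) := by
    apply Real.log_le_log (by linarith)
    push_cast
    exact hxn.le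
  have h1 := log_succ_sub_le n (by omega)
  refine ⟨hn, ?_, ?_, ?_⟩
  · rw [sub_nonneg]
    exact Real.log_le_log hln hle
  · rw [← Real.log_div hlx.ne' hln.ne']
    refine (Real.log_le_sub_one_of_pos (by positivity)).trans ?_
    rw [div_sub_one hln.ne']
    exact div_le_div_of_nonneg_right (by linarith) hln.le
  · rw [div_le_div_iff₀ hln hlx]
    have h3 : Real.log ((n + 1 : ℕ) : ℝ) ≤ Real.log ((n : ℝ) ^ 2) := by
      apply Real.log_le_log (by positivity)
      push_cast
      nlinarith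
    rw [Real.log_pow] at h3
    push_cast at h3
    push_cast at hle2
    linarith

/-- Mertens' second theorem on intervals, real version. -/
theorem mertens_two (y x : ℝ) (hy : 2 ≤ y) (hyx : y ≤ x) :
    |∑ p ∈ pr y x, (1 : ℝ) / p - (Real.log (Real.log x) - Real.log (Real.log y))| ≤
      18 / Real.log y := by
  have hx : 2 ≤ x := hy.trans hyx
  obtain ⟨hm, y1, y2, y3⟩ := floor_facts y hy
  obtain ⟨hn, x1, x2, x3⟩ := floor_facts x hx
  have hmn : ⌊y⌋₊ ≤ ⌊x⌋₊ := Nat.floor_le_floor hyx
  have h1 := mertens_two_nat _ _ hm hmn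
  have hly : 0 < Real.log y := Real.log_pos (by linarith)
  have hlx : 0 < Real.log x := Real.log_pos (by linarith)
  have h2 : 1 / Real.log x ≤ 1 / Real.log y :=
    one_div_le_one_div_of_le hly (Real.log_le_log (by linarith) hyx)
  change |S ⌊y⌋₊ ⌊x⌋₊ - _| ≤ _
  have e7 : 7 / Real.log (⌊y⌋₊ : ℝ) = 7 * (1 / Real.log (⌊y⌋₊ : ℝ)) := by ring
  have e18 : 18 / Real.log y = 18 * (1 / Real.log y) := by ring
  have e2 : 2 / Real.log y = 2 * (1 / Real.log y) := by ring
  have e2x : 2 / Real.log x = 2 * (1 / Real.log x) := by ring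
  rw [e7] at h1
  rw [e18]
  rw [e2] at y3
  rw [e2x] at x3
  rw [abs_le] at h1 ⊢
  constructor <;> linarith [h1.1, h1.2]

/-- Mertens' third theorem on intervals, real logarithmic version. -/
theorem mertens_three_log (y x : ℝ) (hy : 2 ≤ y) (hyx : y ≤ x) :
    |∑ p ∈ pr y x, -Real.log (1 - 1 / (p : ℝ)) -
      (Real.log (Real.log x) - Real.log (Real.log y))| ≤ 22 / Real.log y := by
  have hx : 2 ≤ x := hy.trans hyx
  obtain ⟨hm, y1, y2, y3⟩ := floor_facts y hy
  obtain ⟨hn, x1, x2, x3⟩ := floor_facts x hx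
  have hmn : ⌊y⌋₊ ≤ ⌊x⌋₊ := Nat.floor_le_floor hyx
  have h1 := mertens_three_nat _ _ hm hmn
  have hly : 0 < Real.log y := Real.log_pos (by linarith)
  have hlx : 0 < Real.log x := Real.log_pos (by linarith)
  have h2 : 1 / Real.log x ≤ 1 / Real.log y :=
    one_div_le_one_div_of_le hly (Real.log_le_log (by linarith) hyx)
  change |L ⌊y⌋₊ ⌊x⌋₊ - _| ≤ _
  have e7 : 9 / Real.log (⌊y⌋₊ : ℝ) = 9 * (1 / Real.log (⌊y⌋₊ : ℝ)) := by ring
  have e18 : 22 / Real.log y = 22 * (1 / Real.log y) := by ring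
  have e2 : 2 / Real.log y = 2 * (1 / Real.log y) := by ring
  have e2x : 2 / Real.log x = 2 * (1 / Real.log x) := by ring
  rw [e7] at h1
  rw [e18]
  rw [e2] at y3
  rw [e2x] at x3
  rw [abs_le] at h1 ⊢
  constructor <;> linarith [h1.1, h1.2]

/-- Mertens' third theorem on intervals: two sided bounds for the product. -/
theorem mertens_three (y x : ℝ) (hy : 2 ≤ y) (hyx : y ≤ x) :
    Real.exp (-(22 / Real.log y)) * (Real.log y / Real.log x) ≤
        ∏ p ∈ pr y x, (1 - 1 / (p : ℝ)) ∧
      ∏ p ∈ pr y x, (1 - 1 / (p : ℝ)) ≤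
        Real.exp (22 / Real.log y) * (Real.log y / Real.log x) := by
  have h1 := mertens_three_log y x hy hyx
  have hly : 0 < Real.log y := Real.log_pos (by linarith)
  have hlx : 0 < Real.log x := Real.log_pos (by linarith)
  rw [pr_eq, prod_eq_exp]
  change |L ⌊y⌋₊ ⌊x⌋₊ - _| ≤ _ at h1
  have e : Real.log y / Real.log x = Real.exp (Real.log (Real.log y) - Real.log (Real.log x)) := by
    rw [Real.exp_sub, Real.exp_log hly, Real.exp_log hlx]
  rw [e, ← Real.exp_add, ← Real.exp_add, Real.exp_le_exp, Real.exp_le_exp]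
  rw [abs_le] at h1
  constructor <;> linarith [h1.1, h1.2]

end Crest.Agent.Lib.Mertens
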