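import Mathlib
import Crest.Agent.Lib.Mertens

/-!
# The Hall-Tenenbaum upper bound for sums of nonnegative multiplicative functions

* `hall_tenenbaum` : for `f ≥ 0` with `f (m n) ≤ f m f n` (`m, n` coprime),
  `∑_{p ≤ y} f p log p ≤ A y` and `∑_{p,k ≥ 2} f (p^k) k log p / p^k ≤ B`:
  `(∑_{n ≤ N} f n) log N ≤ (A + B + 1) N ∑_{n ≤ N} f n / n`.
* `wt z n = ∏ z_p ^ v_p(n)`, with `sum_wt_div_le`, `sum_wt_le`.
-/

set_option autoImplicit false

namespace Crest.Agent.Lib.HallTen

open Finset Nat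

/-- Nonnegative, submultiplicative on coprime arguments. -/
structure SubMult (f : ℕ → ℝ) : Prop where
  nonneg : ∀ n, 0 ≤ f n
  mul_le : ∀ m n, Nat.Coprime m n → f (m * n) ≤ f m * f n

lemma log_eq_sum_primesLE {N n : ℕ} (hn : n ∈ Icc 1 N) :
    Real.log n = ∑ p ∈ Nat.primesLE N, (n.factorization p : ℝ) * Real.log p := by
  rw [Finset.mem_Icc] at hn
  rw [Real.log_nat_eq_sum_factorization, Finsupp.sum_of_support_subset]
  · intro p hp
    rw [Nat.support_factorization, Nat.mem_primeFactors] at hp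
    rw [Nat.mem_primesLE]
    exact ⟨(Nat.le_of_dvd (by omega) hp.2.1).trans hn.2, hp.1⟩
  · simp

lemma factorization_le_of_mem {N n p : ℕ} (hn : n ∈ Icc 1 N) : n.factorization p ≤ N := by
  rw [Finset.mem_Icc] at hn
  have : n.factorization p < n := Nat.factorization_lt p (by omega)
  omega

/-- Sum over `n ≤ N` with `v_p(n) = k`. -/
lemma sum_factorization_eq_le {f : ℕ → ℝ} (hf : SubMult f) (N p k : ℕ) (hp : p.Prime) :
    ∑ n ∈ (Icc 1 N).filter (fun n => n.factorization p = k), f n
      ≤ f (p ^ k) * ∑ m ∈ Icc 1 (N / p ^ k), f m := by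
  classical
  set S := (Icc 1 N).filter (fun n => n.factorization p = k) with hS
  have hpk : 0 < p ^ k := pow_pos hp.pos k
  have hdec : ∀ n ∈ S, p ^ k * (n / p ^ k) = n ∧ Nat.Coprime (p ^ k) (n / p ^ k) := by
    intro n hn
    rw [hS, Finset.mem_filter, Finset.mem_Icc] at hn
    have h1 := Nat.ordProj_mul_ordCompl_eq_self n p
    rw [hn.2] at h1
    refine ⟨h1, ?_⟩
    have h2 := Nat.coprime_ordCompl hp (show n ≠ 0 by omega)
    rw [hn.2] at h2
    exact Nat.Coprime.pow_left k h2
  calc ∑ n ∈ S, f n ≤ ∑ n ∈ S, f (p ^ k) * f (n / p ^ k) := by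
        refine Finset.sum_le_sum fun n hn => ?_
        obtain ⟨h1, h2⟩ := hdec n hn
        calc f n = f (p ^ k * (n / p ^ k)) := by rw [h1]
          _ ≤ _ := hf.mul_le _ _ h2
    _ = f (p ^ k) * ∑ m ∈ S.image (fun n => n / p ^ k), f m := by
        rw [← Finset.mul_sum, Finset.sum_image]
        intro a ha b hb hab
        have h1 := (hdec a ha).1
        have h2 := (hdec b hb).1
        simp only at hab
        rw [← h1, ← h2, hab]
    _ ≤ f (p ^ k) * ∑ m ∈ Icc 1 (N / p ^ k), f m := by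
        refine mul_le_mul_of_nonneg_left ?_ (hf.nonneg _)
        refine Finset.sum_le_sum_of_subset_of_nonneg ?_ (fun _ _ _ => hf.nonneg _)
        intro m hm
        rw [Finset.mem_image] at hm
        obtain ⟨n, hn, rfl⟩ := hm
        have h1 := (hdec n hn).1
        rw [hS, Finset.mem_filter, Finset.mem_Icc] at hn
        rw [Finset.mem_Icc]
        refine ⟨?_, Nat.div_le_div_right hn.1.2⟩
        rcases Nat.eq_zero_or_pos (n / p ^ k) with h | h
        · rw [h, mul_zero] at h1; omega
        · exact h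

/-- Sum over `n` of `f n log n`, first bound. -/
lemma sum_mul_log_le {f : ℕ → ℝ} (hf : SubMult f) (N : ℕ) :
    ∑ n ∈ Icc 1 N, f n * Real.log n
      ≤ ∑ p ∈ Nat.primesLE N, ∑ k ∈ Icc 1 N,
          ((k : ℝ) * Real.log p) * (f (p ^ k) * ∑ m ∈ Icc 1 (N / p ^ k), f m) := by
  classical
  calc ∑ n ∈ Icc 1 N, f n * Real.log n
      = ∑ n ∈ Icc 1 N, ∑ p ∈ Nat.primesLE N, f n * ((n.factorization p : ℝ) * Real.log p) := by
        refine Finset.sum_congr rfl fun n hn => ?_
        rw [log_eq_sum_primesLE hn, Finset.mul_sum]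
    _ = ∑ p ∈ Nat.primesLE N, ∑ n ∈ Icc 1 N, f n * ((n.factorization p : ℝ) * Real.log p) :=
        Finset.sum_comm
    _ = ∑ p ∈ Nat.primesLE N, ∑ k ∈ Icc 1 N,
          ((k : ℝ) * Real.log p) *
            ∑ n ∈ (Icc 1 N).filter (fun n => n.factorization p = k), f n := by
        refine Finset.sum_congr rfl fun p hp => ?_
        have h1 : ∑ n ∈ Icc 1 N, f n * ((n.factorization p : ℝ) * Real.log p)
            = ∑ k ∈ Icc 0 N, ∑ n ∈ (Icc 1 N).filter (fun n => n.factorization p = k),
                f n * ((n.factorization p : ℝ) * Real.log p) := by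
          rw [Finset.sum_fiberwise_of_maps_to]
          intro n hn
          rw [Finset.mem_Icc]
          exact ⟨Nat.zero_le _, factorization_le_of_mem hn⟩
        have h2 : ∀ k, ∑ n ∈ (Icc 1 N).filter (fun n => n.factorization p = k),
                f n * ((n.factorization p : ℝ) * Real.log p)
            = ((k : ℝ) * Real.log p) *
            ∑ n ∈ (Icc 1 N).filter (fun n => n.factorization p = k), f n := by
          intro k
          rw [Finset.mul_sum]
          refine Finset.sum_congr rfl fun n hn => ?_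
          rw [Finset.mem_filter] at hn
          rw [hn.2]; ring
        rw [h1]
        simp only [h2]
        rw [← Finset.insert_Icc_succ_left_eq_Icc (Nat.zero_le N), Finset.sum_insert (by simp)]
        simp
    _ ≤ _ := by
        refine Finset.sum_le_sum fun p hp => Finset.sum_le_sum fun k _ => ?_
        have hpp := Nat.prime_of_mem_primesLE hp
        refine mul_le_mul_of_nonneg_left (sum_factorization_eq_le hf N p k hpp) ?_
        have : 0 ≤ Real.log p := Real.log_nonneg (by exact_mod_cast hpp.one_le)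
        positivity

/-- **Hall-Tenenbaum**. -/
theorem hall_tenenbaum {f : ℕ → ℝ} (hf : SubMult f) {A B : ℝ}
    (hA : ∀ y : ℕ, ∑ p ∈ Nat.primesLE y, f p * Real.log p ≤ A * y) (N : ℕ)
    (hB : ∑ p ∈ Nat.primesLE N, ∑ k ∈ Icc 2 N,
      f (p ^ k) * ((k : ℝ) * Real.log p) / (p : ℝ) ^ k ≤ B) :
    (∑ n ∈ Icc 1 N, f n) * Real.log N ≤ (A + B + 1) * N * ∑ n ∈ Icc 1 N, f n / n := by
  classical
  rcases Nat.eq_zero_or_pos N with rfl | hN
  · simp
  set D : ℝ := ∑ n ∈ Icc 1 N, f n / n with hD
  have hD0 : 0 ≤ D := Finset.sum_nonneg fun n _ => div_nonneg (hf.nonneg n) (Nat.cast_nonneg n)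
  have hN0 : (0 : ℝ) < N := by exact_mod_cast hN
  -- part 1: sum f n log n
  have hsplit : ∑ n ∈ Icc 1 N, f n * Real.log n
      ≤ (∑ p ∈ Nat.primesLE N, Real.log p * (f p * ∑ m ∈ Icc 1 (N / p), f m))
        + ∑ p ∈ Nat.primesLE N, ∑ k ∈ Icc 2 N,
          ((k : ℝ) * Real.log p) * (f (p ^ k) * ∑ m ∈ Icc 1 (N / p ^ k), f m) := by
    refine (sum_mul_log_le hf N).trans (le_of_eq ?_)
    rw [← Finset.sum_add_distrib]
    refine Finset.sum_congr rfl fun p _ => ?_
    rw [← Finset.insert_Icc_succ_left_eq_Icc hN, Finset.sum_insert (by simp)]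
    simp
  have hk1 : ∑ p ∈ Nat.primesLE N, Real.log p * (f p * ∑ m ∈ Icc 1 (N / p), f m)
      ≤ A * N * D := by
    have h1 : ∑ p ∈ Nat.primesLE N, Real.log p * (f p * ∑ m ∈ Icc 1 (N / p), f m)
        = ∑ m ∈ Icc 1 N, f m * ∑ p ∈ Nat.primesLE (N / m), f p * Real.log p := by
      simp only [Finset.mul_sum]
      rw [Finset.sum_comm' (t' := Icc 1 N) (s' := fun m => Nat.primesLE (N / m))]
      · refine Finset.sum_congr rfl fun m _ => Finset.sum_congr rfl fun p _ => by ring
      · intro p m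
        rw [Nat.mem_primesLE, Nat.mem_primesLE, Finset.mem_Icc, Finset.mem_Icc]
        constructor
        · rintro ⟨⟨h1, h2⟩, h3, h4⟩
          have h5 : m * p ≤ N := (Nat.le_div_iff_mul_le h2.pos).1 h4
          refine ⟨⟨(Nat.le_div_iff_mul_le (by omega)).2 (by rw [mul_comm]; exact h5), h2⟩, h3, ?_⟩
          exact (Nat.le_mul_of_pos_right m h2.pos).trans h5
        · rintro ⟨⟨h1, h2⟩, h3, h4⟩
          have h5 : p * m ≤ N := (Nat.le_div_iff_mul_le (by omega)).1 h1
          refine ⟨⟨(Nat.le_mul_of_pos_right p (by omega)).trans h5, h2⟩, h3, ?_⟩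
          exact (Nat.le_div_iff_mul_le h2.pos).2 (by rw [mul_comm]; exact h5)
    rw [h1, hD, Finset.mul_sum]
    refine Finset.sum_le_sum fun m hm => ?_
    rw [Finset.mem_Icc] at hm
    have hm0 : (0 : ℝ) < m := by exact_mod_cast (by omega : 0 < m)
    have hA0 : 0 ≤ A := by
      have := hA 1
      have h0 : Nat.primesLE 1 = ∅ := by decide
      rw [h0] at this
      simpa using this
    calc f m * ∑ p ∈ Nat.primesLE (N / m), f p * Real.log p
        ≤ f m * (A * ((N / m : ℕ) : ℝ)) := mul_le_mul_of_nonneg_left (hA _) (hf.nonneg m)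
      _ ≤ f m * (A * ((N : ℝ) / m)) := by
          refine mul_le_mul_of_nonneg_left (mul_le_mul_of_nonneg_left Nat.cast_div_le hA0)
            (hf.nonneg m)
      _ = A * N * (f m / m) := by field_simp
  have hk2 : ∑ p ∈ Nat.primesLE N, ∑ k ∈ Icc 2 N,
          ((k : ℝ) * Real.log p) * (f (p ^ k) * ∑ m ∈ Icc 1 (N / p ^ k), f m)
      ≤ B * N * D := by
    have h1 : ∑ p ∈ Nat.primesLE N, ∑ k ∈ Icc 2 N,
          ((k : ℝ) * Real.log p) * (f (p ^ k) * ∑ m ∈ Icc 1 (N / p ^ k), f m)
        ≤ ∑ p ∈ Nat.primesLE N, ∑ k ∈ Icc 2 N,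
          (f (p ^ k) * ((k : ℝ) * Real.log p) / (p : ℝ) ^ k) * (N * D) := by
      refine Finset.sum_le_sum fun p hp => Finset.sum_le_sum fun k _ => ?_
      have hpp := Nat.prime_of_mem_primesLE hp
      have hp0 : (0 : ℝ) < p := by exact_mod_cast hpp.pos
      have hpk : (0 : ℝ) < (p : ℝ) ^ k := pow_pos hp0 k
      have hlog : 0 ≤ Real.log p := Real.log_nonneg (by exact_mod_cast hpp.one_le)
      have h2 : ∑ m ∈ Icc 1 (N / p ^ k), f m ≤ (N / (p : ℝ) ^ k) * D := by
        rw [hD, Finset.mul_sum]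
        calc ∑ m ∈ Icc 1 (N / p ^ k), f m
            ≤ ∑ m ∈ Icc 1 (N / p ^ k), (N / (p : ℝ) ^ k) * (f m / m) := by
              refine Finset.sum_le_sum fun m hm => ?_
              rw [Finset.mem_Icc] at hm
              have hm0 : (0 : ℝ) < m := by exact_mod_cast (by omega : 0 < m)
              have h3 : m * p ^ k ≤ N := (Nat.le_div_iff_mul_le (pow_pos hpp.pos k)).1 hm.2
              have h4 : (m : ℝ) * (p : ℝ) ^ k ≤ N := by exact_mod_cast h3
              have h5 : (1 : ℝ) ≤ N / (p : ℝ) ^ k / m := by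
                rw [le_div_iff₀ hm0, le_div_iff₀ hpk]; linarith
              calc f m = 1 * f m := (one_mul _).symm
                _ ≤ (N / (p : ℝ) ^ k / m) * f m := mul_le_mul_of_nonneg_right h5 (hf.nonneg m)
                _ = _ := by ring
          _ ≤ ∑ m ∈ Icc 1 N, (N / (p : ℝ) ^ k) * (f m / m) := by
              refine Finset.sum_le_sum_of_subset_of_nonneg ?_ ?_
              · intro m hm
                rw [Finset.mem_Icc] at hm ⊢
                exact ⟨hm.1, hm.2.trans (Nat.div_le_self _ _)⟩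
              · intro m _ _
                exact mul_nonneg (by positivity) (div_nonneg (hf.nonneg m) (Nat.cast_nonneg m))
      calc ((k : ℝ) * Real.log p) * (f (p ^ k) * ∑ m ∈ Icc 1 (N / p ^ k), f m)
          ≤ ((k : ℝ) * Real.log p) * (f (p ^ k) * ((N / (p : ℝ) ^ k) * D)) := by
            refine mul_le_mul_of_nonneg_left (mul_le_mul_of_nonneg_left h2 (hf.nonneg _))
              (by positivity)
        _ = _ := by ring
    refine h1.trans ?_
    simp only [← Finset.sum_mul]
    calc _ ≤ B * (N * D) := mul_le_mul_of_nonneg_right hB (by positivity)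
      _ = B * N * D := by ring
  -- part 2: sum f n log (N / n)
  have hrest : ∑ n ∈ Icc 1 N, f n * (Real.log N - Real.log n) ≤ N * D := by
    rw [hD, Finset.mul_sum]
    refine Finset.sum_le_sum fun n hn => ?_
    rw [Finset.mem_Icc] at hn
    have hn0 : (0 : ℝ) < n := by exact_mod_cast (by omega : 0 < n)
    have h1 : Real.log N - Real.log n ≤ N / n := by
      rw [← Real.log_div hN0.ne' hn0.ne']
      have := Real.log_le_sub_one_of_pos (div_pos hN0 hn0)
      linarith
    calc f n * (Real.log N - Real.log n) ≤ f n * (N / n) :=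
          mul_le_mul_of_nonneg_left h1 (hf.nonneg n)
      _ = N * (f n / n) := by ring
  have htot : (∑ n ∈ Icc 1 N, f n) * Real.log N
      = ∑ n ∈ Icc 1 N, f n * (Real.log N - Real.log n) + ∑ n ∈ Icc 1 N, f n * Real.log n := by
    rw [← Finset.sum_add_distrib, Finset.sum_mul]
    refine Finset.sum_congr rfl fun n _ => by ring
  rw [htot]
  have : (A + B + 1) * N * D = N * D + (A * N * D + B * N * D) := by ring
  rw [this]
  linarith

end Crest.Agent.Lib.HallTen
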