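import Crest.Agent.Lib.HallTen

/-!
# Completely multiplicative weights `wt z n = ∏ z_p ^ v_p(n)`

For `0 ≤ z_p ≤ (3/4) p`:
* `sum_wt_div_le_exp` : `∑_{n ∈ T} wt z n / n ≤ exp (∑_{p ∈ s} (z_p/p + 2 (z_p/p)²))`, `T` any finite
  set of nonzero numbers all of whose prime factors are in `s`.
* `sum_wt_le` : `(∑_{n ≤ N} wt z n) log N ≤ (1 + 2 Z + 40 Z²) N exp (∑_{p ≤ N} ...)`, `z_p ≤ Z`.
-/

set_option autoImplicit false

namespace Crest.Agent.Lib.HallTen

open Finset Nat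

/-- completely multiplicative weight -/
noncomputable def wt (z : ℕ → ℝ) (n : ℕ) : ℝ :=
  if n = 0 then 0 else n.factorization.prod fun p k => z p ^ k

variable {z : ℕ → ℝ}

lemma wt_zero (z : ℕ → ℝ) : wt z 0 = 0 := by simp [wt]

lemma wt_one (z : ℕ → ℝ) : wt z 1 = 1 := by simp [wt]

lemma wt_of_ne_zero (z : ℕ → ℝ) {n : ℕ} (hn : n ≠ 0) :
    wt z n = n.factorization.prod fun p k => z p ^ k := by simp [wt, hn]

lemma wt_mul (z : ℕ → ℝ) (m n : ℕ) : wt z (m * n) = wt z m * wt z n := by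
  rcases eq_or_ne m 0 with rfl | hm
  · simp [wt_zero]
  rcases eq_or_ne n 0 with rfl | hn
  · simp [wt_zero]
  rw [wt_of_ne_zero z hm, wt_of_ne_zero z hn, wt_of_ne_zero z (mul_ne_zero hm hn),
    Nat.factorization_mul hm hn]
  exact Finsupp.prod_add_index' (fun _ => pow_zero _) (fun _ _ _ => pow_add _ _ _)

/-- `wt` as a monoid homomorphism. -/
noncomputable def wtHom (z : ℕ → ℝ) : ℕ →* ℝ where
  toFun := wt z
  map_one' := wt_one z
  map_mul' := wt_mul z

@[simp] lemma wtHom_apply (z : ℕ → ℝ) (n : ℕ) : wtHom z n = wt z n := rfl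

lemma wt_pow (z : ℕ → ℝ) (n k : ℕ) : wt z (n ^ k) = wt z n ^ k := map_pow (wtHom z) n k

lemma wt_prime (z : ℕ → ℝ) {p : ℕ} (hp : p.Prime) : wt z p = z p := by
  rw [wt_of_ne_zero z hp.ne_zero, hp.factorization]
  simp

lemma wt_nonneg (hz : ∀ p, 0 ≤ z p) (n : ℕ) : 0 ≤ wt z n := by
  unfold wt
  split_ifs
  · exact le_refl _
  · exact Finset.prod_nonneg fun p _ => pow_nonneg (hz p) _

lemma wt_pos (hz : ∀ p, 0 < z p) {n : ℕ} (hn : n ≠ 0) : 0 < wt z n := by
  rw [wt_of_ne_zero z hn]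
  exact Finset.prod_pos fun p _ => pow_pos (hz p) _

lemma one_le_wt (hz : ∀ p, 1 ≤ z p) {n : ℕ} (hn : n ≠ 0) : 1 ≤ wt z n := by
  rw [wt_of_ne_zero z hn, Finsupp.prod]
  calc (1 : ℝ) = ∏ p ∈ n.factorization.support, (1 : ℝ) := by simp
    _ ≤ _ := Finset.prod_le_prod (fun _ _ => zero_le_one) (fun p _ => one_le_pow₀ (hz p))

lemma subMult_wt (hz : ∀ p, 0 ≤ z p) : SubMult (wt z) :=
  ⟨wt_nonneg hz, fun m n _ => (wt_mul z m n).le⟩

/-! ### Euler products -/

lemma neg_log_one_sub_le {t : ℝ} (h0 : 0 ≤ t) (h1 : t ≤ 3 / 4) :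
    (1 - t)⁻¹ ≤ Real.exp (t + 2 * t ^ 2) := by
  have hpos : 0 < 1 - t := by linarith
  rw [inv_le_comm₀ hpos (Real.exp_pos _), ← Real.exp_neg]
  -- `exp (-(t + 2 t²)) ≤ 1 - t`
  have h2 : Real.exp (-(t + 2 * t ^ 2)) ≤ 1 / (1 + (t + 2 * t ^ 2) + (t + 2 * t ^ 2) ^ 2 / 2) := by
    rw [Real.exp_neg, ← one_div]
    have h3 : 0 ≤ t + 2 * t ^ 2 := by positivity
    have h4 := Real.quadratic_le_exp_of_nonneg h3
    exact one_div_le_one_div_of_le (by positivity) h4
  refine h2.trans ?_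
  rw [div_le_iff₀ (by positivity)]
  have h5 : (1 - t) * (1 + (t + 2 * t ^ 2) + (t + 2 * t ^ 2) ^ 2 / 2) - 1
      = t ^ 2 * (3 / 2 - t / 2 - 2 * t ^ 3) := by ring
  have h6 : t ^ 3 ≤ 27 / 64 := by
    calc t ^ 3 ≤ (3 / 4) ^ 3 := pow_le_pow_left₀ h0 h1 3
      _ = _ := by norm_num
  nlinarith [sq_nonneg t, mul_nonneg (sq_nonneg t) (by linarith : (0:ℝ) ≤ 3/2 - t/2 - 2*t^3)]

lemma wt_div_hom (z : ℕ → ℝ) (n : ℕ) : wt (fun p => z p / p) n = wt z n / n := by
  rcases eq_or_ne n 0 with rfl | hn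
  · simp [wt_zero]
  rw [wt_of_ne_zero _ hn, wt_of_ne_zero _ hn]
  have h1 : (n : ℝ) = n.factorization.prod fun p k => (p : ℝ) ^ k := by
    conv_lhs => rw [← Nat.prod_factorization_pow_eq_self hn]
    rw [Finsupp.prod, Finsupp.prod]
    push_cast
    rfl
  rw [h1]
  simp only [Finsupp.prod, div_pow]
  rw [Finset.prod_div_distrib]

/-- Euler product bound, product form. -/
theorem sum_wt_div_le_prod (hz0 : ∀ p, 0 ≤ z p) (hz : ∀ p : ℕ, p.Prime → z p < p)
    (s : Finset ℕ) (T : Finset ℕ)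
    (hT : ∀ n ∈ T, n ≠ 0 ∧ ∀ p : ℕ, p.Prime → p ∣ n → p ∈ s) :
    ∑ n ∈ T, wt z n / n ≤ ∏ p ∈ s with p.Prime, (1 - z p / p)⁻¹ := by
  have h1 := EulerProduct.summable_and_hasSum_factoredNumbers_prod_filter_prime_geometric
    (f := wtHom (fun p => z p / p)) (by
      intro p hp
      have hp0 : (0 : ℝ) < p := by exact_mod_cast hp.pos
      rw [wtHom_apply, wt_prime _ hp, Real.norm_of_nonneg (div_nonneg (hz0 p) hp0.le),
        div_lt_one hp0]
      exact hz p hp) s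
  have h2 : ∀ p ∈ s.filter (fun p => p.Prime), (1 - wtHom (fun p => z p / p) p)⁻¹
      = (1 - z p / p)⁻¹ := by
    intro p hp
    rw [Finset.mem_filter] at hp
    rw [wtHom_apply, wt_prime _ hp.2]
  rw [Finset.prod_congr rfl h2] at h1
  have hmem : ∀ n ∈ T, n ∈ Nat.factoredNumbers s := by
    intro n hn
    rw [Nat.mem_factoredNumbers']
    exact fun p hp hpn => (hT n hn).2 p hp hpn
  let T' : Finset (Nat.factoredNumbers s) := T.subtype (fun n => n ∈ Nat.factoredNumbers s)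
  have h3 : ∑ n ∈ T, wt z n / n = ∑ m ∈ T', wtHom (fun p => z p / p) m := by
    rw [Finset.sum_subtype_of_mem (fun n => wtHom (fun p => z p / p) n) hmem]
    exact Finset.sum_congr rfl fun n _ => (wt_div_hom z n).symm
  rw [h3]
  refine sum_le_hasSum _ (fun m _ => ?_) h1.2
  rw [wtHom_apply]
  exact wt_nonneg (fun p => div_nonneg (hz0 p) (Nat.cast_nonneg p)) _

theorem sum_wt_div_le_exp (hz0 : ∀ p, 0 ≤ z p) (hz : ∀ p : ℕ, p.Prime → z p ≤ 3 / 4 * p)
    (s : Finset ℕ) (T : Finset ℕ)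
    (hT : ∀ n ∈ T, n ≠ 0 ∧ ∀ p : ℕ, p.Prime → p ∣ n → p ∈ s) :
    ∑ n ∈ T, wt z n / n ≤
      Real.exp (∑ p ∈ s with p.Prime, (z p / p + 2 * (z p / p) ^ 2)) := by
  have hlt : ∀ p : ℕ, p.Prime → z p < p := by
    intro p hp
    have hp0 : (0 : ℝ) < p := by exact_mod_cast hp.pos
    have := hz p hp
    linarith
  refine (sum_wt_div_le_prod hz0 hlt s T hT).trans ?_
  rw [Real.exp_sum]
  refine Finset.prod_le_prod ?_ ?_
  · intro p hp
    rw [Finset.mem_filter] at hp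
    have hp0 : (0 : ℝ) < p := by exact_mod_cast hp.2.pos
    have := hlt p hp.2
    have h1 : z p / p < 1 := by rw [div_lt_one hp0]; exact this
    exact inv_nonneg.2 (by linarith)
  · intro p hp
    rw [Finset.mem_filter] at hp
    have hp0 : (0 : ℝ) < p := by exact_mod_cast hp.2.pos
    refine neg_log_one_sub_le (div_nonneg (hz0 p) hp0.le) ?_
    rw [div_le_iff₀ hp0]
    exact hz p hp.2

/-! ### Counting -/

lemma sum_mul_pow_eq (t : ℝ) (N : ℕ) (hN : 1 ≤ N) :
    (1 - t) ^ 2 * ∑ k ∈ Icc 2 N, (k : ℝ) * t ^ k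
      = t ^ 2 * (2 - t) - t ^ (N + 1) * (N + 1 - N * t) := by
  induction N, hN using Nat.le_induction with
  | base => norm_num
  | succ n hn ih =>
    rw [Finset.sum_Icc_succ_top (by omega), mul_add, ih]
    push_cast
    ring

lemma sum_mul_pow_le {t : ℝ} (h0 : 0 ≤ t) (h1 : t ≤ 3 / 4) (N : ℕ) :
    ∑ k ∈ Icc 2 N, (k : ℝ) * t ^ k ≤ 20 * t ^ 2 := by
  rcases Nat.eq_zero_or_pos N with rfl | hN
  · simp; positivity
  have h2 := sum_mul_pow_eq t N hN
  have h3 : 0 ≤ t ^ (N + 1) * (N + 1 - N * t) := by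
    refine mul_nonneg (pow_nonneg h0 _) ?_
    have : (N : ℝ) * t ≤ N := by
      have : (0 : ℝ) ≤ N := Nat.cast_nonneg N
      nlinarith
    linarith
  have h4 : (1 / 16 : ℝ) ≤ (1 - t) ^ 2 := by nlinarith
  have h5 : 0 ≤ ∑ k ∈ Icc 2 N, (k : ℝ) * t ^ k :=
    Finset.sum_nonneg fun k _ => mul_nonneg (Nat.cast_nonneg k) (pow_nonneg h0 _)
  -- `(2 - t) / (1 - t)² ≤ 20`
  have h6 : t ^ 2 * (2 - t) ≤ (1 - t) ^ 2 * (20 * t ^ 2) := by
    have : (2 - t) ≤ 20 * (1 - t) ^ 2 := by nlinarith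
    nlinarith [sq_nonneg t]
  have h7 : 0 < (1 - t) ^ 2 := by linarith
  refine le_of_mul_le_mul_left ?_ h7
  linarith

lemma log_four_le_two : Real.log 4 ≤ 2 := by
  have h1 : Real.log 4 = 2 * Real.log 2 := by
    rw [show (4 : ℝ) = 2 ^ 2 by norm_num, Real.log_pow]; norm_num
  have := Real.log_two_lt_d9
  rw [h1]; linarith

/-- Mean value bound for the completely multiplicative weight. -/
theorem sum_wt_le (hz0 : ∀ p, 0 ≤ z p) (hz : ∀ p : ℕ, p.Prime → z p ≤ 3 / 4 * p) {Z : ℝ}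
    (hZ : ∀ p : ℕ, p.Prime → z p ≤ Z) (N : ℕ) :
    (∑ n ∈ Icc 1 N, wt z n) * Real.log N
      ≤ (1 + 2 * Z + 40 * Z ^ 2) * N *
        Real.exp (∑ p ∈ Nat.primesLE N, (z p / p + 2 * (z p / p) ^ 2)) := by
  have hZ0 : 0 ≤ Z := (hz0 2).trans (hZ 2 Nat.prime_two)
  have hA : ∀ y : ℕ, ∑ p ∈ Nat.primesLE y, wt z p * Real.log p ≤ (2 * Z) * y := by
    intro y
    calc ∑ p ∈ Nat.primesLE y, wt z p * Real.log p
        ≤ ∑ p ∈ Nat.primesLE y, Z * Real.log p := by
          refine Finset.sum_le_sum fun p hp => ?_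
          have hpp := Nat.prime_of_mem_primesLE hp
          rw [wt_prime z hpp]
          exact mul_le_mul_of_nonneg_right (hZ p hpp)
            (Real.log_nonneg (by exact_mod_cast hpp.one_le))
      _ = Z * ∑ p ∈ Nat.primesLE y, Real.log p := by rw [Finset.mul_sum]
      _ ≤ Z * (Real.log 4 * y) := mul_le_mul_of_nonneg_left (Mertens.theta_nat y) hZ0
      _ ≤ Z * (2 * y) := by
          refine mul_le_mul_of_nonneg_left ?_ hZ0
          exact mul_le_mul_of_nonneg_right log_four_le_two (Nat.cast_nonneg y)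
      _ = (2 * Z) * y := by ring
  have hB : ∑ p ∈ Nat.primesLE N, ∑ k ∈ Icc 2 N,
      wt z (p ^ k) * ((k : ℝ) * Real.log p) / (p : ℝ) ^ k ≤ 40 * Z ^ 2 := by
    calc ∑ p ∈ Nat.primesLE N, ∑ k ∈ Icc 2 N,
          wt z (p ^ k) * ((k : ℝ) * Real.log p) / (p : ℝ) ^ k
        ≤ ∑ p ∈ Nat.primesLE N, (20 * Z ^ 2) * (Real.log p / (p * (p - 1))) := by
          refine Finset.sum_le_sum fun p hp => ?_
          have hpp := Nat.prime_of_mem_primesLE hp
          have hp0 : (0 : ℝ) < p := by exact_mod_cast hpp.pos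
          have hp2 : (2 : ℝ) ≤ p := by exact_mod_cast hpp.two_le
          have hlog : 0 ≤ Real.log p := Real.log_nonneg (by linarith)
          have h1 : ∑ k ∈ Icc 2 N, wt z (p ^ k) * ((k : ℝ) * Real.log p) / (p : ℝ) ^ k
              = Real.log p * ∑ k ∈ Icc 2 N, (k : ℝ) * (z p / p) ^ k := by
            rw [Finset.mul_sum]
            refine Finset.sum_congr rfl fun k _ => ?_
            rw [wt_pow, wt_prime z hpp, div_pow]
            ring
          have h2 : ∑ k ∈ Icc 2 N, (k : ℝ) * (z p / p) ^ k ≤ 20 * (z p / p) ^ 2 := by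
            refine sum_mul_pow_le (div_nonneg (hz0 p) hp0.le) ?_ N
            rw [div_le_iff₀ hp0]; exact hz p hpp
          rw [h1]
          calc Real.log p * ∑ k ∈ Icc 2 N, (k : ℝ) * (z p / p) ^ k
              ≤ Real.log p * (20 * (z p / p) ^ 2) := mul_le_mul_of_nonneg_left h2 hlog
            _ ≤ Real.log p * (20 * (Z ^ 2 / (p * (p - 1)))) := by
                refine mul_le_mul_of_nonneg_left ?_ hlog
                refine mul_le_mul_of_nonneg_left ?_ (by norm_num)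
                rw [div_pow]
                have h3 : z p ^ 2 ≤ Z ^ 2 := pow_le_pow_left₀ (hz0 p) (hZ p hpp) 2
                have h4 : (0 : ℝ) < p * (p - 1) := mul_pos hp0 (by linarith)
                have h5 : (p : ℝ) * (p - 1) ≤ (p : ℝ) ^ 2 := by nlinarith
                calc z p ^ 2 / (p : ℝ) ^ 2 ≤ Z ^ 2 / (p : ℝ) ^ 2 :=
                      div_le_div_of_nonneg_right h3 (by positivity)
                  _ ≤ Z ^ 2 / (p * (p - 1)) :=
                      div_le_div_of_nonneg_left (sq_nonneg Z) h4 h5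
            _ = _ := by ring
      _ = (20 * Z ^ 2) * ∑ p ∈ Nat.primesLE N, (Real.log p / (p * (p - 1))) := by
          rw [Finset.mul_sum]
      _ ≤ (20 * Z ^ 2) * 2 :=
          mul_le_mul_of_nonneg_left (Mertens.sum_primes_log_div_mul_le N) (by positivity)
      _ = 40 * Z ^ 2 := by ring
  refine (hall_tenenbaum (subMult_wt hz0) hA N hB).trans ?_
  have hsum : ∑ n ∈ Icc 1 N, wt z n / n
      ≤ Real.exp (∑ p ∈ Nat.primesLE N, (z p / p + 2 * (z p / p) ^ 2)) := by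
    have h1 := sum_wt_div_le_exp hz0 hz (Nat.primesLE N) (Icc 1 N) (by
      intro n hn
      rw [Finset.mem_Icc] at hn
      refine ⟨by omega, fun p hp hpn => ?_⟩
      rw [Nat.mem_primesLE]
      exact ⟨(Nat.le_of_dvd (by omega) hpn).trans hn.2, hp⟩)
    have h2 : (Nat.primesLE N).filter (fun p => p.Prime) = Nat.primesLE N :=
      Finset.filter_true_of_mem fun p hp => Nat.prime_of_mem_primesLE hp
    rwa [h2] at h1
  have h3 : (2 * Z + 40 * Z ^ 2 + 1) * N = (1 + 2 * Z + 40 * Z ^ 2) * (N : ℝ) := by ring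
  rw [h3]
  exact mul_le_mul_of_nonneg_left hsum (by positivity)

/-! ### Mertens forms -/

lemma log_two_inv_bounds : 1 / Real.log 2 ≤ 1.4427 ∧ -Real.log (Real.log 2) ≤ 0.4427 := by
  have h1 := Real.log_two_gt_d9
  have h0 : 0 < Real.log 2 := by linarith
  have h2 : 1 / Real.log 2 ≤ 1.4427 := by
    rw [div_le_iff₀ h0]; nlinarith
  refine ⟨h2, ?_⟩
  have h3 := Real.log_le_sub_one_of_pos (show 0 < 1 / Real.log 2 by positivity)
  rw [one_div, Real.log_inv] at h3
  rw [one_div] at h2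
  linarith

/-- `∑_{p ≤ N} 1/p ≤ log log N + 12`. -/
theorem sum_inv_primesLE_le {N : ℕ} (hN : 2 ≤ N) :
    ∑ p ∈ Nat.primesLE N, (1 : ℝ) / p ≤ Real.log (Real.log N) + 12 := by
  have h1 := Mertens.mertens_two_nat 2 N le_rfl hN
  have h2 := (abs_le.1 h1).2
  have h3 : ∑ p ∈ Nat.primesLE N, (1 : ℝ) / p ≤ 1 / 2 + Mertens.S 2 N := by
    have hsub : Nat.primesLE N ⊆ insert 2 (Mertens.primesIoc 2 N) := by
      intro p hp
      rw [Nat.mem_primesLE] at hp
      rw [Finset.mem_insert, Mertens.mem_primesIoc]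
      rcases hp.2.two_le.lt_or_eq with h | h
      · exact Or.inr ⟨⟨h, hp.1⟩, hp.2⟩
      · exact Or.inl h.symm
    calc ∑ p ∈ Nat.primesLE N, (1 : ℝ) / p
        ≤ ∑ p ∈ insert 2 (Mertens.primesIoc 2 N), (1 : ℝ) / p :=
          Finset.sum_le_sum_of_subset_of_nonneg hsub (fun p _ _ => by positivity)
      _ = 1 / 2 + Mertens.S 2 N := by
          rw [Finset.sum_insert (by simp [Mertens.mem_primesIoc])]
          simp [Mertens.S]
  obtain ⟨h4, h5⟩ := log_two_inv_bounds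
  have h6 : 7 / Real.log ((2 : ℕ) : ℝ) = 7 * (1 / Real.log 2) := by push_cast; ring
  rw [h6] at h2
  push_cast at h2
  linarith

lemma sum_inv_sq_le {s : Finset ℕ} {U : ℕ} (hU : 1 ≤ U) (hs : ∀ p ∈ s, U < p) :
    ∑ p ∈ s, 1 / (p : ℝ) ^ 2 ≤ 1 / (U : ℝ) := by
  classical
  rcases s.eq_empty_or_nonempty with rfl | hne
  · simp
  have hsub : s ⊆ Ioc U (max (s.sup id) U) := by
    intro p hp
    rw [Finset.mem_Ioc]
    exact ⟨hs p hp, le_max_of_le_left (Finset.le_sup (f := id) hp)⟩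
  calc ∑ p ∈ s, 1 / (p : ℝ) ^ 2 ≤ ∑ p ∈ Ioc U (max (s.sup id) U), 1 / (p : ℝ) ^ 2 :=
        Finset.sum_le_sum_of_subset_of_nonneg hsub (fun p _ _ => by positivity)
    _ = ∑ p ∈ Ioc U (max (s.sup id) U), ((p : ℝ) ^ 2)⁻¹ := by simp
    _ ≤ (U : ℝ)⁻¹ - ((max (s.sup id) U : ℕ) : ℝ)⁻¹ :=
        sum_Ioc_inv_sq_le_sub (by omega) (le_max_right _ _)
    _ ≤ 1 / U := by
        rw [one_div]
        have : (0 : ℝ) ≤ ((max (s.sup id) U : ℕ) : ℝ)⁻¹ := by positivity
        linarith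

/-! ### Windows -/

/-- Number of prime factors of `n` (with multiplicity) satisfying `P`. -/
def Om (P : ℕ → Prop) [DecidablePred P] (n : ℕ) : ℕ :=
  ∑ p ∈ n.primeFactors with P p, n.factorization p

section window

variable (P : ℕ → Prop) [DecidablePred P]

lemma Om_zero : Om P 0 = 0 := by simp [Om]

lemma Om_one : Om P 1 = 0 := by simp [Om]

lemma wt_window (x : ℝ) {n : ℕ} (hn : n ≠ 0) :
    wt (fun p => if P p then x else 1) n = x ^ Om P n := by
  rw [wt_of_ne_zero _ hn, Om, ← Finset.prod_pow_eq_pow_sum, Finsupp.prod, Finset.prod_filter,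
    Nat.support_factorization]
  refine Finset.prod_congr rfl fun p _ => ?_
  split_ifs <;> simp

lemma Om_mul {m n : ℕ} (hm : m ≠ 0) (hn : n ≠ 0) : Om P (m * n) = Om P m + Om P n := by
  have h1 := wt_mul (fun p => if P p then (2 : ℝ) else 1) m n
  rw [wt_window P _ hm, wt_window P _ hn, wt_window P _ (mul_ne_zero hm hn), ← pow_add] at h1
  exact pow_right_injective₀ (by norm_num : (0 : ℝ) < 2) (by norm_num) h1

lemma Om_prime {p : ℕ} (hp : p.Prime) : Om P p = if P p then 1 else 0 := by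
  rw [Om, hp.primeFactors, Finset.filter_singleton]
  split_ifs <;> simp [hp.factorization_self]

/-- The exponent of a window weight. -/
lemma exponent_window_le {x : ℝ} (hx : 0 ≤ x) {U : ℕ} (hU : 1 ≤ U)
    (hP : ∀ p : ℕ, p.Prime → P p → U < p) (hxU : x ^ 2 ≤ U) {N : ℕ} (hN : 2 ≤ N) :
    ∑ p ∈ Nat.primesLE N, ((if P p then x else 1) / (p : ℝ)
        + 2 * ((if P p then x else 1) / (p : ℝ)) ^ 2)
      ≤ Real.log (Real.log N) + (x - 1) * ∑ p ∈ Nat.primesLE N with P p, 1 / (p : ℝ) + 16 := by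
  have h1 := sum_inv_primesLE_le hN
  have e1 : ∑ p ∈ Nat.primesLE N, ((if P p then x else 1) / (p : ℝ)
        + 2 * ((if P p then x else 1) / (p : ℝ)) ^ 2)
      ≤ ∑ p ∈ Nat.primesLE N, 1 / (p : ℝ)
        + (x - 1) * ∑ p ∈ Nat.primesLE N with P p, 1 / (p : ℝ)
        + (2 * x ^ 2 * ∑ p ∈ Nat.primesLE N with P p, 1 / (p : ℝ) ^ 2
          + 2 * ∑ p ∈ Nat.primesLE N, 1 / (p : ℝ) ^ 2) := by
    rw [Finset.sum_filter, Finset.sum_filter, Finset.mul_sum, Finset.mul_sum, Finset.mul_sum,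
      ← Finset.sum_add_distrib, ← Finset.sum_add_distrib, ← Finset.sum_add_distrib]
    refine Finset.sum_le_sum fun p hp => ?_
    have hpp := Nat.prime_of_mem_primesLE hp
    have hp0 : (0 : ℝ) < p := by exact_mod_cast hpp.pos
    have h3 : (0 : ℝ) ≤ 1 / (p : ℝ) ^ 2 := by positivity
    split_ifs with h
    · rw [div_pow]
      have e2 : x / (p : ℝ) = 1 / p + (x - 1) * (1 / p) := by ring
      have e3 : x ^ 2 / (p : ℝ) ^ 2 = x ^ 2 * (1 / (p : ℝ) ^ 2) := by ring
      rw [e2, e3]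
      nlinarith
    · rw [div_pow, one_pow]
      simp only [mul_zero, zero_add, add_zero]
      exact le_refl _
  have h4 : ∑ p ∈ Nat.primesLE N with P p, 1 / (p : ℝ) ^ 2 ≤ 1 / (U : ℝ) := by
    refine sum_inv_sq_le hU fun p hp => ?_
    rw [Finset.mem_filter] at hp
    exact hP p (Nat.prime_of_mem_primesLE hp.1) hp.2
  have h5 : ∑ p ∈ Nat.primesLE N, 1 / (p : ℝ) ^ 2 ≤ 1 / ((1 : ℕ) : ℝ) := by
    refine sum_inv_sq_le le_rfl fun p hp => ?_
    exact (Nat.prime_of_mem_primesLE hp).one_lt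
  have h6 : 2 * x ^ 2 * ∑ p ∈ Nat.primesLE N with P p, 1 / (p : ℝ) ^ 2 ≤ 2 := by
    have hU0 : (0 : ℝ) < U := by exact_mod_cast hU
    calc 2 * x ^ 2 * ∑ p ∈ Nat.primesLE N with P p, 1 / (p : ℝ) ^ 2
        ≤ 2 * x ^ 2 * (1 / U) := mul_le_mul_of_nonneg_left h4 (by positivity)
      _ ≤ 2 * U * (1 / U) := by
          refine mul_le_mul_of_nonneg_right (by linarith) (by positivity)
      _ = 2 := by field_simp
  push_cast at h5
  linarith

lemma window_le {x : ℝ} (hx : 0 ≤ x) {U : ℕ} (hU : 1 ≤ U)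
    (hP : ∀ p : ℕ, p.Prime → P p → U < p) (hxU : x ^ 2 ≤ U) (p : ℕ) (hp : p.Prime) :
    (if P p then x else 1) ≤ 3 / 4 * (p : ℝ) := by
  have hp2 : (2 : ℝ) ≤ p := by exact_mod_cast hp.two_le
  split_ifs with h
  · have h1 : ((U + 1 : ℕ) : ℝ) ≤ p := by exact_mod_cast hP p hp h
    push_cast at h1
    have h2 : x ≤ (U + 1) / 2 := by nlinarith [sq_nonneg (x - 1)]
    linarith
  · linarith

/-- Reciprocal sum over integers composed of primes `≤ N` with a window weight. -/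
theorem sum_window_div_le {x : ℝ} (hx : 0 ≤ x) {U : ℕ} (hU : 1 ≤ U)
    (hP : ∀ p : ℕ, p.Prime → P p → U < p) (hxU : x ^ 2 ≤ U) {N : ℕ} (hN : 2 ≤ N)
    (T : Finset ℕ) (hT : ∀ n ∈ T, n ≠ 0 ∧ ∀ p : ℕ, p.Prime → p ∣ n → p ≤ N) :
    ∑ n ∈ T, x ^ Om P n / n ≤ Real.exp 16 * Real.log N *
      Real.exp ((x - 1) * ∑ p ∈ Nat.primesLE N with P p, 1 / (p : ℝ)) := by
  have hlog : 0 < Real.log N := Real.log_pos (by exact_mod_cast hN)
  have h1 := sum_wt_div_le_exp (z := fun p => if P p then x else 1)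
    (fun p => by split_ifs; exacts [hx, zero_le_one]) (window_le P hx hU hP hxU)
    (Nat.primesLE N) T (fun n hn => ⟨(hT n hn).1, fun p hp hpn => by
      rw [Nat.mem_primesLE]; exact ⟨(hT n hn).2 p hp hpn, hp⟩⟩)
  have h2 : (Nat.primesLE N).filter (fun p => p.Prime) = Nat.primesLE N :=
    Finset.filter_true_of_mem fun p hp => Nat.prime_of_mem_primesLE hp
  rw [h2] at h1
  have h3 : ∑ n ∈ T, x ^ Om P n / n = ∑ n ∈ T, wt (fun p => if P p then x else 1) n / n :=
    Finset.sum_congr rfl fun n hn => by rw [wt_window P x (hT n hn).1]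
  rw [h3]
  refine (h1.trans (Real.exp_le_exp.2 (exponent_window_le P hx hU hP hxU hN))).trans ?_
  rw [Real.exp_add, Real.exp_add, Real.exp_log hlog]
  exact le_of_eq (by ring)

/-- Mean value of a window weight. -/
theorem sum_window_le {x : ℝ} (hx : 0 ≤ x) {U : ℕ} (hU : 1 ≤ U)
    (hP : ∀ p : ℕ, p.Prime → P p → U < p) (hxU : x ^ 2 ≤ U) {N : ℕ} (hN : 2 ≤ N) :
    ∑ n ∈ Icc 1 N, x ^ Om P n ≤ Real.exp 16 * (43 * (1 + x) ^ 2) * N *
      Real.exp ((x - 1) * ∑ p ∈ Nat.primesLE N with P p, 1 / (p : ℝ)) := by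
  have hlog : 0 < Real.log N := Real.log_pos (by exact_mod_cast hN)
  have h1 := sum_wt_le (z := fun p => if P p then x else 1)
    (fun p => by split_ifs; exacts [hx, zero_le_one]) (window_le P hx hU hP hxU)
    (Z := 1 + x) (fun p _ => by split_ifs <;> linarith) N
  have h3 : ∑ n ∈ Icc 1 N, x ^ Om P n = ∑ n ∈ Icc 1 N, wt (fun p => if P p then x else 1) n :=
    Finset.sum_congr rfl fun n hn => by
      rw [Finset.mem_Icc] at hn
      rw [wt_window P x (by omega)]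
  rw [← h3] at h1
  have h4 : Real.exp (∑ p ∈ Nat.primesLE N, ((if P p then x else 1) / (p : ℝ)
        + 2 * ((if P p then x else 1) / (p : ℝ)) ^ 2))
      ≤ Real.exp 16 * Real.log N *
      Real.exp ((x - 1) * ∑ p ∈ Nat.primesLE N with P p, 1 / (p : ℝ)) := by
    refine (Real.exp_le_exp.2 (exponent_window_le P hx hU hP hxU hN)).trans ?_
    rw [Real.exp_add, Real.exp_add, Real.exp_log hlog]
    exact le_of_eq (by ring)
  have h5 : (1 + 2 * (1 + x) + 40 * (1 + x) ^ 2) ≤ 43 * (1 + x) ^ 2 := by nlinarith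
  refine le_of_mul_le_mul_right ?_ hlog
  refine h1.trans ?_
  calc (1 + 2 * (1 + x) + 40 * (1 + x) ^ 2) * (N : ℝ) *
        Real.exp (∑ p ∈ Nat.primesLE N, ((if P p then x else 1) / (p : ℝ)
        + 2 * ((if P p then x else 1) / (p : ℝ)) ^ 2))
      ≤ (43 * (1 + x) ^ 2) * (N : ℝ) * (Real.exp 16 * Real.log N *
      Real.exp ((x - 1) * ∑ p ∈ Nat.primesLE N with P p, 1 / (p : ℝ))) := by
        gcongr
    _ = _ := by ring

/-- Chernoff upper tail. -/
theorem card_Om_ge_le {x : ℝ} (hx : 1 ≤ x) {U : ℕ} (hU : 1 ≤ U)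
    (hP : ∀ p : ℕ, p.Prime → P p → U < p) (hxU : x ^ 2 ≤ U) {N : ℕ} (hN : 2 ≤ N) (k : ℕ) :
    (((Icc 1 N).filter (fun n => k ≤ Om P n)).card : ℝ)
      ≤ x⁻¹ ^ k * (Real.exp 16 * (43 * (1 + x) ^ 2) * N *
      Real.exp ((x - 1) * ∑ p ∈ Nat.primesLE N with P p, 1 / (p : ℝ))) := by
  have hx0 : 0 < x := by linarith
  have h1 := sum_window_le P hx0.le hU hP hxU hN
  rw [Finset.card_eq_sum_ones, Nat.cast_sum]
  calc ∑ n ∈ (Icc 1 N).filter (fun n => k ≤ Om P n), ((1 : ℕ) : ℝ)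
      ≤ ∑ n ∈ (Icc 1 N).filter (fun n => k ≤ Om P n), x⁻¹ ^ k * x ^ Om P n := by
        refine Finset.sum_le_sum fun n hn => ?_
        rw [Finset.mem_filter] at hn
        have h2 : x ^ k ≤ x ^ Om P n := pow_le_pow_right₀ hx hn.2
        have h3 : x⁻¹ ^ k * x ^ k = 1 := by rw [← mul_pow, inv_mul_cancel₀ hx0.ne', one_pow]
        have h4 : 0 ≤ x⁻¹ ^ k := by positivity
        push_cast
        nlinarith
    _ ≤ ∑ n ∈ Icc 1 N, x⁻¹ ^ k * x ^ Om P n :=
        Finset.sum_le_sum_of_subset_of_nonneg (Finset.filter_subset _ _)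
          (fun n _ _ => by positivity)
    _ = x⁻¹ ^ k * ∑ n ∈ Icc 1 N, x ^ Om P n := by rw [Finset.mul_sum]
    _ ≤ _ := mul_le_mul_of_nonneg_left h1 (by positivity)

/-- Chernoff lower tail. -/
theorem card_Om_le_le {x : ℝ} (hx0 : 0 < x) (hx : x ≤ 1) {U : ℕ} (hU : 1 ≤ U)
    (hP : ∀ p : ℕ, p.Prime → P p → U < p) {N : ℕ} (hN : 2 ≤ N) (k : ℕ) :
    (((Icc 1 N).filter (fun n => Om P n ≤ k)).card : ℝ)
      ≤ x⁻¹ ^ k * (Real.exp 16 * 172 * N *
      Real.exp ((x - 1) * ∑ p ∈ Nat.primesLE N with P p, 1 / (p : ℝ))) := by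
  have hxU : x ^ 2 ≤ U := by
    have : (1 : ℝ) ≤ U := by exact_mod_cast hU
    nlinarith
  have h1 := sum_window_le P hx0.le hU hP hxU hN
  rw [Finset.card_eq_sum_ones, Nat.cast_sum]
  calc ∑ n ∈ (Icc 1 N).filter (fun n => Om P n ≤ k), ((1 : ℕ) : ℝ)
      ≤ ∑ n ∈ (Icc 1 N).filter (fun n => Om P n ≤ k), x⁻¹ ^ k * x ^ Om P n := by
        refine Finset.sum_le_sum fun n hn => ?_
        rw [Finset.mem_filter] at hn
        have h2 : x ^ k ≤ x ^ Om P n := pow_le_pow_of_le_one hx0.le hx hn.2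
        have h3 : x⁻¹ ^ k * x ^ k = 1 := by rw [← mul_pow, inv_mul_cancel₀ hx0.ne', one_pow]
        have h4 : 0 ≤ x⁻¹ ^ k := by positivity
        push_cast
        nlinarith
    _ ≤ ∑ n ∈ Icc 1 N, x⁻¹ ^ k * x ^ Om P n :=
        Finset.sum_le_sum_of_subset_of_nonneg (Finset.filter_subset _ _)
          (fun n _ _ => by positivity)
    _ = x⁻¹ ^ k * ∑ n ∈ Icc 1 N, x ^ Om P n := by rw [Finset.mul_sum]
    _ ≤ _ := by
        refine mul_le_mul_of_nonneg_left (h1.trans ?_) (by positivity)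
        have h5 : 43 * (1 + x) ^ 2 ≤ 172 := by nlinarith
        gcongr

end window

/-! ### Rankin bound for smooth numbers -/

/-- General Rankin bound: restrict to `n ≥ X`. -/
theorem sum_wt_div_ge_le {X δ : ℝ} (hX : 0 < X) (hδ : 0 ≤ δ) (hz0 : ∀ p, 0 ≤ z p)
    (hz : ∀ p : ℕ, p.Prime → z p * (p : ℝ) ^ δ ≤ 3 / 4 * p)
    (s : Finset ℕ) (T : Finset ℕ)
    (hT : ∀ n ∈ T, n ≠ 0 ∧ ∀ p : ℕ, p.Prime → p ∣ n → p ∈ s) (hTX : ∀ n ∈ T, X ≤ n) :
    ∑ n ∈ T, wt z n / n ≤ X ^ (-δ) *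
      Real.exp (∑ p ∈ s with p.Prime,
        (z p * (p : ℝ) ^ δ / p + 2 * (z p * (p : ℝ) ^ δ / p) ^ 2)) := by
  have h1 := sum_wt_div_le_exp (z := fun p => z p * (p : ℝ) ^ δ)
    (fun p => mul_nonneg (hz0 p) (Real.rpow_nonneg (Nat.cast_nonneg p) _)) hz s T hT
  have hwt : ∀ n : ℕ, n ≠ 0 → wt (fun p => z p * (p : ℝ) ^ δ) n = wt z n * (n : ℝ) ^ δ := by
    intro n hn
    rw [wt_of_ne_zero _ hn, wt_of_ne_zero _ hn]
    have h1 : (n : ℝ) ^ δ = n.factorization.prod fun p k => ((p : ℝ) ^ δ) ^ k := by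
      conv_lhs => rw [← Nat.prod_factorization_pow_eq_self hn]
      rw [Finsupp.prod, Finsupp.prod]
      push_cast
      rw [← Real.finsetProd_rpow _ _ (fun p _ => by positivity)]
      refine Finset.prod_congr rfl fun p _ => ?_
      rw [← Real.rpow_natCast, ← Real.rpow_natCast, ← Real.rpow_mul (Nat.cast_nonneg p),
        ← Real.rpow_mul (Nat.cast_nonneg p), mul_comm]
    rw [h1]
    simp only [Finsupp.prod, mul_pow]
    rw [Finset.prod_mul_distrib]
  calc ∑ n ∈ T, wt z n / n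
      ≤ ∑ n ∈ T, X ^ (-δ) * (wt (fun p => z p * (p : ℝ) ^ δ) n / n) := by
        refine Finset.sum_le_sum fun n hn => ?_
        have hn0 := (hT n hn).1
        have hnX := hTX n hn
        rw [hwt n hn0]
        have h2 : 1 ≤ X ^ (-δ) * (n : ℝ) ^ δ := by
          rw [Real.rpow_neg hX.le]
          have h3 : X ^ δ ≤ (n : ℝ) ^ δ := Real.rpow_le_rpow hX.le hnX hδ
          have h4 : 0 < X ^ δ := Real.rpow_pos_of_pos hX _
          rw [inv_mul_eq_div, one_le_div h4]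
          exact h3
        have h5 : 0 ≤ wt z n / n := div_nonneg (wt_nonneg hz0 n) (Nat.cast_nonneg n)
        calc wt z n / n = 1 * (wt z n / n) := (one_mul _).symm
          _ ≤ (X ^ (-δ) * (n : ℝ) ^ δ) * (wt z n / n) := mul_le_mul_of_nonneg_right h2 h5
          _ = _ := by ring
    _ = X ^ (-δ) * ∑ n ∈ T, wt (fun p => z p * (p : ℝ) ^ δ) n / n := by rw [Finset.mul_sum]
    _ ≤ _ := mul_le_mul_of_nonneg_left h1 (Real.rpow_nonneg hX.le _)

lemma sum_rpow_neg_three_halves_le (N : ℕ) :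
    ∑ m ∈ Icc 2 N, (m : ℝ) ^ (-(3 / 2) : ℝ) ≤ 2 := by
  have key : ∀ N : ℕ, 1 ≤ N → ∑ m ∈ Icc 2 N, (m : ℝ) ^ (-(3 / 2) : ℝ) ≤ 2 - 2 / √N := by
    intro N hN
    induction N, hN using Nat.le_induction with
    | base => norm_num
    | succ k hk ih =>
      rw [Finset.sum_Icc_succ_top (by omega)]
      have hk0 : (0 : ℝ) < k := by exact_mod_cast hk
      set a := √(k : ℝ) with ha
      set b := √((k + 1 : ℕ) : ℝ) with hb
      have ha0 : 0 < a := Real.sqrt_pos.2 hk0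
      have hb0 : 0 < b := Real.sqrt_pos.2 (by positivity)
      have ha2 : a ^ 2 = k := Real.sq_sqrt hk0.le
      have hb2 : b ^ 2 = k + 1 := by
        rw [hb, Real.sq_sqrt (by positivity)]; push_cast; ring
      have hab : a ≤ b := Real.sqrt_le_sqrt (by push_cast; linarith)
      have h1 : ((k + 1 : ℕ) : ℝ) ^ (-(3 / 2) : ℝ) = 1 / b ^ 3 := by
        rw [hb, Real.sqrt_eq_rpow, ← Real.rpow_natCast, ← Real.rpow_mul (by positivity),
          Real.rpow_neg (by positivity), one_div]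
        norm_num
      rw [h1]
      have h2 : 1 / b ^ 3 ≤ 2 / a - 2 / b := by
        have h3 : 2 / a - 2 / b = 2 * (b - a) / (a * b) := by field_simp
        rw [h3, div_le_div_iff₀ (by positivity) (by positivity)]
        have h4 : (b - a) * (b + a) = 1 := by nlinarith
        have h5 : b + a ≤ 2 * b := by linarith
        have h6 : 1 ≤ (b - a) * (2 * b) := by
          calc 1 = (b - a) * (b + a) := h4.symm
            _ ≤ (b - a) * (2 * b) := mul_le_mul_of_nonneg_left h5 (by linarith)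
        have h7 : a * b ≤ b ^ 2 := by nlinarith
        calc 1 * (a * b) ≤ b ^ 2 := by linarith
          _ = b ^ 2 * 1 := by ring
          _ ≤ b ^ 2 * ((b - a) * (2 * b)) := mul_le_mul_of_nonneg_left h6 (by positivity)
          _ = 2 * (b - a) * b ^ 3 := by ring
      linarith
  rcases Nat.eq_zero_or_pos N with rfl | hN
  · simp
  · refine (key N hN).trans ?_
    have : 0 ≤ 2 / √(N : ℝ) := by positivity
    linarith

/-- **Smooth numbers**: `∑_{P⁺(n) ≤ y, n ≥ y^u} 1/n ≤ exp (16 + 3 e^c) log y e^{-cu}`,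
`0 ≤ c ≤ (log y) / 4`. -/
theorem smooth_rankin {y : ℕ} (hy : 2 ≤ y) {c u : ℝ} (hc : 0 ≤ c) (hcy : c ≤ Real.log y / 4)
    (T : Finset ℕ) (hT : ∀ n ∈ T, n ≠ 0 ∧ ∀ p : ℕ, p.Prime → p ∣ n → p ≤ y)
    (hTX : ∀ n ∈ T, u * Real.log y ≤ Real.log n) :
    ∑ n ∈ T, 1 / (n : ℝ) ≤ Real.exp (16 + 3 * Real.exp c) * Real.log y * Real.exp (-(c * u)) := by
  have hlog : 0 < Real.log y := Real.log_pos (by exact_mod_cast hy)
  set δ : ℝ := c / Real.log y with hδdef
  have hδ : 0 ≤ δ := div_nonneg hc hlog.le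
  have hδ4 : δ ≤ 1 / 4 := by rw [hδdef, div_le_iff₀ hlog]; linarith
  have hlogle : ∀ p ∈ Nat.primesLE y, 0 ≤ Real.log p ∧ Real.log p ≤ Real.log y := by
    intro p hp
    rw [Nat.mem_primesLE] at hp
    have h1 : (1 : ℝ) ≤ p := by exact_mod_cast hp.2.one_le
    exact ⟨Real.log_nonneg h1, Real.log_le_log (by linarith) (by exact_mod_cast hp.1)⟩
  have h1 := sum_wt_div_ge_le (z := fun _ => 1) (X := Real.exp (u * Real.log y)) (δ := δ)
    (Real.exp_pos _) hδ (fun _ => zero_le_one) (by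
      intro p hp
      have hp2 : (2 : ℝ) ≤ p := by exact_mod_cast hp.two_le
      have h2 : (p : ℝ) ^ δ ≤ (p : ℝ) ^ (1 / 2 : ℝ) :=
        Real.rpow_le_rpow_of_exponent_le (by linarith) (by linarith)
      rw [← Real.sqrt_eq_rpow] at h2
      have h3 : √(p : ℝ) ≤ 3 / 4 * p := by
        rw [Real.sqrt_le_left (by positivity)]
        nlinarith
      linarith) (Nat.primesLE y) T (fun n hn => ⟨(hT n hn).1, fun p hp hpn => by
      rw [Nat.mem_primesLE]; exact ⟨(hT n hn).2 p hp hpn, hp⟩⟩) (by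
      intro n hn
      have hn0 : (0 : ℝ) < n := by exact_mod_cast Nat.pos_of_ne_zero (hT n hn).1
      rw [← Real.le_log_iff_exp_le hn0]
      exact hTX n hn)
  have h2 : (Nat.primesLE y).filter (fun p => p.Prime) = Nat.primesLE y :=
    Finset.filter_true_of_mem fun p hp => Nat.prime_of_mem_primesLE hp
  rw [h2] at h1
  have hwt1 : ∀ n ∈ T, wt (fun _ => 1) n / (n : ℝ) = 1 / n := by
    intro n hn
    rw [wt_of_ne_zero _ (hT n hn).1]
    simp [Finsupp.prod]
  rw [Finset.sum_congr rfl hwt1] at h1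
  refine h1.trans ?_
  have hexp1 : Real.exp (u * Real.log y) ^ (-δ) = Real.exp (-(c * u)) := by
    rw [← Real.exp_mul]
    congr 1
    rw [hδdef]
    field_simp
  rw [hexp1]
  -- exponent
  have hpow : ∀ p ∈ Nat.primesLE y,
      (p : ℝ) ^ δ ≤ 1 + (Real.exp c - 1) * (Real.log p / Real.log y) := by
    intro p hp
    have hpp := Nat.prime_of_mem_primesLE hp
    have hp0 : (0 : ℝ) < p := by exact_mod_cast hpp.pos
    obtain ⟨h3, h4⟩ := hlogle p hp
    rw [Real.rpow_def_of_pos hp0]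
    set τ := Real.log p / Real.log y with hτ
    have hτ0 : 0 ≤ τ := div_nonneg h3 hlog.le
    have hτ1 : τ ≤ 1 := by rw [hτ, div_le_one hlog]; exact h4
    have e1 : Real.log p * δ = τ * c + (1 - τ) * 0 := by
      rw [hδdef, hτ]; field_simp; ring
    rw [e1]
    have hconv := convexOn_exp.2 (Set.mem_univ c) (Set.mem_univ 0) hτ0 (by linarith : 0 ≤ 1 - τ)
      (by ring)
    simp only [smul_eq_mul, Real.exp_zero] at hconv
    refine hconv.trans (le_of_eq ?_)
    ring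
  have hexpc : 1 ≤ Real.exp c := Real.one_le_exp hc
  have hsum : ∑ p ∈ Nat.primesLE y,
        (1 * (p : ℝ) ^ δ / p + 2 * (1 * (p : ℝ) ^ δ / p) ^ 2)
      ≤ Real.log (Real.log y) + (16 + 3 * Real.exp c) := by
    rw [Finset.sum_add_distrib]
    have hs1 : ∑ p ∈ Nat.primesLE y, 1 * (p : ℝ) ^ δ / p
        ≤ (Real.log (Real.log y) + 12) + (Real.exp c - 1) * 3 := by
      calc ∑ p ∈ Nat.primesLE y, 1 * (p : ℝ) ^ δ / p
          ≤ ∑ p ∈ Nat.primesLE y, (1 / (p : ℝ)
              + (Real.exp c - 1) / Real.log y * (Real.log p / p)) := by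
            refine Finset.sum_le_sum fun p hp => ?_
            have hpp := Nat.prime_of_mem_primesLE hp
            have hp0 : (0 : ℝ) < p := by exact_mod_cast hpp.pos
            have h3 := hpow p hp
            calc 1 * (p : ℝ) ^ δ / p ≤ (1 + (Real.exp c - 1) * (Real.log p / Real.log y)) / p := by
                  rw [one_mul]
                  exact div_le_div_of_nonneg_right h3 hp0.le
              _ = _ := by field_simp
        _ = ∑ p ∈ Nat.primesLE y, 1 / (p : ℝ)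
              + (Real.exp c - 1) / Real.log y * Mertens.A y := by
            rw [Finset.sum_add_distrib, ← Finset.mul_sum, Mertens.A]
        _ ≤ (Real.log (Real.log y) + 12)
              + (Real.exp c - 1) / Real.log y * (Real.log y + Real.log 4) := by
            refine add_le_add (sum_inv_primesLE_le hy) ?_
            refine mul_le_mul_of_nonneg_left (Mertens.A_le y (by omega)) ?_
            exact div_nonneg (by linarith) hlog.le
        _ ≤ (Real.log (Real.log y) + 12) + (Real.exp c - 1) * 3 := by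
            have h4 : Real.log 4 ≤ 2 * Real.log y := by
              have h5 : Real.log 4 = 2 * Real.log 2 := by
                rw [show (4 : ℝ) = 2 ^ 2 by norm_num, Real.log_pow]; norm_num
              have h6 : Real.log 2 ≤ Real.log y :=
                Real.log_le_log (by norm_num) (by exact_mod_cast hy)
              rw [h5]; linarith
            have h7 : (Real.exp c - 1) / Real.log y * (Real.log y + Real.log 4)
                ≤ (Real.exp c - 1) * 3 := by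
              rw [div_mul_eq_mul_div, div_le_iff₀ hlog, mul_assoc]
              exact mul_le_mul_of_nonneg_left (by linarith) (by linarith)
            linarith
    have hs2 : ∑ p ∈ Nat.primesLE y, 2 * (1 * (p : ℝ) ^ δ / p) ^ 2 ≤ 4 := by
      calc ∑ p ∈ Nat.primesLE y, 2 * (1 * (p : ℝ) ^ δ / p) ^ 2
          ≤ ∑ p ∈ Nat.primesLE y, 2 * (p : ℝ) ^ (-(3 / 2) : ℝ) := by
            refine Finset.sum_le_sum fun p hp => ?_
            have hpp := Nat.prime_of_mem_primesLE hp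
            have hp0 : (0 : ℝ) < p := by exact_mod_cast hpp.pos
            have hp1 : (1 : ℝ) ≤ p := by exact_mod_cast hpp.one_le
            refine mul_le_mul_of_nonneg_left ?_ (by norm_num)
            rw [one_mul, ← Real.rpow_natCast, ← Real.rpow_sub_one hp0.ne', ← Real.rpow_mul hp0.le]
            refine Real.rpow_le_rpow_of_exponent_le hp1 ?_
            push_cast
            linarith
        _ = 2 * ∑ p ∈ Nat.primesLE y, (p : ℝ) ^ (-(3 / 2) : ℝ) := by rw [Finset.mul_sum]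
        _ ≤ 2 * ∑ m ∈ Icc 2 y, (m : ℝ) ^ (-(3 / 2) : ℝ) := by
            refine mul_le_mul_of_nonneg_left ?_ (by norm_num)
            refine Finset.sum_le_sum_of_subset_of_nonneg ?_ (fun m _ _ => by positivity)
            intro p hp
            rw [Nat.mem_primesLE] at hp
            rw [Finset.mem_Icc]
            exact ⟨hp.2.two_le, hp.1⟩
        _ ≤ 2 * 2 := mul_le_mul_of_nonneg_left (sum_rpow_neg_three_halves_le y) (by norm_num)
        _ = 4 := by norm_num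
    linarith
  calc Real.exp (-(c * u)) * Real.exp (∑ p ∈ Nat.primesLE y,
        (1 * (p : ℝ) ^ δ / p + 2 * (1 * (p : ℝ) ^ δ / p) ^ 2))
      ≤ Real.exp (-(c * u)) * Real.exp (Real.log (Real.log y) + (16 + 3 * Real.exp c)) :=
        mul_le_mul_of_nonneg_left (Real.exp_le_exp.2 hsum) (Real.exp_pos _).le
    _ = _ := by
        rw [Real.exp_add, Real.exp_log hlog]; ring

end Crest.Agent.Lib.HallTen
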