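import Mathlib.Analysis.Calculus.ImplicitContDiff
import Mathlib.Analysis.Calculus.MeanValue
import Mathlib.Analysis.Calculus.FDeriv.Symmetric
import Mathlib.Topology.ContinuousMap.Compact
import Mathlib.Topology.UniformSpace.HeineCantor
import Mathlib.MeasureTheory.Integral.IntervalIntegral.FundThmCalculus
import Mathlib.Analysis.SpecialFunctions.Integrals.Basic
import Mathlib.Analysis.SpecificLimits.Normed
import Mathlib.Topology.UnitInterval
import Mathlib.Topology.Algebra.Order.Floor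

/-!
Smooth dependence of solutions of autonomous ODEs on initial data (Banach spaces).
-/

set_option autoImplicit false
set_option linter.unusedSectionVars false

open Set Filter Topology
open scoped ContDiff

noncomputable section

namespace Crest.Agent.Lib.ODEFlow

universe u

section Nemytskii

variable {K : Type*} [TopologicalSpace K] [CompactSpace K]
variable {E F : Type u} [NormedAddCommGroup E] [NormedSpace ℝ E]
  [NormedAddCommGroup F] [NormedSpace ℝ F]

/-- The set of continuous maps `K → E` with values in `U`. -/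
def mapsIn (K : Type*) [TopologicalSpace K] (U : Set E) : Set C(K, E) := {α | ∀ t, α t ∈ U}

lemma isOpen_mapsIn {U : Set E} (hU : IsOpen U) : IsOpen (mapsIn K U) := by
  have := ContinuousMap.isOpen_setOfPred_range_subset (X := K) hU
  convert this using 1
  ext α
  simp [mapsIn, Set.range_subset_iff]

/-- Superposition operator `α ↦ g ∘ α` (junk value `0` when `g ∘ α` is not continuous). -/
def nem (g : E → F) (α : C(K, E)) : C(K, F) := ContinuousMap.mkD (fun t => g (α t)) 0

lemma nem_apply {g : E → F} {U : Set E} (hg : ContinuousOn g U) {α : C(K, E)}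
    (hα : α ∈ mapsIn K U) (t : K) : nem g α t = g (α t) := by
  have hc : Continuous (fun t => g (α t)) := hg.comp_continuous α.continuous hα
  rw [nem, ContinuousMap.mkD_apply_of_continuous hc]

lemma continuousOn_nem {g : E → F} {U : Set E} (hU : IsOpen U) (hg : ContinuousOn g U) :
    ContinuousOn (nem (K := K) g) (mapsIn K U) := by
  intro α hα
  rw [ContinuousWithinAt, Metric.tendsto_nhds]
  intro ε hε
  have hs : IsCompact (range α) := isCompact_range α.continuous
  have hf : ∀ a ∈ range α, ContinuousAt g a := by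
    rintro _ ⟨t, rfl⟩
    exact hg.continuousAt (hU.mem_nhds (hα t))
  have := hs.uniformContinuousAt_of_continuousAt g hf (Metric.dist_mem_uniformity (half_pos hε))
  obtain ⟨δ, hδ, h⟩ := Metric.mem_uniformity_dist.1 this
  have h1 : ∀ᶠ β in 𝓝[mapsIn K U] α, dist β α < δ :=
    nhdsWithin_le_nhds (Metric.ball_mem_nhds α hδ)
  filter_upwards [h1, self_mem_nhdsWithin] with β hβ hβU
  refine lt_of_le_of_lt ?_ (half_lt_self hε)
  rw [ContinuousMap.dist_le (half_pos hε).le]
  intro t
  rw [nem_apply hg hα, nem_apply hg hβU, dist_comm]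
  have := h (a := α t) (b := β t) (by
    rw [dist_comm]; exact lt_of_le_of_lt (ContinuousMap.dist_apply_le_dist t) hβ)
  exact le_of_lt (this ⟨t, rfl⟩)

/-- Pointwise application of a continuous family of operators. -/
def applyB : C(K, E →L[ℝ] F) →L[ℝ] C(K, E) →L[ℝ] C(K, F) :=
  LinearMap.mkContinuous₂
    (LinearMap.mk₂ ℝ (fun (A : C(K, E →L[ℝ] F)) (h : C(K, E)) =>
        (⟨fun t => A t (h t), by fun_prop⟩ : C(K, F)))
      (by intros; ext; simp) (by intros; ext; simp) (by intros; ext; simp)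
      (by intros; ext; simp)) 1 (by
    intro A h
    rw [ContinuousMap.norm_le _ (by positivity)]
    intro t
    simp only [LinearMap.mk₂_apply, ContinuousMap.coe_mk, one_mul]
    refine (ContinuousLinearMap.le_opNorm _ _).trans ?_
    exact mul_le_mul (A.norm_coe_le_norm t) (h.norm_coe_le_norm t) (norm_nonneg _)
      (norm_nonneg A))

@[simp] lemma applyB_apply (A : C(K, E →L[ℝ] F)) (h : C(K, E)) (t : K) :
    applyB A h t = A t (h t) := rfl

lemma hasFDerivAt_nem {g : E → F} {U : Set E} (hU : IsOpen U) (hg : ContDiffOn ℝ 1 g U)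
    {α : C(K, E)} (hα : α ∈ mapsIn K U) :
    HasFDerivAt (nem g) (applyB (nem (fderiv ℝ g) α)) α := by
  have hgc : ContinuousOn g U := hg.continuousOn
  have hDc : ContinuousOn (fderiv ℝ g) U := hg.continuousOn_fderiv_of_isOpen hU le_rfl
  rw [hasFDerivAt_iff_isLittleO_nhds_zero, Asymptotics.isLittleO_iff]
  intro c hc
  have hcont : ContinuousAt (nem (K := K) (fderiv ℝ g)) α :=
    (continuousOn_nem hU hDc).continuousAt ((isOpen_mapsIn hU).mem_nhds hα)
  have h1 : ∀ᶠ β in 𝓝 α, dist (nem (K := K) (fderiv ℝ g) β) (nem (fderiv ℝ g) α) < c ∧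
      β ∈ mapsIn K U :=
    (hcont.eventually (Metric.ball_mem_nhds _ hc)).and
      (Filter.eventually_of_mem ((isOpen_mapsIn hU).mem_nhds hα) fun _ h => h)
  obtain ⟨δ, hδ, hball⟩ := Metric.eventually_nhds_iff_ball.1 h1
  filter_upwards [Metric.ball_mem_nhds (0 : C(K, E)) hδ] with h hh
  have hαh : α + h ∈ Metric.ball α δ := by simpa using hh
  rw [ContinuousMap.norm_le _ (by positivity)]
  intro t
  have hseg : ∀ s ∈ Icc (0 : ℝ) 1, α + s • h ∈ Metric.ball α δ := by
    intro s hs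
    simp only [Metric.mem_ball, dist_self_add_left, dist_zero_right] at hh ⊢
    rw [norm_smul, Real.norm_of_nonneg hs.1]
    exact lt_of_le_of_lt (mul_le_of_le_one_left (norm_nonneg _) hs.2) hh
  simp only [ContinuousMap.coe_sub, Pi.sub_apply, applyB_apply]
  rw [nem_apply hgc (hball _ hαh).2, nem_apply hgc hα, nem_apply hDc hα]
  have hconv : Convex ℝ (segment ℝ (α t) (α t + h t)) := convex_segment _ _
  have key := hconv.norm_image_sub_le_of_norm_hasFDerivWithin_le' (f := g)
    (f' := fderiv ℝ g) (φ := fderiv ℝ g (α t)) (C := c)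
    (x := α t) (y := α t + h t) ?_ ?_ (left_mem_segment _ _ _) (right_mem_segment _ _ _)
  · simp only [add_sub_cancel_left] at key
    refine key.trans ?_
    gcongr
    exact h.norm_coe_le_norm t
  · intro y hy
    rw [segment_eq_image'] at hy
    obtain ⟨s, hs, rfl⟩ := hy
    have := (hball _ (hseg s hs)).2 t
    simp only [ContinuousMap.add_apply, ContinuousMap.smul_apply] at this
    simp only [add_sub_cancel_left]
    exact ((hg.differentiableOn one_ne_zero).differentiableAt
      (hU.mem_nhds this)).hasFDerivAt.hasFDerivWithinAt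
  · intro y hy
    rw [segment_eq_image'] at hy
    obtain ⟨s, hs, rfl⟩ := hy
    have h2 := (hball _ (hseg s hs))
    simp only [add_sub_cancel_left]
    have h3 := (ContinuousMap.dist_apply_le_dist t).trans_lt h2.1
    rw [nem_apply hDc h2.2, nem_apply hDc hα, dist_eq_norm] at h3
    simpa using h3.le

lemma contDiffOn_nem_nat (n : ℕ) : ∀ {F : Type u} [NormedAddCommGroup F] [NormedSpace ℝ F]
    {g : E → F} {U : Set E}, IsOpen U → ContDiffOn ℝ n g U →
    ContDiffOn ℝ n (nem (K := K) g) (mapsIn K U) := by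
  induction n with
  | zero =>
    intro F _ _ g U hU hg
    simp only [Nat.cast_zero, contDiffOn_zero] at hg ⊢
    exact continuousOn_nem hU hg
  | succ n ih =>
    intro F _ _ g U hU hg
    have hO := isOpen_mapsIn (K := K) hU
    have h1 : ContDiffOn ℝ 1 g U := hg.of_le (by
      push_cast
      exact le_add_self)
    have hD : ContDiffOn ℝ n (fderiv ℝ g) U := by
      have := hg
      push_cast at this
      exact ((contDiffOn_succ_iff_fderiv_of_isOpen hU).1 this).2.2
    push_cast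
    rw [contDiffOn_succ_iff_fderiv_of_isOpen hO]
    refine ⟨fun α hα => (hasFDerivAt_nem hU h1 hα).differentiableAt.differentiableWithinAt,
      by simp, ?_⟩
    have h3 : ContDiff ℝ n (fun A : C(K, E →L[ℝ] F) => (applyB A : C(K, E) →L[ℝ] C(K, F))) :=
      by fun_prop
    have h2 : ContDiffOn ℝ n (fun α : C(K, E) => applyB (nem (fderiv ℝ g) α)) (mapsIn K U) :=
      h3.comp_contDiffOn (ih (F := E →L[ℝ] F) hU hD)
    exact h2.congr fun α hα => (hasFDerivAt_nem hU h1 hα).fderiv

theorem contDiffOn_nem {n : ℕ∞} {g : E → F} {U : Set E} (hU : IsOpen U)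
    (hg : ContDiffOn ℝ n g U) : ContDiffOn ℝ n (nem (K := K) g) (mapsIn K U) := by
  cases n with
  | top =>
    rw [show ((⊤ : ℕ∞) : WithTop ℕ∞) = ∞ from rfl, contDiffOn_infty] at hg ⊢
    exact fun n => contDiffOn_nem_nat n hU (hg n)
  | coe n => exact contDiffOn_nem_nat n hU hg

end Nemytskii

section Volterra

variable {E : Type u} [NormedAddCommGroup E] [NormedSpace ℝ E]

/-- the unit interval as the time domain -/
abbrev I : Type := Set.Icc (0 : ℝ) 1

/-- clamp a real to `[0,1]` -/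
abbrev pr (s : ℝ) : I := projIcc 0 1 zero_le_one s

lemma continuous_comp_pr (α : C(I, E)) : Continuous fun s => α (pr s) :=
  α.continuous.comp continuous_projIcc

/-- Volterra operator `(vol α) t = ∫ s in 0..t, α s`. -/
def vol : C(I, E) →L[ℝ] C(I, E) :=
  LinearMap.mkContinuous
    { toFun := fun α => ⟨fun t => ∫ s in (0 : ℝ)..t, α (pr s),
        (intervalIntegral.continuous_primitive
          (fun a b => (continuous_comp_pr α).intervalIntegrable a b) 0).comp
          continuous_subtype_val⟩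
      map_add' := by
        intro α β
        ext t
        simp only [ContinuousMap.coe_mk, ContinuousMap.add_apply]
        exact intervalIntegral.integral_add ((continuous_comp_pr α).intervalIntegrable _ _)
          ((continuous_comp_pr β).intervalIntegrable _ _)
      map_smul' := by
        intro c α
        ext t
        simp only [ContinuousMap.coe_mk, ContinuousMap.smul_apply, RingHom.id_apply]
        exact intervalIntegral.integral_smul _ _ } 1 (by
    intro α
    rw [ContinuousMap.norm_le _ (by positivity)]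
    intro t
    simp only [LinearMap.coe_mk, AddHom.coe_mk, ContinuousMap.coe_mk, one_mul]
    have h1 : ‖∫ s in (0 : ℝ)..t, α (pr s)‖ ≤ ‖α‖ * |(t : ℝ) - 0| :=
      intervalIntegral.norm_integral_le_of_norm_le_const fun s _ => α.norm_coe_le_norm _
    refine h1.trans ?_
    rw [sub_zero, abs_of_nonneg t.2.1]
    exact mul_le_of_le_one_right (norm_nonneg _) t.2.2)

lemma vol_apply (α : C(I, E)) (t : I) : vol α t = ∫ s in (0 : ℝ)..t, α (pr s) := rfl

lemma norm_vol_comp_pow_apply (B : C(I, E) →L[ℝ] C(I, E)) {M : ℝ} (hM : 0 ≤ M)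
    (hB : ∀ h t, ‖B h t‖ ≤ M * ‖h t‖) (n : ℕ) (h : C(I, E)) (t : I) :
    ‖((vol ∘L B) ^ n) h t‖ ≤ (M * t) ^ n / n.factorial * ‖h‖ := by
  induction n generalizing t with
  | zero => simpa using h.norm_coe_le_norm t
  | succ n ih =>
    have h0 : ((vol ∘L B) ^ (n + 1)) h = vol (B (((vol ∘L B) ^ n) h)) := by
      rw [pow_succ']; rfl
    rw [h0, vol_apply]
    have hint : IntervalIntegrable (fun s : ℝ => M * ((M * s) ^ n / n.factorial * ‖h‖))
        MeasureTheory.volume 0 t := by
      apply Continuous.intervalIntegrable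
      fun_prop
    have hle : ‖∫ s in (0 : ℝ)..t, B (((vol ∘L B) ^ n) h) (pr s)‖ ≤
        ∫ s in (0 : ℝ)..t, M * ((M * s) ^ n / n.factorial * ‖h‖) := by
      apply intervalIntegral.norm_integral_le_of_norm_le t.2.1 _ hint
      refine Filter.Eventually.of_forall fun s hs => ?_
      refine (hB _ _).trans ?_
      refine mul_le_mul_of_nonneg_left ?_ hM
      have h2 := ih (pr s)
      have hs' : ((pr s : I) : ℝ) = s := by
        rw [pr, projIcc_of_mem zero_le_one ⟨hs.1.le, hs.2.trans t.2.2⟩]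
      rwa [hs'] at h2
    refine hle.trans (le_of_eq ?_)
    have : ∀ s : ℝ, M * ((M * s) ^ n / n.factorial * ‖h‖) =
        (M ^ (n + 1) / n.factorial * ‖h‖) * s ^ n := by
      intro s; rw [mul_pow]; ring
    simp_rw [this]
    rw [intervalIntegral.integral_const_mul, integral_pow]
    rw [Nat.factorial_succ]
    push_cast
    have hn : (n : ℝ) + 1 ≠ 0 := by positivity
    have hf : (n.factorial : ℝ) ≠ 0 := by positivity
    field_simp
    rw [zero_pow (Nat.succ_ne_zero n), sub_zero, mul_pow]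
    ring

/-- `1 - vol ∘ B` is invertible for every pointwise-bounded operator `B`. -/
lemma isInvertible_id_sub_vol_comp [CompleteSpace E] (B : C(I, E) →L[ℝ] C(I, E)) {M : ℝ}
    (hM : 0 ≤ M) (hB : ∀ h t, ‖B h t‖ ≤ M * ‖h t‖) :
    (ContinuousLinearMap.id ℝ C(I, E) - vol ∘L B).IsInvertible := by
  set T := vol ∘L B with hT
  have hbound : ∀ n : ℕ, ‖T ^ n‖ ≤ M ^ n / n.factorial := by
    intro n
    refine ContinuousLinearMap.opNorm_le_bound _ (by positivity) fun h => ?_
    rw [ContinuousMap.norm_le _ (by positivity)]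
    intro t
    refine (norm_vol_comp_pow_apply B hM hB n h t).trans ?_
    gcongr
    · exact mul_nonneg hM t.2.1
    · exact mul_le_of_le_one_right hM t.2.2
  have htend : Tendsto (fun n : ℕ => M ^ n / (n.factorial : ℝ)) atTop (𝓝 0) :=
    FloorSemiring.tendsto_pow_div_factorial_atTop M
  obtain ⟨n, hn⟩ := (htend.eventually (gt_mem_nhds one_pos)).exists
  have hu : IsUnit (1 - T ^ n) :=
    isUnit_one_sub_of_norm_lt_one (R := C(I, E) →L[ℝ] C(I, E)) ((hbound n).trans_lt hn)
  have hfac : (1 - T) * ∑ i ∈ Finset.range n, T ^ i = 1 - T ^ n := mul_neg_geom_sum T n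
  have hcomm : Commute (1 - T) (∑ i ∈ Finset.range n, T ^ i) := by
    apply Commute.sum_right
    intro i _
    exact ((Commute.one_left _).sub_left (Commute.pow_right (Commute.refl T) i))
  rw [← hfac] at hu
  have hu1 := (hcomm.isUnit_mul_iff.1 hu).1
  obtain ⟨w, hw⟩ := hu1
  refine ContinuousLinearMap.IsInvertible.of_inverse (g := (↑w⁻¹ : C(I, E) →L[ℝ] C(I, E))) ?_ ?_
  · have : (1 - T) * ↑w⁻¹ = 1 := by rw [← hw]; exact w.mul_inv
    exact this
  · have : ↑w⁻¹ * (1 - T) = 1 := by rw [← hw]; exact w.inv_mul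
    exact this

end Volterra

section Equation

variable {E : Type u} [NormedAddCommGroup E] [NormedSpace ℝ E]

/-- constant maps as a continuous linear map -/
def constL : E →L[ℝ] C(I, E) :=
  LinearMap.mkContinuous
    { toFun := fun x => ContinuousMap.const I x
      map_add' := by intros; rfl
      map_smul' := by intros; rfl } 1 (by
    intro x
    rw [ContinuousMap.norm_le _ (by positivity)]
    intro t
    change ‖x‖ ≤ 1 * ‖x‖
    rw [one_mul])

@[simp] lemma constL_apply (x : E) (t : I) : constL x t = x := rfl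

/-- The fixed point equation, `eqn v ((x, l), w) = w - x - l ∫ v (w)`. -/
def eqn (v : E → E) (p : (E × ℝ) × C(I, E)) : C(I, E) :=
  p.2 - constL p.1.1 - p.1.2 • vol (nem v p.2)

/-- `w` (on `[0,1]`) is the rescaled solution on `[0,l]` of `c' = v c`, `c 0 = x`, inside `U`. -/
def IsSol (v : E → E) (U : Set E) (x : E) (l : ℝ) (w : C(I, E)) : Prop :=
  w ∈ mapsIn I U ∧ ∀ t : I, w t = x + l • ∫ s in (0 : ℝ)..t, v (w (pr s))

lemma isSol_iff {v : E → E} {U : Set E} (hv : ContinuousOn v U) {x : E} {l : ℝ} {w : C(I, E)} :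
    IsSol v U x l w ↔ w ∈ mapsIn I U ∧ eqn v ((x, l), w) = 0 := by
  unfold IsSol
  refine and_congr_right fun hw => ?_
  rw [ContinuousMap.ext_iff]
  refine forall_congr' fun t => ?_
  have : vol (nem v w) t = ∫ s in (0 : ℝ)..t, v (w (pr s)) := by
    rw [vol_apply]
    simp_rw [nem_apply hv hw]
  simp only [eqn, ContinuousMap.sub_apply, constL_apply, ContinuousMap.smul_apply, this,
    ContinuousMap.zero_apply]
  constructor
  · intro h; rw [h]; abel
  · intro h; rw [sub_sub, sub_eq_zero] at h; exact h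

lemma contDiffOn_eqn {n : ℕ∞} {v : E → E} {U : Set E} (hU : IsOpen U) (hv : ContDiffOn ℝ n v U) :
    ContDiffOn ℝ n (eqn v) {p | p.2 ∈ mapsIn I U} := by
  have h1 : ContDiffOn ℝ n (fun p : (E × ℝ) × C(I, E) => nem v p.2) {p | p.2 ∈ mapsIn I U} :=
    (contDiffOn_nem hU hv).comp contDiff_snd.contDiffOn (fun p hp => hp)
  have h2 : ContDiffOn ℝ n (fun p : (E × ℝ) × C(I, E) => vol (nem v p.2))
      {p | p.2 ∈ mapsIn I U} := by
    have : ContDiff ℝ n (fun α : C(I, E) => vol α) := by fun_prop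
    exact this.comp_contDiffOn h1
  have h3 : ContDiff ℝ n (fun p : (E × ℝ) × C(I, E) => constL p.1.1) := by
    have : ContDiff ℝ n (fun x : E => constL x) := by fun_prop
    exact this.comp (contDiff_fst.comp contDiff_fst)
  unfold eqn
  exact (contDiff_snd.contDiffOn.sub h3.contDiffOn).sub
    ((contDiff_snd.comp contDiff_fst).contDiffOn.smul h2)

lemma isOpen_eqn_dom {U : Set E} (hU : IsOpen U) :
    IsOpen {p : (E × ℝ) × C(I, E) | p.2 ∈ mapsIn I U} :=
  (isOpen_mapsIn hU).preimage continuous_snd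

lemma fderiv_eqn_inr {v : E → E} {U : Set E} (hU : IsOpen U) (hv : ContDiffOn ℝ 1 v U)
    {q : E × ℝ} {w : C(I, E)} (hp : w ∈ mapsIn I U) :
    fderiv ℝ (eqn v) (q, w) ∘L .inr ℝ (E × ℝ) C(I, E) =
      ContinuousLinearMap.id ℝ C(I, E) - vol ∘L (q.2 • applyB (nem (fderiv ℝ v) w)) := by
  have hd : DifferentiableAt ℝ (eqn v) (q, w) :=
    ((contDiffOn_eqn (n := 1) hU hv).differentiableOn one_ne_zero).differentiableAt
      ((isOpen_eqn_dom hU).mem_nhds hp)
  have h1 : HasFDerivAt (fun w : C(I, E) => eqn v (q, w))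
      (fderiv ℝ (eqn v) (q, w) ∘L .inr ℝ (E × ℝ) C(I, E)) w :=
    HasFDerivAt.comp (g := eqn v) (f := fun w : C(I, E) => (q, w)) w hd.hasFDerivAt
      (hasFDerivAt_prodMk_right q w)
  have h3 : HasFDerivAt (nem (K := I) v) (applyB (nem (fderiv ℝ v) w)) w :=
    hasFDerivAt_nem (K := I) hU hv hp
  have h4 : HasFDerivAt (fun w : C(I, E) => vol (nem v w))
      (vol ∘L applyB (nem (fderiv ℝ v) w)) w :=
    HasFDerivAt.comp (g := fun α : C(I, E) => vol α) w (ContinuousLinearMap.hasFDerivAt _) h3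
  have h5 : HasFDerivAt (fun w : C(I, E) => eqn v (q, w))
      (ContinuousLinearMap.id ℝ C(I, E) - q.2 • (vol ∘L applyB (nem (fderiv ℝ v) w))) w := by
    unfold eqn
    exact ((hasFDerivAt_id w).sub_const (constL q.1)).sub (h4.const_smul q.2)
  rw [h1.unique h5, ContinuousLinearMap.comp_smul]

theorem exists_local_solution [CompleteSpace E] {n : ℕ∞} (hn : 1 ≤ n) {v : E → E} {U : Set E}
    (hU : IsOpen U) (hv : ContDiffOn ℝ n v U) {x₀ : E} {l₀ : ℝ} {w₀ : C(I, E)}
    (h₀ : IsSol v U x₀ l₀ w₀) :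
    ∃ ψ : E × ℝ → C(I, E), ContDiffAt ℝ n ψ (x₀, l₀) ∧ ψ (x₀, l₀) = w₀ ∧
      (∀ᶠ p in 𝓝 (x₀, l₀), IsSol v U p.1 p.2 (ψ p)) ∧
      (∀ᶠ q in 𝓝 ((x₀, l₀), w₀), IsSol v U q.1.1 q.1.2 q.2 → q.2 = ψ q.1) := by
  have hvc : ContinuousOn v U := hv.continuousOn
  have hn0 : ((n : ℕ∞) : WithTop ℕ∞) ≠ 0 := by
    intro h
    have : n = 0 := by exact_mod_cast h
    rw [this] at hn
    exact absurd hn (by simp)
  have hv1 : ContDiffOn ℝ 1 v U := hv.of_le (by exact_mod_cast hn)
  have h0 := (isSol_iff hvc).1 h₀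
  have hmem : ((x₀, l₀), w₀) ∈ {p : (E × ℝ) × C(I, E) | p.2 ∈ mapsIn I U} := h0.1
  have cdf : ContDiffAt ℝ n (eqn v) ((x₀, l₀), w₀) :=
    (contDiffOn_eqn hU hv).contDiffAt ((isOpen_eqn_dom hU).mem_nhds hmem)
  have hinv : (fderiv ℝ (eqn v) ((x₀, l₀), w₀) ∘L .inr ℝ (E × ℝ) C(I, E)).IsInvertible := by
    rw [fderiv_eqn_inr hU hv1 h0.1]
    refine isInvertible_id_sub_vol_comp _ (M := ‖l₀‖ * ‖nem (K := I) (fderiv ℝ v) w₀‖)
      (by positivity) ?_
    intro h t
    change ‖l₀ • (nem (K := I) (fderiv ℝ v) w₀ t) (h t)‖ ≤ _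
    rw [norm_smul, mul_assoc]
    refine mul_le_mul_of_nonneg_left ?_ (norm_nonneg _)
    refine (ContinuousLinearMap.le_opNorm _ _).trans ?_
    exact mul_le_mul_of_nonneg_right (ContinuousMap.norm_coe_le_norm _ t) (norm_nonneg _)
  refine ⟨cdf.implicitFunction hn0 hinv, cdf.contDiffAt_implicitFunction hn0 hinv,
    cdf.implicitFunction_apply_self hn0 hinv, ?_, ?_⟩
  · have hc : ContinuousAt (cdf.implicitFunction hn0 hinv) (x₀, l₀) :=
      (cdf.contDiffAt_implicitFunction hn0 hinv).continuousAt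
    have h1 := cdf.eventually_apply_implicitFunction hn0 hinv
    have h2 : ∀ᶠ p in 𝓝 (x₀, l₀), cdf.implicitFunction hn0 hinv p ∈ mapsIn I U := by
      apply hc.eventually
      rw [cdf.implicitFunction_apply_self hn0 hinv]
      exact (isOpen_mapsIn hU).mem_nhds h0.1
    filter_upwards [h1, h2] with p hp1 hp2
    rw [isSol_iff hvc]
    refine ⟨hp2, ?_⟩
    rw [h0.2] at hp1
    exact hp1
  · filter_upwards [cdf.eventually_apply_eq_iff_implicitFunction hn0 hinv] with q hq hs
    rw [isSol_iff hvc] at hs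
    rw [h0.2] at hq
    exact (hq.1 hs.2).symm

end Equation

section Flow

variable {E : Type u} [NormedAddCommGroup E] [NormedSpace ℝ E]

lemma pr_of_mem {s : ℝ} (hs : s ∈ Icc (0 : ℝ) 1) : ((pr s : I) : ℝ) = s := by
  rw [pr, projIcc_of_mem zero_le_one hs]

lemma pr_coe (t : I) : pr (t : ℝ) = t := projIcc_val zero_le_one t

/-- The rescaled curve `t ↦ w (θ t)`. -/
def scale (θ : ℝ) (w : C(I, E)) : C(I, E) :=
  ⟨fun t => w (pr (θ * t)), w.continuous.comp
    (continuous_projIcc.comp (continuous_const.mul continuous_subtype_val))⟩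

lemma scale_apply (θ : ℝ) (w : C(I, E)) (t : I) : scale θ w t = w (pr (θ * t)) := rfl

lemma continuous_scale (w : C(I, E)) : Continuous fun θ : ℝ => scale θ w := by
  apply ContinuousMap.continuous_of_continuous_uncurry
  change Continuous fun q : ℝ × I => w (pr (q.1 * q.2))
  exact w.continuous.comp (continuous_projIcc.comp
    (continuous_fst.mul (continuous_subtype_val.comp continuous_snd)))

lemma scale_one (w : C(I, E)) : scale 1 w = w := by
  ext t
  rw [scale_apply, one_mul, pr_coe]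

lemma mul_mem_I {θ : ℝ} (hθ : θ ∈ Icc (0 : ℝ) 1) {t : ℝ} (ht : t ∈ Icc (0 : ℝ) 1) :
    θ * t ∈ Icc (0 : ℝ) 1 :=
  ⟨mul_nonneg hθ.1 ht.1, mul_le_one₀ hθ.2 ht.1 ht.2⟩

lemma IsSol.scale {v : E → E} {U : Set E} {x : E} {l : ℝ} {w : C(I, E)} (h : IsSol v U x l w)
    {θ : ℝ} (hθ : θ ∈ Icc (0 : ℝ) 1) : IsSol v U x (θ * l) (ODEFlow.scale θ w) := by
  refine ⟨fun t => h.1 _, fun t => ?_⟩
  rw [scale_apply, h.2 (pr (θ * t)), pr_of_mem (mul_mem_I hθ t.2)]
  have h1 : ∫ s in (0 : ℝ)..t, v (ODEFlow.scale θ w (pr s)) =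
      ∫ s in (0 : ℝ)..t, (fun r => v (w (pr r))) (θ * s) := by
    apply intervalIntegral.integral_congr
    intro s hs
    rw [uIcc_of_le t.2.1] at hs
    simp only [scale_apply]
    rw [pr_of_mem ⟨hs.1, hs.2.trans t.2.2⟩]
  have h2 := intervalIntegral.smul_integral_comp_mul_left (a := 0) (b := (t : ℝ))
    (fun r => v (w (pr r))) θ
  rw [h1, mul_comm θ l, mul_smul, h2, mul_zero]

lemma IsSol.apply_zero {v : E → E} {U : Set E} {x : E} {l : ℝ} {w : C(I, E)}
    (h : IsSol v U x l w) : w 0 = x := by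
  rw [h.2 0]
  simp

theorem IsSol.unique [CompleteSpace E] {v : E → E} {U : Set E} (hU : IsOpen U)
    (hv : ContDiffOn ℝ 1 v U) {x : E} {l : ℝ} {w₁ w₂ : C(I, E)}
    (h₁ : IsSol v U x l w₁) (h₂ : IsSol v U x l w₂) : w₁ = w₂ := by
  set S : Set I := {θ | ODEFlow.scale θ w₁ = ODEFlow.scale θ w₂} with hS
  have hclosed : IsClosed S := by
    refine isClosed_eq ?_ ?_
    · exact (continuous_scale w₁).comp continuous_subtype_val
    · exact (continuous_scale w₂).comp continuous_subtype_val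
  have hopen : IsOpen S := by
    rw [isOpen_iff_mem_nhds]
    intro θ₀ hθ₀
    have hs : IsSol v U x (θ₀ * l) (ODEFlow.scale θ₀ w₁) := h₁.scale θ₀.2
    obtain ⟨ψ, -, -, -, hψ⟩ := exists_local_solution (n := 1) le_rfl hU hv hs
    have hc : ∀ w : C(I, E), ODEFlow.scale θ₀ w = ODEFlow.scale θ₀ w₁ →
        Tendsto (fun θ : I => (((x, (θ : ℝ) * l), ODEFlow.scale θ w) : (E × ℝ) × C(I, E)))
        (𝓝 θ₀) (𝓝 ((x, (θ₀ : ℝ) * l), ODEFlow.scale θ₀ w₁)) := by
      intro w hw
      have : Continuous (fun θ : I =>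
          (((x, (θ : ℝ) * l), ODEFlow.scale θ w) : (E × ℝ) × C(I, E))) := by
        have h1 := (continuous_scale w).comp (continuous_subtype_val (p := (· ∈ Icc (0:ℝ) 1)))
        have h2 : Continuous (fun θ : I => (θ : ℝ) * l) := continuous_subtype_val.mul_const l
        exact (continuous_const.prodMk h2).prodMk h1
      have := this.tendsto θ₀
      rwa [hw] at this
    filter_upwards [(hc w₁ rfl).eventually hψ, (hc w₂ (Eq.symm hθ₀)).eventually hψ] with θ ha hb
    have ha' := ha (h₁.scale θ.2)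
    have hb' := hb (h₂.scale θ.2)
    change ODEFlow.scale θ w₁ = ODEFlow.scale θ w₂
    rw [ha', hb']
  have hne : S.Nonempty := by
    refine ⟨0, ?_⟩
    change ODEFlow.scale _ w₁ = ODEFlow.scale _ w₂
    ext t
    simp only [scale_apply]
    have : (pr (((0 : I) : ℝ) * t)) = (0 : I) := by
      rw [show (((0 : I) : ℝ) * t) = ((0 : I) : ℝ) by simp, pr_coe]
    rw [this, h₁.apply_zero, h₂.apply_zero]
  have huniv : S = univ := IsClopen.eq_univ ⟨hclosed, hopen⟩ hne
  have h1 : (1 : I) ∈ S := by rw [huniv]; trivial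
  have h2 : ODEFlow.scale ((1 : I) : ℝ) w₁ = ODEFlow.scale ((1 : I) : ℝ) w₂ := h1
  rwa [show ((1 : I) : ℝ) = 1 from rfl, scale_one, scale_one] at h2

/-- Domain of the maximal flow of `v` inside `U`. -/
def dom (v : E → E) (U : Set E) : Set (E × ℝ) := {p | ∃ w, IsSol v U p.1 p.2 w}

open Classical in
/-- The flow of `v` inside `U` (junk value `p.1` outside of `dom v U`). -/
def flow (v : E → E) (U : Set E) (p : E × ℝ) : E :=
  if h : ∃ w, IsSol v U p.1 p.2 w then h.choose 1 else p.1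

variable [CompleteSpace E] {n : ℕ∞} {v : E → E} {U : Set E}

lemma flow_eq_of_isSol (hU : IsOpen U) (hv : ContDiffOn ℝ 1 v U) {x : E} {l : ℝ} {w : C(I, E)}
    (h : IsSol v U x l w) : flow v U (x, l) = w 1 := by
  have hex : ∃ w, IsSol v U (x, l).1 (x, l).2 w := ⟨w, h⟩
  rw [flow, dif_pos hex, hex.choose_spec.unique hU hv h]

theorem isOpen_dom (hU : IsOpen U) (hv : ContDiffOn ℝ 1 v U) : IsOpen (dom v U) := by
  rw [isOpen_iff_mem_nhds]
  rintro ⟨x, l⟩ ⟨w, hw⟩
  obtain ⟨ψ, -, -, hψ, -⟩ := exists_local_solution (n := 1) le_rfl hU hv hw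
  filter_upwards [hψ] with p hp
  exact ⟨_, hp⟩

theorem contDiffOn_flow (hn : 1 ≤ n) (hU : IsOpen U) (hv : ContDiffOn ℝ n v U) :
    ContDiffOn ℝ n (flow v U) (dom v U) := by
  have hv1 : ContDiffOn ℝ 1 v U := hv.of_le (by exact_mod_cast hn)
  rintro ⟨x, l⟩ ⟨w, hw⟩
  obtain ⟨ψ, hψ, hψ0, hψ1, -⟩ := exists_local_solution hn hU hv hw
  have h1 : ContDiffAt ℝ n (fun p => ψ p 1) (x, l) := by
    have : ContDiff ℝ n (fun f : C(I, E) => (ContinuousMap.evalCLM ℝ (1 : I) : C(I, E) →L[ℝ] E) f) := by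
      fun_prop
    exact this.contDiffAt.comp (x, l) hψ
  have h2 : flow v U =ᶠ[𝓝 (x, l)] fun p => ψ p 1 := by
    filter_upwards [hψ1] with p hp
    exact flow_eq_of_isSol hU hv1 hp
  exact (h1.congr_of_eventuallyEq h2).contDiffWithinAt

lemma flow_mem (hU : IsOpen U) (hv : ContDiffOn ℝ 1 v U) {p : E × ℝ} (hp : p ∈ dom v U) :
    flow v U p ∈ U := by
  obtain ⟨w, hw⟩ := hp
  rw [show p = (p.1, p.2) from rfl, flow_eq_of_isSol hU hv hw]
  exact hw.1 1

lemma mem_of_mem_dom {p : E × ℝ} (hp : p ∈ dom v U) : p.1 ∈ U := by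
  obtain ⟨w, hw⟩ := hp
  rw [← hw.apply_zero]
  exact hw.1 0

lemma isSol_const {x : E} (hx : x ∈ U) : IsSol v U x 0 (ContinuousMap.const I x) :=
  ⟨fun _ => hx, fun t => by simp⟩

lemma mem_dom_zero {x : E} (hx : x ∈ U) : (x, (0 : ℝ)) ∈ dom v U := ⟨_, isSol_const hx⟩

lemma flow_zero (hU : IsOpen U) (hv : ContDiffOn ℝ 1 v U) {x : E} (hx : x ∈ U) :
    flow v U (x, 0) = x := by
  rw [flow_eq_of_isSol hU hv (isSol_const hx)]
  rfl

lemma mul_mem_dom {x : E} {l : ℝ} (h : (x, l) ∈ dom v U) {θ : ℝ} (hθ : θ ∈ Icc (0 : ℝ) 1) :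
    (x, θ * l) ∈ dom v U := by
  obtain ⟨w, hw⟩ := h
  exact ⟨_, hw.scale hθ⟩

lemma flow_mul_of_isSol (hU : IsOpen U) (hv : ContDiffOn ℝ 1 v U) {x : E} {l : ℝ} {w : C(I, E)}
    (h : IsSol v U x l w) {θ : ℝ} (hθ : θ ∈ Icc (0 : ℝ) 1) : flow v U (x, θ * l) = w (pr θ) := by
  rw [flow_eq_of_isSol hU hv (h.scale hθ), scale_apply]
  simp

/-- the flow domain is star-shaped in time -/
lemma mem_dom_of_uIcc {x : E} {l s : ℝ} (h : (x, l) ∈ dom v U) (hs : s ∈ uIcc 0 l) :
    (x, s) ∈ dom v U := by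
  rcases eq_or_ne l 0 with rfl | hl
  · simp only [uIcc_self, mem_singleton_iff] at hs
    rwa [hs]
  · have : s = s / l * l := by field_simp
    rw [this]
    apply mul_mem_dom h
    rcases le_total 0 l with h0 | h0
    · rw [uIcc_of_le h0] at hs
      exact ⟨div_nonneg hs.1 h0, div_le_one_of_le₀ hs.2 h0⟩
    · rw [uIcc_of_ge h0] at hs
      refine ⟨div_nonneg_of_nonpos hs.2 h0, ?_⟩
      rw [div_le_one_of_neg (lt_of_le_of_ne h0 hl)]
      exact hs.1

lemma isSol_neg_iff {x : E} {l : ℝ} {w : C(I, E)} :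
    IsSol (fun y => -v y) U x (-l) w ↔ IsSol v U x l w := by
  unfold IsSol
  refine and_congr_right fun _ => forall_congr' fun t => ?_
  rw [intervalIntegral.integral_neg, neg_smul_neg]

lemma neg_mem_dom_iff {x : E} {l : ℝ} :
    (x, -l) ∈ dom (fun y => -v y) U ↔ (x, l) ∈ dom v U :=
  exists_congr fun _ => isSol_neg_iff

lemma flow_neg (hU : IsOpen U) (hv : ContDiffOn ℝ 1 v U) {x : E} {l : ℝ}
    (h : (x, l) ∈ dom v U) : flow (fun y => -v y) U (x, -l) = flow v U (x, l) := by
  obtain ⟨w, hw⟩ := h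
  rw [flow_eq_of_isSol hU hv hw, flow_eq_of_isSol hU hv.neg (isSol_neg_iff.2 hw)]

lemma hasDerivAt_flow_of_nonneg (hU : IsOpen U) (hv : ContDiffOn ℝ 1 v U) {x : E} {l : ℝ}
    (hl : 0 ≤ l) (h : (x, l) ∈ dom v U) :
    HasDerivAt (fun s => flow v U (x, s)) (v (flow v U (x, l))) l := by
  -- differentiability
  have hdiff : DifferentiableAt ℝ (fun s => flow v U (x, s)) l := by
    have h1 : DifferentiableAt ℝ (flow v U) (x, l) :=
      ((contDiffOn_flow (n := 1) le_rfl hU hv).differentiableOn one_ne_zero).differentiableAt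
        ((isOpen_dom hU hv).mem_nhds h)
    exact h1.comp l ((differentiableAt_const x).prodMk differentiableAt_id)
  -- a slightly larger time
  obtain ⟨l', hll', hl'⟩ : ∃ l', l < l' ∧ (x, l') ∈ dom v U := by
    have hcont : Continuous (fun s : ℝ => ((x, s) : E × ℝ)) := by fun_prop
    have : ∀ᶠ s in 𝓝 l, (x, s) ∈ dom v U :=
      hcont.continuousAt.eventually ((isOpen_dom hU hv).mem_nhds h)
    have h2 : ∀ᶠ s in 𝓝[>] l, (x, s) ∈ dom v U := nhdsWithin_le_nhds this
    obtain ⟨s, hs1, hs2⟩ := (h2.and self_mem_nhdsWithin).exists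
    exact ⟨s, hs2, hs1⟩
  obtain ⟨w, hw⟩ := hl'
  have hl'0 : 0 < l' := lt_of_le_of_lt hl hll'
  -- flow as an integral
  have hcv : Continuous (fun s : ℝ => v (w (pr s))) :=
    hv.continuousOn.comp_continuous (continuous_comp_pr w) (fun s => hw.1 _)
  have hflow : ∀ s ∈ Icc 0 l', flow v U (x, s) = x + l' • ∫ r in (0 : ℝ)..(s / l'), v (w (pr r)) := by
    intro s hs
    have hs1 : s / l' ∈ Icc (0 : ℝ) 1 := ⟨div_nonneg hs.1 hl'0.le, div_le_one_of_le₀ hs.2 hl'0.le⟩
    have := flow_mul_of_isSol hU hv hw hs1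
    rw [div_mul_cancel₀ _ hl'0.ne'] at this
    rw [this, hw.2, pr_of_mem hs1]
  have hder : HasDerivAt (fun s => x + l' • ∫ r in (0 : ℝ)..(s / l'), v (w (pr r)))
      (v (w (pr (l / l')))) l := by
    have h1 : HasDerivAt (fun u => ∫ r in (0 : ℝ)..u, v (w (pr r))) (v (w (pr (l / l')))) (l / l') :=
      (hcv.integral_hasStrictDerivAt 0 (l / l')).hasDerivAt
    have h2 : HasDerivAt (fun s : ℝ => s / l') (1 / l') l := (hasDerivAt_id l).div_const l'
    have h3 := (h1.scomp l h2).const_smul l'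
    have h4 := h3.const_add x
    rw [smul_smul, mul_one_div_cancel hl'0.ne', one_smul] at h4
    exact h4
  have hval : w (pr (l / l')) = flow v U (x, l) := by
    have hs1 : l / l' ∈ Icc (0 : ℝ) 1 := ⟨div_nonneg hl hl'0.le, div_le_one_of_le₀ hll'.le hl'0.le⟩
    have := flow_mul_of_isSol hU hv hw hs1
    rw [div_mul_cancel₀ _ hl'0.ne'] at this
    rw [this]
  rw [hval] at hder
  have hw1 : HasDerivWithinAt (fun s => flow v U (x, s)) (v (flow v U (x, l))) (Ici l) l := by
    refine hder.hasDerivWithinAt.congr_of_eventuallyEq ?_ (hflow l ⟨hl, hll'.le⟩)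
    have : Ico l l' ∈ 𝓝[≥] l := Ico_mem_nhdsGE hll'
    filter_upwards [this] with s hs
    exact hflow s ⟨hl.trans hs.1, hs.2.le⟩
  have hw2 := hdiff.hasDerivAt.hasDerivWithinAt (s := Ici l)
  have := (uniqueDiffWithinAt_Ici l).eq_deriv _ hw1 hw2
  rw [this]
  exact hdiff.hasDerivAt

/-- The flow solves the ODE. -/
theorem hasDerivAt_flow (hU : IsOpen U) (hv : ContDiffOn ℝ 1 v U) {x : E} {l : ℝ}
    (h : (x, l) ∈ dom v U) :
    HasDerivAt (fun s => flow v U (x, s)) (v (flow v U (x, l))) l := by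
  rcases le_total 0 l with hl | hl
  · exact hasDerivAt_flow_of_nonneg hU hv hl h
  · have h' : (x, -l) ∈ dom (fun y => -v y) U := neg_mem_dom_iff.2 h
    have h1 := hasDerivAt_flow_of_nonneg hU hv.neg (neg_nonneg.2 hl) h'
    have h2 : HasDerivAt (fun s : ℝ => -s) (-1) l := hasDerivAt_neg l
    have h3 := h1.scomp l h2
    have h4 : (fun s => flow v U (x, s)) =ᶠ[𝓝 l]
        ((fun s => flow (fun y => -v y) U (x, s)) ∘ fun s => -s) := by
      have hcont : Continuous (fun s : ℝ => ((x, s) : E × ℝ)) := by fun_prop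
      have : ∀ᶠ s in 𝓝 l, (x, s) ∈ dom v U :=
        hcont.continuousAt.eventually ((isOpen_dom hU hv).mem_nhds h)
      filter_upwards [this] with s hs
      exact (flow_neg hU hv hs).symm
    have h5 := h3.congr_of_eventuallyEq h4
    convert h5 using 1
    rw [flow_neg hU hv h]
    simp

/-! ### Integral curves -/

lemma mul_mem_uIcc {l s : ℝ} (hs : s ∈ uIcc 0 l) {r : ℝ} (hr : r ∈ Icc (0 : ℝ) 1) :
    s * r ∈ uIcc 0 l := by
  rcases le_total 0 l with h0 | h0
  · rw [uIcc_of_le h0] at hs ⊢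
    exact ⟨mul_nonneg hs.1 hr.1, (mul_le_of_le_one_right hs.1 hr.2).trans hs.2⟩
  · rw [uIcc_of_ge h0] at hs ⊢
    exact ⟨by nlinarith [hs.1, hs.2, hr.1, hr.2], mul_nonpos_of_nonpos_of_nonneg hs.2 hr.1⟩

/-- An integral curve on `[0,l]` (either sign of `l`) staying in `U` is given by the flow. -/
theorem isSol_of_integralCurve (hv : ContinuousOn v U) {c : ℝ → E} {l : ℝ}
    (hc : ∀ s ∈ uIcc 0 l, c s ∈ U)
    (hc' : ∀ s ∈ uIcc 0 l, HasDerivWithinAt c (v (c s)) (uIcc 0 l) s) {s : ℝ}
    (hs : s ∈ uIcc 0 l) : ∃ w, IsSol v U (c 0) s w ∧ w 1 = c s := by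
  have hcc : ContinuousOn c (uIcc 0 l) := fun s hs => (hc' s hs).continuousWithinAt
  have hcont : Continuous (fun t : I => c (s * t)) :=
    hcc.comp_continuous (by fun_prop) (fun t => mul_mem_uIcc hs t.2)
  refine ⟨⟨fun t : I => c (s * t), hcont⟩, ⟨fun t => hc _ (mul_mem_uIcc hs t.2), fun t => ?_⟩,
    by simp⟩
  set w : C(I, E) := ⟨fun t : I => c (s * t), hcont⟩ with hw
  have hvw : Continuous (fun r : ℝ => v (w (pr r))) :=
    hv.comp_continuous (continuous_comp_pr w) (fun r => hc _ (mul_mem_uIcc hs (pr r).2))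
  have hmaps : MapsTo (fun r : ℝ => s * r) (Icc 0 1) (uIcc 0 l) := fun r hr => mul_mem_uIcc hs hr
  have hder : ∀ r ∈ Icc (0 : ℝ) 1,
      HasDerivWithinAt (fun r => c (s * r)) (s • v (w (pr r))) (Icc 0 1) r := by
    intro r hr
    have h1 : HasDerivWithinAt (fun r : ℝ => s * r) s (Icc 0 1) r := by
      simpa using ((hasDerivAt_id r).const_mul s).hasDerivWithinAt
    have h2 := (hc' (s * r) (hmaps hr)).scomp r h1 hmaps
    have h3 : w (pr r) = c (s * r) := by
      simp only [hw, ContinuousMap.coe_mk]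
      rw [pr_of_mem hr]
    rw [h3]
    exact h2
  have key : ∫ r in (0 : ℝ)..(t : ℝ), s • v (w (pr r)) = c (s * t) - c (s * 0) := by
    apply intervalIntegral.integral_eq_sub_of_hasDerivAt_of_le (f := fun r => c (s * r)) t.2.1
    · have : ContinuousOn (fun r => c (s * r)) (Icc 0 1) :=
        fun r hr => (hder r hr).continuousWithinAt
      exact this.mono (Icc_subset_Icc le_rfl t.2.2)
    · intro r hr
      exact (hder r ⟨hr.1.le, hr.2.le.trans t.2.2⟩).hasDerivAt
        (Icc_mem_nhds hr.1 (hr.2.trans_le t.2.2))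
    · exact (hvw.const_smul s).intervalIntegrable _ _
  rw [intervalIntegral.integral_smul, mul_zero] at key
  rw [key]
  simp [hw]

/-- An integral curve on `[0,l]` (either sign of `l`) staying in `U` is given by the flow. -/
theorem flow_of_integralCurve (hU : IsOpen U) (hv : ContDiffOn ℝ 1 v U) {c : ℝ → E} {l : ℝ}
    (hc : ∀ s ∈ uIcc 0 l, c s ∈ U)
    (hc' : ∀ s ∈ uIcc 0 l, HasDerivWithinAt c (v (c s)) (uIcc 0 l) s) {s : ℝ}
    (hs : s ∈ uIcc 0 l) : (c 0, s) ∈ dom v U ∧ flow v U (c 0, s) = c s := by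
  obtain ⟨w, hw, hw1⟩ := isSol_of_integralCurve hv.continuousOn hc hc' hs
  exact ⟨⟨w, hw⟩, by rw [flow_eq_of_isSol hU hv hw, hw1]⟩

/-- Version of `flow_of_integralCurve` for a curve defined around `[0,l]`. -/
theorem flow_of_integralCurve' (hU : IsOpen U) (hv : ContDiffOn ℝ 1 v U) {c : ℝ → E} {x : E}
    {l : ℝ} (h0 : c 0 = x) (hc : ∀ s ∈ uIcc 0 l, c s ∈ U)
    (hc' : ∀ s ∈ uIcc 0 l, HasDerivAt c (v (c s)) s) :
    (x, l) ∈ dom v U ∧ flow v U (x, l) = c l := by
  rw [← h0]
  exact flow_of_integralCurve hU hv hc (fun s hs => (hc' s hs).hasDerivWithinAt) right_mem_uIcc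

/-- At a zero of the vector field the flow is stationary. -/
theorem flow_of_zero (hU : IsOpen U) (hv : ContDiffOn ℝ 1 v U) {x : E} (hx : x ∈ U)
    (h0 : v x = 0) (l : ℝ) : (x, l) ∈ dom v U ∧ flow v U (x, l) = x :=
  flow_of_integralCurve' hU hv (c := fun _ => x) rfl (fun _ _ => hx)
    (fun s _ => by simpa [h0] using hasDerivAt_const s x)

/-- If the flow line of `x₀` exists on the compact time interval `[a,b]`, then the flow exists on
`W × (a-ε, b+ε)` for some open neighbourhood `W` of `x₀`. -/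
theorem exists_prod_subset_dom (hU : IsOpen U) (hv : ContDiffOn ℝ 1 v U) {x₀ : E} {a b : ℝ}
    (h : ∀ t ∈ Icc a b, (x₀, t) ∈ dom v U) :
    ∃ (W : Set E) (J : Set ℝ), IsOpen W ∧ IsOpen J ∧ x₀ ∈ W ∧ Icc a b ⊆ J ∧
      W ×ˢ J ⊆ dom v U := by
  obtain ⟨W, J, hW, hJ, hxW, hIJ, hsub⟩ := generalized_tube_lemma (isCompact_singleton (x := x₀))
    (isCompact_Icc (a := a) (b := b)) (isOpen_dom hU hv) (by
      rintro ⟨x, t⟩ ⟨hx, ht⟩
      rw [mem_singleton_iff] at hx
      simp only at hx ht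
      rw [hx]
      exact h t ht)
  exact ⟨W, J, hW, hJ, hxW (mem_singleton _), hIJ, hsub⟩

/-- Uniform existence time near a compact set. -/
theorem exists_uniform_time (hU : IsOpen U) (hv : ContDiffOn ℝ 1 v U) {K : Set E}
    (hK : IsCompact K) (hKU : K ⊆ U) :
    ∃ ε > (0 : ℝ), ∃ W : Set E, IsOpen W ∧ K ⊆ W ∧ ∀ x ∈ W, ∀ t, |t| < ε → (x, t) ∈ dom v U := by
  obtain ⟨W, J, hW, hJ, hKW, h0J, hsub⟩ := generalized_tube_lemma hK
    (isCompact_singleton (x := (0 : ℝ))) (isOpen_dom hU hv) (by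
      rintro ⟨x, t⟩ ⟨hx, ht⟩
      rw [mem_singleton_iff] at ht
      simp only at hx ht
      rw [ht]
      exact mem_dom_zero (hKU hx))
  obtain ⟨ε, hε, hball⟩ := Metric.isOpen_iff.1 hJ 0 (h0J (mem_singleton _))
  refine ⟨ε, hε, W, hW, hKW, fun x hx t ht => hsub ⟨hx, hball ?_⟩⟩
  simpa [Real.dist_eq] using ht

/-- Group law. -/
theorem flow_add (hU : IsOpen U) (hv : ContDiffOn ℝ 1 v U) {x : E} {s t : ℝ}
    (h1 : (x, s) ∈ dom v U) (h2 : (flow v U (x, s), t) ∈ dom v U) :
    (x, s + t) ∈ dom v U ∧ flow v U (x, s + t) = flow v U (flow v U (x, s), t) := by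
  classical
  set y := flow v U (x, s) with hy
  -- agreement on the overlap
  have hagree : ∀ r, (x, r) ∈ dom v U → (y, r - s) ∈ dom v U →
      flow v U (y, r - s) = flow v U (x, r) := by
    intro r hr _
    have h3 := flow_of_integralCurve' hU hv (c := fun u => flow v U (x, s + u)) (x := y)
      (l := r - s) (by simp [hy]) ?_ ?_
    · rw [h3.2]; simp
    · intro u hu
      refine flow_mem hU hv ?_
      rcases le_total 0 (r - s) with h0 | h0
      · rw [uIcc_of_le h0] at hu
        rcases le_total 0 (s + u) with h5 | h5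
        · exact mem_dom_of_uIcc hr (by
            rw [uIcc_of_le (h5.trans (by linarith [hu.2]))]
            exact ⟨h5, by linarith [hu.2]⟩)
        · exact mem_dom_of_uIcc h1 (by
            rw [uIcc_of_ge (by linarith [hu.1])]
            exact ⟨by linarith [hu.1], h5⟩)
      · rw [uIcc_of_ge h0] at hu
        rcases le_total 0 (s + u) with h5 | h5
        · exact mem_dom_of_uIcc h1 (by
            rw [uIcc_of_le (by linarith [hu.2])]
            exact ⟨h5, by linarith [hu.2]⟩)
        · exact mem_dom_of_uIcc hr (by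
            rw [uIcc_of_ge (by linarith [hu.1])]
            exact ⟨by linarith [hu.1], h5⟩)
    · intro u hu
      have hmem : (x, s + u) ∈ dom v U := by
        rcases le_total 0 (r - s) with h0 | h0
        · rw [uIcc_of_le h0] at hu
          rcases le_total 0 (s + u) with h5 | h5
          · exact mem_dom_of_uIcc hr (by
              rw [uIcc_of_le (h5.trans (by linarith [hu.2]))]
              exact ⟨h5, by linarith [hu.2]⟩)
          · exact mem_dom_of_uIcc h1 (by
              rw [uIcc_of_ge (by linarith [hu.1])]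
              exact ⟨by linarith [hu.1], h5⟩)
        · rw [uIcc_of_ge h0] at hu
          rcases le_total 0 (s + u) with h5 | h5
          · exact mem_dom_of_uIcc h1 (by
              rw [uIcc_of_le (by linarith [hu.2])]
              exact ⟨h5, by linarith [hu.2]⟩)
          · exact mem_dom_of_uIcc hr (by
              rw [uIcc_of_ge (by linarith [hu.1])]
              exact ⟨by linarith [hu.1], h5⟩)
      have := (hasDerivAt_flow hU hv hmem).scomp u ((hasDerivAt_id u).const_add s)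
      simpa [Function.comp_def] using this
  -- the glued curve
  let c : ℝ → E := fun r => if (x, r) ∈ dom v U then flow v U (x, r) else flow v U (y, r - s)
  have hc1 : ∀ r, (x, r) ∈ dom v U → c r = flow v U (x, r) := fun r hr => if_pos hr
  have hc2 : ∀ r, (y, r - s) ∈ dom v U → c r = flow v U (y, r - s) := by
    intro r hr
    by_cases h : (x, r) ∈ dom v U
    · rw [hc1 r h, hagree r h hr]
    · exact if_neg h
  have hopen1 : ∀ r, (x, r) ∈ dom v U → ∀ᶠ r' in 𝓝 r, (x, r') ∈ dom v U := by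
    intro r hr
    have hcont : Continuous (fun s : ℝ => ((x, s) : E × ℝ)) := by fun_prop
    exact hcont.continuousAt.eventually ((isOpen_dom hU hv).mem_nhds hr)
  have hopen2 : ∀ r, (y, r - s) ∈ dom v U → ∀ᶠ r' in 𝓝 r, (y, r' - s) ∈ dom v U := by
    intro r hr
    have hcont : Continuous (fun r : ℝ => ((y, r - s) : E × ℝ)) := by fun_prop
    exact hcont.continuousAt.eventually ((isOpen_dom hU hv).mem_nhds hr)
  have hmem : ∀ r, ((x, r) ∈ dom v U ∨ (y, r - s) ∈ dom v U) →
      c r ∈ U ∧ HasDerivAt c (v (c r)) r := by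
    rintro r (hr | hr)
    · rw [hc1 r hr]
      refine ⟨flow_mem hU hv hr, ?_⟩
      refine (hasDerivAt_flow hU hv hr).congr_of_eventuallyEq ?_
      filter_upwards [hopen1 r hr] with r' hr'
      exact hc1 r' hr'
    · rw [hc2 r hr]
      refine ⟨flow_mem hU hv hr, ?_⟩
      have h4 := (hasDerivAt_flow hU hv hr).scomp r ((hasDerivAt_id r).sub_const s)
      rw [one_smul] at h4
      refine h4.congr_of_eventuallyEq ?_
      filter_upwards [hopen2 r hr] with r' hr'
      exact hc2 r' hr'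
  have hrange : ∀ r ∈ uIcc 0 (s + t), (x, r) ∈ dom v U ∨ (y, r - s) ∈ dom v U := by
    intro r hr
    by_cases hrs : r ∈ uIcc 0 s
    · exact Or.inl (mem_dom_of_uIcc h1 hrs)
    · refine Or.inr (mem_dom_of_uIcc h2 ?_)
      rw [mem_uIcc] at hr hrs ⊢
      rcases hr with hr | hr
      · by_cases hs0 : r ≤ s
        · exact absurd (Or.inl ⟨hr.1, hs0⟩) hrs
        · exact Or.inl ⟨by linarith, by linarith [hr.2]⟩
      · by_cases hs0 : s ≤ r
        · exact absurd (Or.inr ⟨hs0, hr.2⟩) hrs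
        · exact Or.inr ⟨by linarith [hr.1], by linarith⟩
  have hx0 : (x, (0 : ℝ)) ∈ dom v U := mem_dom_zero (mem_of_mem_dom h1)
  have h5 := flow_of_integralCurve' hU hv (c := c) (x := x) (l := s + t)
    (by rw [hc1 0 hx0, flow_zero hU hv (mem_of_mem_dom h1)])
    (fun r hr => (hmem r (hrange r hr)).1) (fun r hr => (hmem r (hrange r hr)).2)
  refine ⟨h5.1, ?_⟩
  rw [h5.2, hc2 (s + t) (by simpa using h2)]
  simp

/-- The flow is invertible with inverse the backwards flow. -/
theorem flow_neg_flow (hU : IsOpen U) (hv : ContDiffOn ℝ 1 v U) {x : E} {s : ℝ}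
    (h1 : (x, s) ∈ dom v U) :
    (flow v U (x, s), -s) ∈ dom v U ∧ flow v U (flow v U (x, s), -s) = x := by
  have hmem : ∀ u ∈ uIcc 0 (-s), (x, s + u) ∈ dom v U := by
    intro u hu
    refine mem_dom_of_uIcc h1 ?_
    rw [mem_uIcc] at hu ⊢
    rcases hu with hu | hu
    · exact Or.inr ⟨by linarith, by linarith⟩
    · exact Or.inl ⟨by linarith, by linarith⟩
  have h3 := flow_of_integralCurve' hU hv (c := fun u => flow v U (x, s + u))
    (x := flow v U (x, s)) (l := -s) (by simp) (fun u hu => flow_mem hU hv (hmem u hu))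
    (fun u hu => by
      have := (hasDerivAt_flow hU hv (hmem u hu)).scomp u ((hasDerivAt_id u).const_add s)
      simpa [Function.comp_def] using this)
  refine ⟨h3.1, ?_⟩
  rw [h3.2]
  simp only [add_neg_cancel]
  exact flow_zero hU hv (mem_of_mem_dom h1)

/-- Escape lemma, forward in time: a flow line which stays in a compact set exists forever. -/
theorem mem_dom_of_compact (hU : IsOpen U) (hv : ContDiffOn ℝ 1 v U) {K : Set E}
    (hK : IsCompact K) (hKU : K ⊆ U) {x : E} (hx : x ∈ U) {T : ℝ}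
    (hstay : ∀ t ∈ Ico 0 T, (x, t) ∈ dom v U → flow v U (x, t) ∈ K) (hT : 0 ≤ T) :
    (x, T) ∈ dom v U := by
  obtain ⟨ε, hε, W, -, hKW, hdom⟩ := exists_uniform_time hU hv hK hKU
  -- the set of good times is closed under adding `ε / 2`
  have hstep : ∀ k : ℕ, ∀ t ∈ Icc 0 T, t ≤ k * (ε / 2) → (x, t) ∈ dom v U := by
    intro k
    induction k with
    | zero =>
      intro t ht htk
      have : t = 0 := le_antisymm (by simpa using htk) ht.1
      rw [this]
      exact mem_dom_zero hx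
    | succ k ih =>
      intro t ht htk
      by_cases h : t ≤ k * (ε / 2)
      · exact ih t ht h
      · push Not at h
        have hk0 : (0 : ℝ) ≤ k * (ε / 2) := by positivity
        have h1 := ih (k * (ε / 2)) ⟨hk0, h.le.trans ht.2⟩ le_rfl
        have h2 := hstay _ ⟨hk0, h.trans_le ht.2⟩ h1
        have h3 := hdom _ (hKW h2) (t - k * (ε / 2)) (by
          rw [abs_of_pos (by linarith)]
          push_cast at htk
          linarith)
        have h4 := (flow_add hU hv h1 h3).1
        simpa using h4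
  obtain ⟨k, hk⟩ := exists_nat_ge (T / (ε / 2))
  refine hstep k T ⟨hT, le_rfl⟩ ?_
  rwa [div_le_iff₀ (by positivity)] at hk

/-- The derivative of the flow in the initial condition solves the linearized equation. -/
theorem hasDerivAt_fderiv_flow (hU : IsOpen U) (hv : ContDiffOn ℝ 2 v U) {x : E} {t : ℝ}
    (h : (x, t) ∈ dom v U) (z : E) :
    HasDerivAt (fun s => fderiv ℝ (flow v U) (x, s) (z, 0))
      (fderiv ℝ v (flow v U (x, t)) (fderiv ℝ (flow v U) (x, t) (z, 0))) t := by
  have hv1 : ContDiffOn ℝ 1 v U := hv.of_le one_le_two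
  have h2 : ContDiffAt ℝ 2 (flow v U) (x, t) :=
    (contDiffOn_flow (n := 2) one_le_two hU hv).contDiffAt ((isOpen_dom hU hv1).mem_nhds h)
  have hsymm : IsSymmSndFDerivAt ℝ (flow v U) (x, t) := h2.isSymmSndFDerivAt (by simp)
  have hd : DifferentiableAt ℝ (fderiv ℝ (flow v U)) (x, t) :=
    (h2.fderiv_right (m := 1) (by norm_num)).differentiableAt one_ne_zero
  have hcurve : HasDerivAt (fun s : ℝ => ((x, s) : E × ℝ)) ((0 : E), (1 : ℝ)) t :=
    (hasDerivAt_const t x).prodMk (hasDerivAt_id t)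
  have h3 : HasDerivAt (fun s : ℝ => fderiv ℝ (flow v U) (x, s))
      (fderiv ℝ (fderiv ℝ (flow v U)) (x, t) ((0 : E), (1 : ℝ))) t :=
    hd.hasFDerivAt.comp_hasDerivAt t hcurve
  have h4 : HasDerivAt (fun s => fderiv ℝ (flow v U) (x, s) (z, 0))
      (fderiv ℝ (fderiv ℝ (flow v U)) (x, t) ((0 : E), (1 : ℝ)) (z, 0)) t := by
    simpa using h3.clm_apply (hasDerivAt_const t ((z, 0) : E × ℝ))
  convert h4 using 1
  rw [hsymm.eq]
  -- the time derivative
  have htime : (fun p : E × ℝ => fderiv ℝ (flow v U) p ((0 : E), (1 : ℝ))) =ᶠ[𝓝 (x, t)]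
      fun p => v (flow v U p) := by
    filter_upwards [(isOpen_dom hU hv1).mem_nhds h] with p hp
    have hdp : DifferentiableAt ℝ (flow v U) p :=
      ((contDiffOn_flow (n := 1) le_rfl hU hv1).differentiableOn one_ne_zero).differentiableAt
        ((isOpen_dom hU hv1).mem_nhds hp)
    have hcp : HasDerivAt (fun s : ℝ => ((p.1, s) : E × ℝ)) ((0 : E), (1 : ℝ)) p.2 :=
      (hasDerivAt_const p.2 p.1).prodMk (hasDerivAt_id p.2)
    have hdp' : HasFDerivAt (flow v U) (fderiv ℝ (flow v U) p) ((p.1, p.2) : E × ℝ) :=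
      hdp.hasFDerivAt
    have h5 : HasDerivAt (fun s => flow v U (p.1, s)) (fderiv ℝ (flow v U) p (0, 1)) p.2 :=
      hdp'.comp_hasDerivAt p.2 hcp
    exact h5.unique (hasDerivAt_flow hU hv1 (x := p.1) (l := p.2) hp)
  have h6 : HasFDerivAt (fun p : E × ℝ => fderiv ℝ (flow v U) p ((0 : E), (1 : ℝ)))
      ((fderiv ℝ (fderiv ℝ (flow v U)) (x, t)).flip ((0 : E), (1 : ℝ))) (x, t) := by
    have := hd.hasFDerivAt.clm_apply (hasFDerivAt_const ((0 : E), (1 : ℝ)) (x, t))
    simpa using this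
  have hvd : DifferentiableAt ℝ v (flow v U (x, t)) :=
    (hv1.differentiableOn one_ne_zero).differentiableAt
      (hU.mem_nhds (flow_mem hU hv1 h))
  have h7 : HasFDerivAt (fun p => v (flow v U p))
      ((fderiv ℝ v (flow v U (x, t))).comp (fderiv ℝ (flow v U) (x, t))) (x, t) :=
    hvd.hasFDerivAt.comp (x, t) (h2.differentiableAt (by simp)).hasFDerivAt
  have h8 := (h6.congr_of_eventuallyEq htime.symm).unique h7
  have h9 := congrArg (fun L : (E × ℝ) →L[ℝ] E => L (z, 0)) h8
  simpa using h9.symm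

/-- The derivative of the flow at time `0` in the initial condition is the identity. -/
theorem fderiv_flow_zero (hU : IsOpen U) (hv : ContDiffOn ℝ 1 v U) {x : E} (hx : x ∈ U) (z : E) :
    fderiv ℝ (flow v U) (x, 0) (z, 0) = z := by
  have hd : DifferentiableAt ℝ (flow v U) (x, 0) :=
    ((contDiffOn_flow (n := 1) le_rfl hU hv).differentiableOn one_ne_zero).differentiableAt
      ((isOpen_dom hU hv).mem_nhds (mem_dom_zero hx))
  have h1 : HasFDerivAt (fun y : E => ((y, (0 : ℝ)) : E × ℝ))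
      (ContinuousLinearMap.inl ℝ E ℝ) x := hasFDerivAt_prodMk_left x 0
  have h2 : HasFDerivAt (fun y : E => flow v U (y, 0))
      ((fderiv ℝ (flow v U) (x, 0)).comp (ContinuousLinearMap.inl ℝ E ℝ)) x :=
    HasFDerivAt.comp x (f := fun y : E => ((y, (0 : ℝ)) : E × ℝ)) (g := flow v U)
      hd.hasFDerivAt h1
  have h3 : (fun y : E => flow v U (y, 0)) =ᶠ[𝓝 x] fun y => y := by
    filter_upwards [hU.mem_nhds hx] with y hy
    exact flow_zero hU hv hy
  have h4 := (h2.congr_of_eventuallyEq h3.symm).unique (hasFDerivAt_id x)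
  have h5 := congrArg (fun L : E →L[ℝ] E => L z) h4
  simpa using h5

end Flow

end Crest.Agent.Lib.ODEFlow
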