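import Mathlib

/-!
# The Prekopa–Leindler inequality

`PL E` : the Prekopa–Leindler property of a real vector space with a measure.
Proved for `ℝ`, products, `Fin n → ℝ`, `EuclideanSpace ℝ (Fin n)`.
-/

set_option autoImplicit false

open MeasureTheory Set
open scoped ENNReal Pointwise

namespace Crest.Agent.Lib.PrekopaLeindler

/-- One-dimensional Brunn–Minkowski for compact sets. -/
lemma volume_add_le_of_isCompact {A B : Set ℝ} (hA : IsCompact A) (hB : IsCompact B)
    (hAn : A.Nonempty) (hBn : B.Nonempty) :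
    volume A + volume B ≤ volume (A + B) := by
  obtain ⟨a, haA, ha⟩ := hA.exists_isGreatest hAn
  obtain ⟨b, hbB, hb⟩ := hB.exists_isLeast hBn
  have h1 : volume A = volume ((fun x => x + b) '' A) := by
    rw [image_add_right, measure_preimage_add_right]
  have h2 : volume B = volume ((fun x => a + x) '' B) := by
    rw [image_add_left, measure_preimage_add]
  have hm1 : MeasurableSet ((fun x => x + b) '' A) :=
    (hA.image (continuous_id.add continuous_const)).measurableSet
  have hm2 : MeasurableSet ((fun x => a + x) '' B) :=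
    (hB.image (continuous_const.add continuous_id)).measurableSet
  have hdisj : AEDisjoint volume ((fun x => x + b) '' A) ((fun x => a + x) '' B) := by
    have hsub : ((fun x => x + b) '' A) ∩ ((fun x => a + x) '' B) ⊆ {a + b} := by
      rintro x ⟨⟨u, hu, rfl⟩, ⟨v, hv, hv'⟩⟩
      have := ha hu
      have := hb hv
      simp only [mem_singleton_iff]
      simp only at hv'
      linarith
    exact measure_mono_null hsub (measure_singleton _)
  rw [h1, h2, ← measure_union₀ hm2.nullMeasurableSet hdisj]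
  apply measure_mono
  rintro x (⟨u, hu, rfl⟩ | ⟨v, hv, rfl⟩)
  · exact add_mem_add hu hbB
  · exact add_mem_add haA hv

/-- One-dimensional Brunn–Minkowski for measurable sets. -/
lemma volume_add_le {A B : Set ℝ} (hA : MeasurableSet A) (hB : MeasurableSet B)
    (hAn : A.Nonempty) (hBn : B.Nonempty) :
    volume A + volume B ≤ volume (A + B) := by
  obtain ⟨a, ha⟩ := hAn
  obtain ⟨b, hb⟩ := hBn
  have key : ∀ K L : Set ℝ, K ⊆ A → IsCompact K → L ⊆ B → IsCompact L →
      volume K + volume L ≤ volume (A + B) := by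
    intro K L hKA hK hLB hL
    have h := volume_add_le_of_isCompact (hK.insert a) (hL.insert b) (insert_nonempty _ _)
      (insert_nonempty _ _)
    calc volume K + volume L ≤ volume (insert a K) + volume (insert b L) := by
          gcongr <;> exact subset_insert _ _
      _ ≤ _ := h
      _ ≤ _ := by
          apply measure_mono
          exact add_subset_add (insert_subset ha hKA) (insert_subset hb hLB)
  have key2 : ∀ L : Set ℝ, L ⊆ B → IsCompact L → volume A + volume L ≤ volume (A + B) := by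
    intro L hLB hL
    have hLfin : volume L ≠ ∞ := hL.measure_lt_top.ne
    have h0 : volume L ≤ volume (A + B) := by
      have := key ∅ L (empty_subset _) isCompact_empty hLB hL
      simpa using this
    have : volume A ≤ volume (A + B) - volume L := by
      rw [hA.measure_eq_iSup_isCompact]
      refine iSup_le fun K => iSup_le fun hKA => iSup_le fun hK => ?_
      exact ENNReal.le_sub_of_add_le_right hLfin (key K L hKA hK hLB hL)
    calc volume A + volume L ≤ (volume (A + B) - volume L) + volume L := by gcongr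
      _ = volume (A + B) := tsub_add_cancel_of_le h0
  by_cases hAfin : volume A = ∞
  · have := key2 ∅ (empty_subset _) isCompact_empty
    rw [hAfin] at this ⊢
    simpa using this
  have h0 : volume A ≤ volume (A + B) := by
    simpa using key2 ∅ (empty_subset _) isCompact_empty
  have : volume B ≤ volume (A + B) - volume A := by
    rw [hB.measure_eq_iSup_isCompact]
    refine iSup_le fun L => iSup_le fun hLB => iSup_le fun hL => ?_
    exact ENNReal.le_sub_of_add_le_left hAfin (key2 L hLB hL)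
  calc volume A + volume B ≤ volume A + (volume (A + B) - volume A) := by gcongr
    _ = volume (A + B) := add_tsub_cancel_of_le h0

/-- Layer cake with normalisation, in `ℝ≥0∞`: the truncation of `u` at level `c`. -/
lemma layer_cake {u : ℝ → ℝ≥0∞} (hu : Measurable u) {c : ℝ≥0∞} (hc0 : c ≠ 0) (hc : c ≠ ∞) :
    ∫⁻ x, min (u x) c = c * ∫⁻ s in Ioo (0:ℝ) 1, volume {x | c * ENNReal.ofReal s < u x} := by
  set v : ℝ → ℝ := fun x => (min (u x) c / c).toReal with hv
  have hvm : Measurable v := ((hu.min measurable_const).div measurable_const).ennreal_toReal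
  have hfin : ∀ x, min (u x) c / c ≤ 1 := fun x =>
    ENNReal.div_le_of_le_mul (by simp)
  have hofReal : ∀ x, ENNReal.ofReal (v x) = min (u x) c / c := fun x =>
    ENNReal.ofReal_toReal (ne_top_of_le_ne_top ENNReal.one_ne_top (hfin x))
  have h1 := lintegral_eq_lintegral_meas_lt volume (f := v)
    (Filter.Eventually.of_forall fun x => ENNReal.toReal_nonneg) hvm.aemeasurable
  have hv1 : ∀ x, v x ≤ 1 := fun x => by
    have := ENNReal.toReal_mono ENNReal.one_ne_top (hfin x)
    rwa [ENNReal.toReal_one] at this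
  have h2 : ∫⁻ s in Ioi (0:ℝ), volume {x | s < v x} =
      ∫⁻ s in Ioo (0:ℝ) 1, volume {x | c * ENNReal.ofReal s < u x} := by
    have hsplit : Ioi (0:ℝ) = Ioo 0 1 ∪ Ici 1 := by
      ext x; simp only [mem_Ioi, mem_union, mem_Ioo, mem_Ici]
      constructor
      · intro h; rcases lt_or_ge x 1 with h1 | h1
        · exact Or.inl ⟨h, h1⟩
        · exact Or.inr h1
      · rintro (h | h); exacts [h.1, by linarith]
    have hdis : Disjoint (Ioo (0:ℝ) 1) (Ici 1) := by
      rw [Set.disjoint_left]; intro x hx hx'; exact absurd hx.2 (not_lt.2 hx')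
    rw [hsplit, lintegral_union measurableSet_Ici hdis]
    have hz : ∫⁻ s in Ici (1:ℝ), volume {x | s < v x} = 0 := by
      rw [setLIntegral_congr_fun (g := fun _ => 0) measurableSet_Ici]
      · simp
      · intro s hs
        have : {x | s < v x} = ∅ := by
          ext x; simp only [mem_ofPred_eq, mem_empty_iff_false, iff_false, not_lt]
          exact (hv1 x).trans hs
        simp [this]
    rw [hz, add_zero]
    apply setLIntegral_congr_fun measurableSet_Ioo
    intro s hs
    have : {x | s < v x} = {x | c * ENNReal.ofReal s < u x} := by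
      ext x
      simp only [mem_ofPred_eq]
      have e1 : s < v x ↔ ENNReal.ofReal s < min (u x) c / c := by
        rw [← hofReal x, ENNReal.ofReal_lt_ofReal_iff_of_nonneg hs.1.le]
      rw [e1, ENNReal.lt_div_iff_mul_lt (Or.inl hc0) (Or.inl hc), mul_comm, lt_min_iff]
      constructor
      · exact fun h => h.1
      · intro h
        refine ⟨h, ?_⟩
        calc c * ENNReal.ofReal s < c * 1 :=
              ENNReal.mul_lt_mul_right hc0 hc (by
                rw [← ENNReal.ofReal_one]
                exact (ENNReal.ofReal_lt_ofReal_iff_of_nonneg hs.1.le).2 hs.2)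
          _ = c := mul_one c
    simp only [this]
  rw [← h2, ← h1]
  simp_rw [hofReal]
  have hmeas : Measurable fun x => min (u x) c / c := (hu.min measurable_const).div measurable_const
  rw [← lintegral_const_mul _ hmeas]
  apply lintegral_congr
  intro x
  rw [ENNReal.mul_div_cancel hc0 hc]

/-- weighted AM-GM in `ℝ≥0∞`. -/
lemma geom_mean_le {t : ℝ} (ht0 : 0 < t) (ht1 : t < 1) (I J : ℝ≥0∞) :
    I ^ (1 - t) * J ^ t ≤ ENNReal.ofReal (1 - t) * I + ENNReal.ofReal t * J := by
  have ht1' : 0 < 1 - t := by linarith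
  by_cases hI : I = ∞
  · rw [hI, ENNReal.mul_top (by simpa using ht1)]; simp
  by_cases hJ : J = ∞
  · rw [hJ, ENNReal.mul_top (by simpa using ht0)]; simp
  lift I to NNReal using hI
  lift J to NNReal using hJ
  rw [← ENNReal.coe_rpow_of_nonneg _ ht1'.le, ← ENNReal.coe_rpow_of_nonneg _ ht0.le]
  rw [ENNReal.ofReal, ENNReal.ofReal]
  norm_cast
  have h := NNReal.geom_mean_le_arith_mean2_weighted (Real.toNNReal (1 - t)) (Real.toNNReal t) I J
    (by rw [← Real.toNNReal_add ht1'.le ht0.le]; simp)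
  rwa [Real.coe_toNNReal _ ht1'.le, Real.coe_toNNReal _ ht0.le] at h

/-- one-dimensional Prekopa–Leindler, bounded case. -/
lemma pl_real_bdd {t : ℝ} (ht0 : 0 < t) (ht1 : t < 1) {f g h : ℝ → ℝ≥0∞} (hf : Measurable f)
    (hg : Measurable g) (hh : Measurable h) {M : ℝ≥0∞} (hM : M ≠ ∞) (hfM : ∀ x, f x ≤ M)
    (hgM : ∀ x, g x ≤ M)
    (H : ∀ x y, f x ^ (1 - t) * g y ^ t ≤ h ((1 - t) * x + t * y)) :
    (∫⁻ x, f x) ^ (1 - t) * (∫⁻ x, g x) ^ t ≤ ∫⁻ x, h x := by
  have ht1' : 0 < 1 - t := by linarith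
  set F : ℝ≥0∞ := ⨆ x, f x with hF
  set G : ℝ≥0∞ := ⨆ x, g x with hG
  have hFM : F ≠ ∞ := ne_top_of_le_ne_top hM (iSup_le hfM)
  have hGM : G ≠ ∞ := ne_top_of_le_ne_top hM (iSup_le hgM)
  have hfF : ∀ x, f x ≤ F := fun x => le_iSup f x
  have hgG : ∀ x, g x ≤ G := fun x => le_iSup g x
  by_cases hF0 : F = 0
  · have : ∀ x, f x = 0 := fun x => le_antisymm (hF0 ▸ hfF x) bot_le
    simp [this, ENNReal.zero_rpow_of_pos ht1']
  by_cases hG0 : G = 0
  · have : ∀ x, g x = 0 := fun x => le_antisymm (hG0 ▸ hgG x) bot_le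
    simp [this, ENNReal.zero_rpow_of_pos ht0]
  set c : ℝ≥0∞ := F ^ (1 - t) * G ^ t with hc
  have hFp0 : F ^ (1 - t) ≠ 0 := by
    simp [ENNReal.rpow_eq_zero_iff, hF0, hFM]
  have hGp0 : G ^ t ≠ 0 := by
    simp [ENNReal.rpow_eq_zero_iff, hG0, hGM]
  have hFpt : F ^ (1 - t) ≠ ∞ := ENNReal.rpow_ne_top_of_nonneg ht1'.le hFM
  have hGpt : G ^ t ≠ ∞ := ENNReal.rpow_ne_top_of_nonneg ht0.le hGM
  have hc0 : c ≠ 0 := mul_ne_zero hFp0 hGp0
  have hct : c ≠ ∞ := ENNReal.mul_ne_top hFpt hGpt
  -- level sets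
  have hlevel : ∀ s ∈ Ioo (0:ℝ) 1,
      ENNReal.ofReal (1 - t) * volume {x | F * ENNReal.ofReal s < f x} +
        ENNReal.ofReal t * volume {x | G * ENNReal.ofReal s < g x} ≤
      volume {x | c * ENNReal.ofReal s < h x} := by
    intro s hs
    have hs1 : ENNReal.ofReal s < 1 := by
      rw [← ENNReal.ofReal_one]
      exact (ENNReal.ofReal_lt_ofReal_iff_of_nonneg hs.1.le).2 hs.2
    have hs0 : ENNReal.ofReal s ≠ 0 := by simpa using hs.1
    have hst : ENNReal.ofReal s ≠ ∞ := ENNReal.ofReal_ne_top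
    have hAn : {x | F * ENNReal.ofReal s < f x}.Nonempty := by
      have : F * ENNReal.ofReal s < F := by
        calc F * ENNReal.ofReal s < F * 1 := ENNReal.mul_lt_mul_right hF0 hFM hs1
          _ = F := mul_one F
      obtain ⟨x, hx⟩ := lt_iSup_iff.1 (hF ▸ this)
      exact ⟨x, hx⟩
    have hBn : {x | G * ENNReal.ofReal s < g x}.Nonempty := by
      have : G * ENNReal.ofReal s < G := by
        calc G * ENNReal.ofReal s < G * 1 := ENNReal.mul_lt_mul_right hG0 hGM hs1
          _ = G := mul_one G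
      obtain ⟨x, hx⟩ := lt_iSup_iff.1 (hG ▸ this)
      exact ⟨x, hx⟩
    have hAm : MeasurableSet {x | F * ENNReal.ofReal s < f x} :=
      measurableSet_lt measurable_const hf
    have hBm : MeasurableSet {x | G * ENNReal.ofReal s < g x} :=
      measurableSet_lt measurable_const hg
    have h1 : volume ((1 - t) • {x | F * ENNReal.ofReal s < f x}) =
        ENNReal.ofReal (1 - t) * volume {x | F * ENNReal.ofReal s < f x} := by
      rw [Measure.addHaar_smul]; simp [abs_of_pos ht1']
    have h2 : volume (t • {x | G * ENNReal.ofReal s < g x}) =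
        ENNReal.ofReal t * volume {x | G * ENNReal.ofReal s < g x} := by
      rw [Measure.addHaar_smul]; simp [abs_of_pos ht0]
    rw [← h1, ← h2]
    refine (volume_add_le (hAm.const_smul_of_ne_zero ht1'.ne') (hBm.const_smul_of_ne_zero ht0.ne')
      hAn.smul_set hBn.smul_set).trans (measure_mono ?_)
    rintro z ⟨u, ⟨x, hx, rfl⟩, v, ⟨y, hy, rfl⟩, rfl⟩
    simp only [mem_ofPred_eq, smul_eq_mul] at hx hy ⊢
    refine lt_of_lt_of_le ?_ (H x y)
    have e : c * ENNReal.ofReal s = (F * ENNReal.ofReal s) ^ (1 - t) * (G * ENNReal.ofReal s) ^ t := by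
      rw [ENNReal.mul_rpow_of_nonneg _ _ ht1'.le, ENNReal.mul_rpow_of_nonneg _ _ ht0.le, hc]
      have : ENNReal.ofReal s = ENNReal.ofReal s ^ (1 - t) * ENNReal.ofReal s ^ t := by
        rw [← ENNReal.rpow_add _ _ hs0 hst]; simp
      calc F ^ (1 - t) * G ^ t * ENNReal.ofReal s
          = F ^ (1 - t) * G ^ t * (ENNReal.ofReal s ^ (1 - t) * ENNReal.ofReal s ^ t) := by
            rw [← this]
        _ = _ := by ring
    rw [e]
    exact ENNReal.mul_lt_mul (ENNReal.rpow_lt_rpow hx ht1') (ENNReal.rpow_lt_rpow hy ht0)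
  -- integrate
  have hfint : ∫⁻ x, f x = F * ∫⁻ s in Ioo (0:ℝ) 1, volume {x | F * ENNReal.ofReal s < f x} := by
    rw [← layer_cake hf hF0 hFM]
    exact lintegral_congr fun x => (min_eq_left (hfF x)).symm
  have hgint : ∫⁻ x, g x = G * ∫⁻ s in Ioo (0:ℝ) 1, volume {x | G * ENNReal.ofReal s < g x} := by
    rw [← layer_cake hg hG0 hGM]
    exact lintegral_congr fun x => (min_eq_left (hgG x)).symm
  have hhint : c * ∫⁻ s in Ioo (0:ℝ) 1, volume {x | c * ENNReal.ofReal s < h x} ≤ ∫⁻ x, h x := by
    rw [← layer_cake hh hc0 hct]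
    exact lintegral_mono fun x => min_le_left _ _
  set I := ∫⁻ s in Ioo (0:ℝ) 1, volume {x | F * ENNReal.ofReal s < f x} with hI
  set J := ∫⁻ s in Ioo (0:ℝ) 1, volume {x | G * ENNReal.ofReal s < g x} with hJ
  have hsum : ENNReal.ofReal (1 - t) * I + ENNReal.ofReal t * J ≤
      ∫⁻ s in Ioo (0:ℝ) 1, volume {x | c * ENNReal.ofReal s < h x} := by
    have hmA : Measurable fun s : ℝ => volume {x | F * ENNReal.ofReal s < f x} := by
      apply Antitone.measurable
      intro s s' hss'
      apply measure_mono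
      intro x (hx : F * ENNReal.ofReal s' < f x)
      exact lt_of_le_of_lt (mul_le_mul_right (ENNReal.ofReal_le_ofReal hss') F) hx
    rw [hI, hJ, ← lintegral_const_mul' _ _ ENNReal.ofReal_ne_top,
      ← lintegral_const_mul' _ _ ENNReal.ofReal_ne_top,
      ← lintegral_add_left (hmA.const_mul _)]
    exact setLIntegral_mono' measurableSet_Ioo hlevel
  have hamgm : I ^ (1 - t) * J ^ t ≤ ENNReal.ofReal (1 - t) * I + ENNReal.ofReal t * J :=
    geom_mean_le ht0 ht1 I J
  calc (∫⁻ x, f x) ^ (1 - t) * (∫⁻ x, g x) ^ t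
      = c * (I ^ (1 - t) * J ^ t) := by
        rw [hfint, hgint, ENNReal.mul_rpow_of_nonneg _ _ ht1'.le,
          ENNReal.mul_rpow_of_nonneg _ _ ht0.le, hc]
        ring
    _ ≤ c * (ENNReal.ofReal (1 - t) * I + ENNReal.ofReal t * J) := by gcongr
    _ ≤ c * ∫⁻ s in Ioo (0:ℝ) 1, volume {x | c * ENNReal.ofReal s < h x} := by gcongr
    _ ≤ _ := hhint

/-- One-dimensional Prekopa–Leindler. -/
theorem pl_real {t : ℝ} (ht0 : 0 < t) (ht1 : t < 1) {f g h : ℝ → ℝ≥0∞} (hf : Measurable f)
    (hg : Measurable g) (hh : Measurable h)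
    (H : ∀ x y, f x ^ (1 - t) * g y ^ t ≤ h ((1 - t) * x + t * y)) :
    (∫⁻ x, f x) ^ (1 - t) * (∫⁻ x, g x) ^ t ≤ ∫⁻ x, h x := by
  have ht1' : 0 < 1 - t := by linarith
  have hn : ∀ n : ℕ, (∫⁻ x, min (f x) n) ^ (1 - t) * (∫⁻ x, min (g x) n) ^ t ≤ ∫⁻ x, h x := by
    intro n
    refine pl_real_bdd ht0 ht1 (hf.min measurable_const) (hg.min measurable_const) hh
      (M := n) (ENNReal.natCast_ne_top n) (fun x => min_le_right _ _) (fun x => min_le_right _ _) ?_
    intro x y
    refine le_trans ?_ (H x y)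
    gcongr <;> exact min_le_left _ _
  have hlim : ∀ {u : ℝ → ℝ≥0∞}, Measurable u →
      Filter.Tendsto (fun n : ℕ => ∫⁻ x, min (u x) n) Filter.atTop (nhds (∫⁻ x, u x)) := by
    intro u hu
    refine lintegral_tendsto_of_tendsto_of_monotone (fun n => (hu.min measurable_const).aemeasurable)
      (Filter.Eventually.of_forall fun x n m hnm => ?_) (Filter.Eventually.of_forall fun x => ?_)
    · exact min_le_min le_rfl (by exact_mod_cast hnm)
    · have : Filter.Tendsto (fun n : ℕ => min (u x) (n : ℝ≥0∞)) Filter.atTop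
          (nhds (min (u x) ∞)) := tendsto_const_nhds.min ENNReal.tendsto_nat_nhds_top
      simpa using this
  -- monotone limits: use sup characterisation through `le_of_tendsto'`
  have h1 := ((ENNReal.continuous_rpow_const (y := 1 - t)).tendsto _).comp (hlim hf)
  have h2 := ((ENNReal.continuous_rpow_const (y := t)).tendsto _).comp (hlim hg)
  by_cases hA : (∫⁻ x, f x) = 0
  · rw [hA, ENNReal.zero_rpow_of_pos ht1', zero_mul]; exact bot_le
  by_cases hB : (∫⁻ x, g x) = 0
  · rw [hB, ENNReal.zero_rpow_of_pos ht0, mul_zero]; exact bot_le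
  have h3 := ENNReal.Tendsto.mul h1 (Or.inl (by simp [hA, ENNReal.rpow_eq_zero_iff]; intro _; linarith)) h2
    (Or.inl (by simp [hB, ENNReal.rpow_eq_zero_iff]; intro _; linarith))
  exact le_of_tendsto' h3 hn

/-- The Prekopa–Leindler property. -/
def PL (E : Type*) [AddCommGroup E] [Module ℝ E] [MeasurableSpace E] (μ : Measure E) : Prop :=
  ∀ t : ℝ, 0 < t → t < 1 → ∀ f g h : E → ℝ≥0∞, Measurable f → Measurable g → Measurable h →
    (∀ x y, f x ^ (1 - t) * g y ^ t ≤ h ((1 - t) • x + t • y)) →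
    (∫⁻ x, f x ∂μ) ^ (1 - t) * (∫⁻ x, g x ∂μ) ^ t ≤ ∫⁻ x, h x ∂μ

theorem PL_real : PL ℝ volume := fun t ht0 ht1 f g h hf hg hh H =>
  pl_real ht0 ht1 hf hg hh (by simpa [smul_eq_mul] using H)

theorem PL.prod {E F : Type*} [AddCommGroup E] [Module ℝ E] [MeasurableSpace E]
    [AddCommGroup F] [Module ℝ F] [MeasurableSpace F] {μ : Measure E} {ν : Measure F}
    [SFinite μ] [SFinite ν] (hE : PL E μ) (hF : PL F ν) : PL (E × F) (μ.prod ν) := by
  intro t ht0 ht1 f g h hf hg hh H
  rw [lintegral_prod _ hf.aemeasurable, lintegral_prod _ hg.aemeasurable,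
    lintegral_prod _ hh.aemeasurable]
  refine hE t ht0 ht1 _ _ _ hf.lintegral_prod_right' hg.lintegral_prod_right'
    hh.lintegral_prod_right' ?_
  intro x y
  refine hF t ht0 ht1 _ _ _ (hf.comp measurable_prodMk_left) (hg.comp measurable_prodMk_left)
    (hh.comp measurable_prodMk_left) ?_
  intro x' y'
  exact H (x, x') (y, y')

/-- Transfer of PL along a measure preserving linear measurable equivalence. -/
theorem PL.of_measurePreserving {E F : Type*} [AddCommGroup E] [Module ℝ E] [MeasurableSpace E]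
    [AddCommGroup F] [Module ℝ F] [MeasurableSpace F] {μ : Measure E} {ν : Measure F}
    (e : E → F) (he : MeasurePreserving e μ ν)
    (hlin : ∀ (a b : ℝ) (x y : E), e (a • x + b • y) = a • e x + b • e y)
    (hE : PL E μ) : PL F ν := by
  intro t ht0 ht1 f g h hf hg hh H
  rw [← he.lintegral_comp hf, ← he.lintegral_comp hg, ← he.lintegral_comp hh]
  refine hE t ht0 ht1 _ _ _ (hf.comp he.measurable) (hg.comp he.measurable)
    (hh.comp he.measurable) ?_
  intro x y
  rw [hlin]
  exact H _ _

theorem PL_pi (n : ℕ) : PL (Fin n → ℝ) volume := by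
  induction n with
  | zero =>
    intro t ht0 ht1 f g h hf hg hh H
    have : (volume : Measure (Fin 0 → ℝ)) = Measure.dirac 0 := by
      exact Measure.volume_pi_eq_dirac (ι := Fin 0) (α := fun _ => ℝ) 0
    rw [this, lintegral_dirac, lintegral_dirac, lintegral_dirac]
    simpa using H 0 0
  | succ n ih =>
    refine PL.of_measurePreserving
      (MeasurableEquiv.piFinSuccAbove (fun _ : Fin (n+1) => ℝ) 0).symm
      ((volume_preserving_piFinSuccAbove (fun _ : Fin (n+1) => ℝ) 0).symm) ?_ (PL_real.prod ih)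
    intro a b x y
    ext i
    refine Fin.cases ?_ (fun j => ?_) i
    · simp [MeasurableEquiv.piFinSuccAbove]
    · simp [MeasurableEquiv.piFinSuccAbove]

/-- **Prekopa–Leindler** on Euclidean space. -/
theorem PL_euclidean (n : ℕ) : PL (EuclideanSpace ℝ (Fin n)) volume :=
  PL.of_measurePreserving _ (PiLp.volume_preserving_toLp (Fin n)) (fun _ _ _ _ => rfl) (PL_pi n)

end Crest.Agent.Lib.PrekopaLeindler
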