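import Mathlib

set_option autoImplicit false

/-! Primitive recursiveness of integer and rational arithmetic with respect to Mathlib's encodings
(`Primcodable ℤ`, `Primcodable ℚ` coming from `Denumerable`).

Main statements: `primrec_int_add`, `primrec_int_mul`, `primrec_int_neg`, `primrec_int_sub`,
`primrec_int_le`, `primrec_natAbs`, `primrec_toNat`, `primrec_natCast_int`, `primrec_int_div_nat`,
`primrec_gcd`, `primrec_dvd`, `primrec_pow`, `primrec_num`, `primrec_den`, `primrec_mkRat`,
`primrec_rat_add`, `primrec_rat_mul`, `primrec_rat_neg`, `primrec_rat_sub`, `primrec_rat_inv`,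
`primrec_rat_div`, `primrec_rat_le`, `primrec_rat_lt`, `primrec_rat_abs`, `primrec_rat_floor`,
`primrec_rat_pow`, `primrec_rat_natCast`, `primrec_rat_intCast`. -/

open Encodable Denumerable

namespace Crest.Agent.Lib.RatPrimrec


/-- the elementary code of a rational. -/
def enc (q : ℚ) : ℕ := Nat.pair (Encodable.encode q.num) q.den

theorem enc_eq (q : ℚ) : @Encodable.encode ℚ Rat.instEncodable q = enc q := by
  cases q; rfl

/-- codes of rationals -/
def IsCode (m : ℕ) : Prop := 0 < m.unpair.2 ∧ (Denumerable.ofNat ℤ m.unpair.1).natAbs.Coprime m.unpair.2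

instance : DecidablePred IsCode := fun m => by unfold IsCode; infer_instance

theorem isCode_enc (q : ℚ) : IsCode (enc q) := by
  unfold IsCode enc
  rw [Nat.unpair_pair]
  dsimp only
  rw [Denumerable.ofNat_encode]
  exact ⟨q.pos, q.reduced⟩

theorem isCode_iff (m : ℕ) : IsCode m ↔ ∃ q : ℚ, enc q = m := by
  constructor
  · intro h
    refine ⟨⟨Denumerable.ofNat ℤ m.unpair.1, m.unpair.2, h.1.ne', h.2⟩, ?_⟩
    unfold enc
    dsimp only
    rw [Denumerable.encode_ofNat, Nat.pair_unpair]
  · rintro ⟨q, rfl⟩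
    exact isCode_enc q

theorem range_enc : Set.range (@Encodable.encode ℚ Rat.instEncodable) = Set.ofPred IsCode := by
  ext m
  rw [Set.mem_range]
  change _ ↔ IsCode m
  rw [isCode_iff]
  simp only [enc_eq]

theorem infinite_isCode : (Set.ofPred IsCode).Infinite := by
  rw [← range_enc]
  exact Set.infinite_range_of_injective Encodable.encode_injective

theorem orderIso_congr {s t : Set ℕ} (h : s = t) (hs : Infinite s) (ht : Infinite t) (n : ℕ) :
    ((@Nat.Subtype.orderIsoOfNat s hs n : s) : ℕ) = (@Nat.Subtype.orderIsoOfNat t ht n : t) := by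
  subst h; rfl

theorem enc_ofNat (n : ℕ) : enc (Denumerable.ofNat ℚ n) = Nat.nth IsCode n := by
  rw [Nat.nth_apply_eq_orderIsoOfNat infinite_isCode]
  let _ := @Encodable.decidableRangeEncode ℚ Rat.instEncodable
  let _ : Infinite (Set.range (@Encodable.encode ℚ Rat.instEncodable)) :=
    Infinite.of_injective _ (Equiv.ofInjective _ Encodable.encode_injective).injective
  have h1 : Denumerable.ofNat ℚ n = (@Encodable.equivRangeEncode ℚ Rat.instEncodable).symm 
     (Nat.Subtype.ofNat (Set.range (@Encodable.encode ℚ Rat.instEncodable)) n) := rfl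
  have h2 : enc (Denumerable.ofNat ℚ n) = 
     (Nat.Subtype.ofNat (Set.range (@Encodable.encode ℚ Rat.instEncodable)) n : ℕ) := by
    rw [← enc_eq, h1]
    have := (@Encodable.equivRangeEncode ℚ Rat.instEncodable).apply_symm_apply 
      (Nat.Subtype.ofNat (Set.range (@Encodable.encode ℚ Rat.instEncodable)) n)
    exact congrArg Subtype.val this
  rw [h2, ← Nat.Subtype.orderIsoOfNat_apply]
  exact orderIso_congr range_enc _ _ n


theorem encode_eq_count (q : ℚ) : (@Encodable.encode ℚ (Rat.instDenumerable.toEncodable) q) = Nat.count IsCode (enc q) := by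
  have h := enc_ofNat (@Encodable.encode ℚ (Rat.instDenumerable.toEncodable) q)
  rw [Denumerable.ofNat_encode] at h
  rw [h, Nat.count_nth]
  intro hf
  exact absurd hf infinite_isCode



section IntPR

theorem encode_natCast_int (n : ℕ) : Encodable.encode (n : ℤ) = 2 * n := rfl
theorem encode_negSucc_int (n : ℕ) : Encodable.encode (Int.negSucc n) = 2 * n + 1 := rfl

theorem primrec_natCast_int : Primrec (fun n : ℕ => (n : ℤ)) := by
  refine Primrec.encode_iff.1 (Primrec.nat_double.of_eq fun n => ?_)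
  rfl

theorem primrec_toNat : Primrec Int.toNat := by
  have h : Primrec (fun z : ℤ => bif (Encodable.encode z).bodd then 0 else (Encodable.encode z).div2) :=
    Primrec.cond (Primrec.nat_bodd.comp Primrec.encode) (Primrec.const 0) (Primrec.nat_div2.comp Primrec.encode)
  refine h.of_eq fun z => ?_
  rcases z with n | n
  · change (bif (2 * n).bodd then 0 else (2*n).div2) = _
    simp
  · change (bif (2 * n + 1).bodd then 0 else (2*n+1).div2) = _
    simp

theorem primrec_toNat_neg : Primrec (fun z : ℤ => Int.toNat (-z)) := by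
  have h : Primrec (fun z : ℤ => bif (Encodable.encode z).bodd then (Encodable.encode z).div2 + 1 else 0) :=
    Primrec.cond (Primrec.nat_bodd.comp Primrec.encode) (Primrec.succ.comp (Primrec.nat_div2.comp Primrec.encode)) (Primrec.const 0) 
  refine h.of_eq fun z => ?_
  rcases z with n | n
  · change (bif (2 * n).bodd then (2*n).div2 + 1 else 0) = _
    simp
  · change (bif (2 * n + 1).bodd then (2*n+1).div2 + 1 else 0) = _
    simp [Nat.div2_val]

theorem primrec_natAbs : Primrec Int.natAbs :=
  (Primrec.nat_add.comp primrec_toNat primrec_toNat_neg).of_eq fun z => by omega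

theorem primrec_int_natSub : Primrec₂ (fun m n : ℕ => (m : ℤ) - n) := by
  have h : Primrec₂ (fun m n : ℕ => if n ≤ m then 2 * (m - n) else 2 * (n - m - 1) + 1) := by
    refine Primrec.ite ?_ ?_ ?_
    · exact Primrec.nat_le.comp Primrec.snd Primrec.fst
    · exact Primrec.nat_double.comp (Primrec.nat_sub.comp Primrec.fst Primrec.snd)
    · exact Primrec.nat_double_succ.comp (Primrec.nat_sub.comp (Primrec.nat_sub.comp Primrec.snd Primrec.fst) (Primrec.const 1))
  refine Primrec₂.encode_iff.1 (h.of_eq fun m n => ?_)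
  split_ifs with hmn
  · obtain ⟨k, rfl⟩ := Nat.exists_eq_add_of_le hmn
    rw [show ((n + k : ℕ) : ℤ) - n = (k : ℤ) by push_cast; ring, encode_natCast_int]
    omega
  · obtain ⟨k, rfl⟩ := Nat.exists_eq_add_of_lt (not_le.1 hmn)
    rw [show ((m : ℕ) : ℤ) - ((m + k + 1 : ℕ) : ℤ) = Int.negSucc k by rw [Int.negSucc_eq]; push_cast; ring, encode_negSucc_int]
    omega

theorem primrec_int_add : Primrec₂ ((· + ·) : ℤ → ℤ → ℤ) := by
  have h : Primrec₂ (fun a b : ℤ => ((a.toNat + b.toNat : ℕ) : ℤ) - ((-a).toNat + (-b).toNat : ℕ)) :=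
    primrec_int_natSub.comp₂ 
      (Primrec.nat_add.comp (primrec_toNat.comp Primrec.fst) (primrec_toNat.comp Primrec.snd))
      (Primrec.nat_add.comp (primrec_toNat_neg.comp Primrec.fst) (primrec_toNat_neg.comp Primrec.snd))
  refine h.of_eq fun a b => ?_
  push_cast
  omega

theorem primrec_int_neg : Primrec (fun a : ℤ => -a) := by
  have h : Primrec (fun a : ℤ => (((-a).toNat : ℕ) : ℤ) - (a.toNat : ℕ)) :=
    primrec_int_natSub.comp primrec_toNat_neg primrec_toNat
  refine h.of_eq fun a => ?_
  omega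

theorem primrec_int_sub : Primrec₂ ((· - ·) : ℤ → ℤ → ℤ) :=
  (primrec_int_add.comp₂ Primrec₂.left (primrec_int_neg.comp₂ Primrec₂.right)).of_eq fun a b => by
    ring

theorem primrec_int_mul : Primrec₂ ((· * ·) : ℤ → ℤ → ℤ) := by
  have h : Primrec₂ (fun a b : ℤ => ((a.toNat * b.toNat + (-a).toNat * (-b).toNat : ℕ) : ℤ)
       - (a.toNat * (-b).toNat + (-a).toNat * b.toNat : ℕ)) :=
    primrec_int_natSub.comp₂ 
      (Primrec.nat_add.comp (Primrec.nat_mul.comp (primrec_toNat.comp Primrec.fst) (primrec_toNat.comp Primrec.snd))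
        (Primrec.nat_mul.comp (primrec_toNat_neg.comp Primrec.fst) (primrec_toNat_neg.comp Primrec.snd)))
      (Primrec.nat_add.comp (Primrec.nat_mul.comp (primrec_toNat.comp Primrec.fst) (primrec_toNat_neg.comp Primrec.snd))
        (Primrec.nat_mul.comp (primrec_toNat_neg.comp Primrec.fst) (primrec_toNat.comp Primrec.snd)))
  refine h.of_eq fun a b => ?_
  have ha : a = (a.toNat : ℤ) - ((-a).toNat : ℤ) := by omega
  have hb : b = (b.toNat : ℤ) - ((-b).toNat : ℤ) := by omega
  conv_rhs => rw [ha, hb]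
  push_cast
  ring

theorem primrec_int_le : PrimrecRel ((· ≤ ·) : ℤ → ℤ → Prop) := by
  have h : PrimrecRel (fun a b : ℤ => (a - b).toNat ≤ 0) :=
    Primrec.nat_le.comp₂ (primrec_toNat.comp₂ primrec_int_sub) (Primrec₂.const 0)
  exact h.of_eq fun a b => by omega

end IntPR

section NatPR

theorem primrec_dvd : PrimrecRel ((· ∣ ·) : ℕ → ℕ → Prop) := by
  have h : PrimrecRel (fun a b : ℕ => b % a = 0) :=
    Primrec.eq.comp₂ (Primrec.nat_mod.comp₂ Primrec₂.right Primrec₂.left) (Primrec₂.const 0)
  exact h.of_eq fun a b => (Nat.dvd_iff_mod_eq_zero).symm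

theorem primrec_gcd : Primrec₂ Nat.gcd := by
  have h : Primrec (fun p : ℕ × ℕ => (p.1 + p.2).findGreatest (fun d => d ∣ p.1 ∧ d ∣ p.2)) := by
    refine Primrec.nat_findGreatest (Primrec.nat_add.comp Primrec.fst Primrec.snd) ?_
    exact (primrec_dvd.comp Primrec.snd (Primrec.fst.comp Primrec.fst)).and
      (primrec_dvd.comp Primrec.snd (Primrec.snd.comp Primrec.fst))
  refine h.of_eq fun p => ?_
  obtain ⟨a, b⟩ := p
  dsimp only
  rw [Nat.findGreatest_eq_iff]
  refine ⟨?_, fun _ => ⟨Nat.gcd_dvd_left _ _, Nat.gcd_dvd_right _ _⟩, ?_⟩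
  · rcases Nat.eq_zero_or_pos a with rfl | ha
    · simp
    · exact (Nat.gcd_le_left _ ha).trans (Nat.le_add_right _ _)
  · intro n hn hn2 hd
    rcases Nat.eq_zero_or_pos (Nat.gcd a b) with h0 | h0
    · rw [Nat.gcd_eq_zero_iff] at h0
      omega
    · exact absurd (Nat.le_of_dvd h0 (Nat.dvd_gcd hd.1 hd.2)) (not_le.2 hn)

theorem primrec_pow : Primrec₂ ((· ^ ·) : ℕ → ℕ → ℕ) :=
  Primrec₂.unpaired'.1 Nat.Primrec.pow

end NatPR


section RatPR

theorem primrecPred_isCode : PrimrecPred IsCode := by
  have h1 : PrimrecPred (fun m : ℕ => 0 < m.unpair.2) :=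
    Primrec.nat_lt.comp (Primrec.const 0) (Primrec.snd.comp Primrec.unpair)
  have h2 : PrimrecPred (fun m : ℕ => Nat.gcd (Denumerable.ofNat ℤ m.unpair.1).natAbs m.unpair.2 = 1) :=
    Primrec.eq.comp (primrec_gcd.comp 
      (primrec_natAbs.comp ((Primrec.ofNat ℤ).comp (Primrec.fst.comp Primrec.unpair))) 
      (Primrec.snd.comp Primrec.unpair)) (Primrec.const 1)
  exact h1.and h2

theorem primrec_count_isCode : Primrec (Nat.count IsCode) := by
  have h : Primrec (fun n : ℕ => Nat.rec (motive := fun _ => ℕ) 0 (fun k c => if IsCode k then c + 1 else c) n) := by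
    refine Primrec.nat_rec₁ (f := fun k c => if IsCode k then c + 1 else c) 0 ?_
    exact Primrec.ite (primrecPred_isCode.comp Primrec.fst) (Primrec.succ.comp Primrec.snd) Primrec.snd
  refine h.of_eq fun n => ?_
  induction n with
  | zero => simp
  | succ n ih =>
    rw [Nat.count_succ, ← ih]
    dsimp only
    split_ifs <;> rfl

theorem nth_isCode_le (n : ℕ) : Nat.nth IsCode n ≤ Nat.pair (2 * n) 1 := by
  have hcode : ∀ k : ℕ, IsCode (Nat.pair (2 * k) 1) := by
    intro k
    have := isCode_enc (k : ℚ)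
    have h2 : enc (k : ℚ) = Nat.pair (2 * k) 1 := by
      unfold enc
      simp
      rfl
    rwa [h2] at this
  have hlt : ∀ k : ℕ, k < Nat.count IsCode (Nat.pair (2 * k) 1 + 1) := by
    intro k
    induction k with
    | zero =>
      rw [Nat.count_succ, if_pos (hcode 0)]
      omega
    | succ k ih =>
      have h1 : Nat.pair (2 * k) 1 < Nat.pair (2 * (k + 1)) 1 := Nat.pair_lt_pair_left _ (by omega)
      have h2 : Nat.count IsCode (Nat.pair (2 * k) 1 + 1) ≤ Nat.count IsCode (Nat.pair (2 * (k + 1)) 1) :=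
        Nat.count_monotone _ h1
      rw [Nat.count_succ, if_pos (hcode (k + 1))]
      omega
  have := Nat.nth_lt_of_lt_count (hlt n)
  omega

theorem nth_isCode_graph (n m : ℕ) : Nat.nth IsCode n = m ↔ IsCode m ∧ Nat.count IsCode m = n := by
  constructor
  · rintro rfl
    refine ⟨?_, ?_⟩
    · exact Nat.nth_mem_of_infinite infinite_isCode n
    · exact Nat.count_nth_of_infinite infinite_isCode n
  · rintro ⟨h1, rfl⟩
    exact Nat.nth_count h1

theorem primrec_nth_isCode : Primrec (Nat.nth IsCode) := by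
  refine Primrec.of_graph ⟨fun n => Nat.pair (2 * n) 1, ?_, fun n => nth_isCode_le n⟩ ?_
  · exact Primrec₂.natPair.comp Primrec.nat_double (Primrec.const 1)
  · have h : PrimrecRel (fun n m : ℕ => IsCode m ∧ Nat.count IsCode m = n) :=
      (primrecPred_isCode.comp Primrec.snd).and
        (Primrec.eq.comp (primrec_count_isCode.comp Primrec.snd) Primrec.fst)
    exact h.of_eq fun n m => (nth_isCode_graph n m).symm

theorem primrec_enc : Primrec enc := by
  have h : Primrec (fun q : ℚ => Nat.nth IsCode (@Encodable.encode ℚ Primcodable.toEncodable q)) :=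
    primrec_nth_isCode.comp Primrec.encode
  refine h.of_eq fun q => ?_
  rw [← enc_ofNat, Denumerable.ofNat_encode]

theorem primrec_num : Primrec Rat.num := by
  have h : Primrec (fun q : ℚ => Denumerable.ofNat ℤ (enc q).unpair.1) :=
    (Primrec.ofNat ℤ).comp (Primrec.fst.comp (Primrec.unpair.comp primrec_enc))
  refine h.of_eq fun q => ?_
  unfold enc
  rw [Nat.unpair_pair]
  dsimp only
  rw [Denumerable.ofNat_encode]

theorem primrec_den : Primrec Rat.den := by
  have h : Primrec (fun q : ℚ => (enc q).unpair.2) :=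
    (Primrec.snd.comp (Primrec.unpair.comp primrec_enc))
  refine h.of_eq fun q => ?_
  unfold enc
  rw [Nat.unpair_pair]

theorem primrec_int_div_nat : Primrec₂ (fun (a : ℤ) (g : ℕ) => a / (g : ℤ)) := by
  have h : Primrec₂ (fun (a : ℤ) (g : ℕ) => ((a.toNat / g : ℕ) : ℤ) - (((-a).toNat + (g - 1)) / g : ℕ)) :=
    primrec_int_natSub.comp₂
      (Primrec.nat_div.comp (primrec_toNat.comp Primrec.fst) Primrec.snd)
      (Primrec.nat_div.comp
        (Primrec.nat_add.comp (primrec_toNat_neg.comp Primrec.fst)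
          (Primrec.nat_sub.comp Primrec.snd (Primrec.const 1))) Primrec.snd)
  refine h.of_eq fun a g => ?_
  rcases Nat.eq_zero_or_pos g with rfl | hg
  · simp
  rcases le_total 0 a with ha | ha
  · obtain ⟨n, rfl⟩ := Int.eq_ofNat_of_zero_le ha
    have h1 : (-(n : ℤ)).toNat = 0 := by omega
    rw [h1, Nat.zero_add, Nat.div_eq_of_lt (show g - 1 < g by omega)]
    simp
  · obtain ⟨n, hn⟩ := Int.eq_ofNat_of_zero_le (show 0 ≤ -a by omega)
    have ha' : a = -(n : ℤ) := by omega
    subst ha'
    have h1 : (-(-(n : ℤ))).toNat = n := by omega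
    have h2 : (-(n : ℤ)).toNat = 0 := by omega
    rw [h1, h2]
    simp only [Nat.zero_div, Nat.cast_zero, zero_sub]
    symm
    rw [Int.ediv_eq_iff_of_pos (by exact_mod_cast hg)]
    have h3 := Nat.div_add_mod (n + (g - 1)) g
    have h4 := Nat.mod_lt (n + (g - 1)) hg
    set q := (n + (g - 1)) / g
    set r := (n + (g - 1)) % g
    have h5 : (g : ℤ) * q + r = n + (g - 1) := by
      have : ((g * q + r : ℕ) : ℤ) = ((n + (g - 1) : ℕ) : ℤ) := by rw [h3]
      push_cast [Nat.cast_sub (show 1 ≤ g from hg)] at this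
      linarith
    have h6 : (r : ℤ) < g := by exact_mod_cast h4
    constructor
    · nlinarith
    · nlinarith

theorem primrec_mkRat : Primrec₂ mkRat := by
  have hg : Primrec₂ (fun (a : ℤ) (b : ℕ) => Nat.gcd b a.natAbs) :=
    primrec_gcd.comp₂ Primrec₂.right (primrec_natAbs.comp₂ Primrec₂.left)
  have h : Primrec₂ (fun (a : ℤ) (b : ℕ) => 
      Nat.count IsCode (Nat.pair (Encodable.encode (if b = 0 then 0 else a / ((Nat.gcd b a.natAbs : ℕ) : ℤ)))
        (if b = 0 then 1 else b / Nat.gcd b a.natAbs))) := by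
    refine primrec_count_isCode.comp₂ (Primrec₂.natPair.comp₂ (Primrec.encode.comp₂ ?_) ?_)
    · refine Primrec.ite (Primrec.eq.comp Primrec.snd (Primrec.const 0)) (Primrec.const 0) ?_
      exact primrec_int_div_nat.comp₂ Primrec₂.left hg
    · refine Primrec.ite (Primrec.eq.comp Primrec.snd (Primrec.const 0)) (Primrec.const 1) ?_
      exact Primrec.nat_div.comp₂ Primrec₂.right hg
  refine Primrec₂.encode_iff.1 (h.of_eq fun a b => ?_)
  have h2 := encode_eq_count (mkRat a b)
  change _ = @Encodable.encode ℚ (Rat.instDenumerable.toEncodable) (mkRat a b)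
  rw [h2]
  unfold enc
  rw [Rat.num_mkRat, Rat.den_mkRat]

theorem primrec_rat_add : Primrec₂ ((· + ·) : ℚ → ℚ → ℚ) := by
  have h : Primrec₂ (fun a b : ℚ => mkRat (a.num * b.den + b.num * a.den) (a.den * b.den)) := by
    refine primrec_mkRat.comp₂ (primrec_int_add.comp₂ 
      (primrec_int_mul.comp₂ (primrec_num.comp₂ Primrec₂.left) (primrec_natCast_int.comp₂ (primrec_den.comp₂ Primrec₂.right)))
      (primrec_int_mul.comp₂ (primrec_num.comp₂ Primrec₂.right) (primrec_natCast_int.comp₂ (primrec_den.comp₂ Primrec₂.left)))) 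
      (Primrec.nat_mul.comp₂ (primrec_den.comp₂ Primrec₂.left) (primrec_den.comp₂ Primrec₂.right))
  exact h.of_eq fun a b => (Rat.add_def' a b).symm

theorem primrec_rat_mul : Primrec₂ ((· * ·) : ℚ → ℚ → ℚ) := by
  have h : Primrec₂ (fun a b : ℚ => mkRat (a.num * b.num) (a.den * b.den)) := by
    refine primrec_mkRat.comp₂ 
      (primrec_int_mul.comp₂ (primrec_num.comp₂ Primrec₂.left) (primrec_num.comp₂ Primrec₂.right))
      (Primrec.nat_mul.comp₂ (primrec_den.comp₂ Primrec₂.left) (primrec_den.comp₂ Primrec₂.right))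
  exact h.of_eq fun a b => (Rat.mul_def' a b).symm

theorem primrec_rat_neg : Primrec (fun a : ℚ => -a) :=
  (primrec_rat_mul.comp (Primrec.const (-1)) Primrec.id).of_eq fun a => by simp

theorem primrec_rat_sub : Primrec₂ ((· - ·) : ℚ → ℚ → ℚ) :=
  (primrec_rat_add.comp₂ Primrec₂.left (primrec_rat_neg.comp₂ Primrec₂.right)).of_eq fun a b => by
    simp [sub_eq_add_neg]

theorem primrec_rat_natCast : Primrec (fun n : ℕ => (n : ℚ)) :=
  (primrec_mkRat.comp primrec_natCast_int (Primrec.const 1)).of_eq fun n => by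
    simp [Rat.mkRat_eq_div]

theorem primrec_rat_intCast : Primrec (fun n : ℤ => (n : ℚ)) :=
  (primrec_mkRat.comp Primrec.id (Primrec.const 1)).of_eq fun n => by
    simp [Rat.mkRat_eq_div]

/-- numerator over a natural denominator -/
theorem primrec_rat_div_nat : Primrec₂ (fun (a : ℤ) (b : ℕ) => (a : ℚ) / (b : ℚ)) :=
  primrec_mkRat.of_eq fun a b => Rat.mkRat_eq_div a b

theorem primrec_rat_inv : Primrec (fun a : ℚ => a⁻¹) := by
  have h : Primrec (fun a : ℚ => if 0 ≤ a.num then mkRat (a.den) a.num.natAbs else mkRat (-a.den) a.num.natAbs) := by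
    refine Primrec.ite (primrec_int_le.comp (Primrec.const 0) primrec_num) ?_ ?_
    · exact primrec_mkRat.comp (primrec_natCast_int.comp primrec_den) (primrec_natAbs.comp primrec_num)
    · exact primrec_mkRat.comp (primrec_int_neg.comp (primrec_natCast_int.comp primrec_den)) (primrec_natAbs.comp primrec_num)
  refine h.of_eq fun a => ?_
  have ha : a⁻¹ = (a.den : ℚ) / a.num := by
    conv_lhs => rw [← Rat.num_div_den a]
    rw [inv_div]
  rw [ha]
  split_ifs with h0
  · rw [Rat.mkRat_eq_div]
    have : (a.num.natAbs : ℚ) = a.num := by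
      rw [← Int.cast_natCast (R := ℚ) a.num.natAbs, Int.natAbs_of_nonneg h0]
    rw [this]
    push_cast
    rfl
  · rw [Rat.mkRat_eq_div]
    have : (a.num.natAbs : ℚ) = -a.num := by
      rw [← Int.cast_natCast (R := ℚ) a.num.natAbs, Int.ofNat_natAbs_of_nonpos (le_of_not_ge h0), Int.cast_neg]
    rw [this]
    push_cast
    rw [neg_div_neg_eq]

theorem primrec_rat_div : Primrec₂ ((· / ·) : ℚ → ℚ → ℚ) :=
  (primrec_rat_mul.comp₂ Primrec₂.left (primrec_rat_inv.comp₂ Primrec₂.right)).of_eq fun a b => by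
    simp [div_eq_mul_inv]

theorem primrec_rat_le : PrimrecRel ((· ≤ ·) : ℚ → ℚ → Prop) := by
  have h : PrimrecRel (fun a b : ℚ => 0 ≤ (b - a).num) :=
    primrec_int_le.comp₂ (Primrec₂.const 0) (primrec_num.comp₂ (primrec_rat_sub.comp₂ Primrec₂.right Primrec₂.left))
  exact h.of_eq fun a b => by rw [Rat.num_nonneg, sub_nonneg]

theorem primrec_rat_lt : PrimrecRel ((· < ·) : ℚ → ℚ → Prop) := by
  have h : PrimrecRel (fun a b : ℚ => ¬ b ≤ a) := (primrec_rat_le.comp₂ Primrec₂.right Primrec₂.left).not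
  exact h.of_eq fun a b => by rw [not_le]

theorem primrec_rat_floor : Primrec (fun a : ℚ => ⌊a⌋) := by
  have h : Primrec (fun a : ℚ => a.num / (a.den : ℤ)) :=
    primrec_int_div_nat.comp primrec_num primrec_den
  refine h.of_eq fun a => ?_
  exact Rat.floor_def'.symm

theorem primrec_rat_abs : Primrec (fun a : ℚ => |a|) := by
  have h : Primrec (fun a : ℚ => if 0 ≤ a then a else -a) :=
    Primrec.ite (primrec_rat_le.comp (Primrec.const 0) Primrec.id) Primrec.id primrec_rat_neg
  refine h.of_eq fun a => ?_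
  split_ifs with h0
  · rw [abs_of_nonneg h0]
  · rw [abs_of_neg (not_le.1 h0)]

theorem primrec_rat_pow : Primrec₂ (fun (a : ℚ) (n : ℕ) => a ^ n) := by
  have h : Primrec₂ (fun (a : ℚ) (n : ℕ) => Nat.rec (motive := fun _ => ℚ) 1 (fun _ c => c * a) n) := by
    refine Primrec.nat_rec (f := fun _ => (1 : ℚ)) (g := fun (a : ℚ) (p : ℕ × ℚ) => p.2 * a) (Primrec.const 1) ?_
    exact primrec_rat_mul.comp (Primrec.snd.comp Primrec.snd) Primrec.fst
  refine h.of_eq fun a n => ?_
  induction n with
  | zero => simp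
  | succ n ih => rw [pow_succ, ← ih]

end RatPR

/-! ### Names used by clients -/

theorem int_natCast : Primrec (fun n : ℕ => (n : ℤ)) := primrec_natCast_int
theorem int_toNat : Primrec Int.toNat := primrec_toNat
theorem int_natAbs : Primrec Int.natAbs := primrec_natAbs
theorem int_neg : Primrec (fun z : ℤ => -z) := primrec_int_neg
theorem int_natSub : Primrec₂ (fun a b : ℕ => (a : ℤ) - (b : ℤ)) := primrec_int_natSub
theorem int_add : Primrec₂ (fun a b : ℤ => a + b) := primrec_int_add
theorem int_sub : Primrec₂ (fun a b : ℤ => a - b) := primrec_int_sub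
theorem int_mul : Primrec₂ (fun a b : ℤ => a * b) := primrec_int_mul
theorem int_le : PrimrecRel (fun a b : ℤ => a ≤ b) := primrec_int_le
theorem int_lt : PrimrecRel (fun a b : ℤ => a < b) := by
  have h : PrimrecRel (fun a b : ℤ => ¬ b ≤ a) :=
    (primrec_int_le.comp₂ Primrec₂.right Primrec₂.left).not
  exact h.of_eq fun a b => by rw [not_le]

theorem rat_num : Primrec (fun q : ℚ => q.num) := primrec_num
theorem rat_den : Primrec (fun q : ℚ => q.den) := primrec_den
/-- the quotient of an integer by a natural number (value 0 when the denominator is 0) -/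
theorem rat_mk : Primrec₂ (fun (z : ℤ) (n : ℕ) => (z : ℚ) / (n : ℚ)) := primrec_rat_div_nat
theorem rat_natCast : Primrec (fun n : ℕ => (n : ℚ)) := primrec_rat_natCast
theorem rat_intCast : Primrec (fun n : ℤ => (n : ℚ)) := primrec_rat_intCast
theorem rat_add : Primrec₂ (fun a b : ℚ => a + b) := primrec_rat_add
theorem rat_neg : Primrec (fun a : ℚ => -a) := primrec_rat_neg
theorem rat_sub : Primrec₂ (fun a b : ℚ => a - b) := primrec_rat_sub
theorem rat_mul : Primrec₂ (fun a b : ℚ => a * b) := primrec_rat_mul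
theorem rat_inv : Primrec (fun a : ℚ => a⁻¹) := primrec_rat_inv
theorem rat_div : Primrec₂ (fun a b : ℚ => a / b) := primrec_rat_div
theorem rat_le : PrimrecRel (fun a b : ℚ => a ≤ b) := primrec_rat_le
theorem rat_lt : PrimrecRel (fun a b : ℚ => a < b) := primrec_rat_lt
theorem rat_abs : Primrec (fun a : ℚ => |a|) := primrec_rat_abs
theorem rat_floor : Primrec (fun a : ℚ => ⌊a⌋) := primrec_rat_floor
theorem rat_pow : Primrec₂ (fun (a : ℚ) (n : ℕ) => a ^ n) := primrec_rat_pow
theorem rat_listSum : Primrec (fun l : List ℚ => l.sum) := by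
  have h : Primrec (fun l : List ℚ => l.foldr (fun a s => a + s) 0) :=
    Primrec.list_foldr (f := fun l : List ℚ => l) (g := fun _ => (0 : ℚ))
      (h := fun _ p => p.1 + p.2) Primrec.id (Primrec.const 0)
      (rat_add.comp (Primrec.fst.comp Primrec.snd) (Primrec.snd.comp Primrec.snd))
  refine h.of_eq fun l => ?_
  induction l with
  | nil => simp
  | cons a l ih => simp [← ih]
theorem rat_listProd : Primrec (fun l : List ℚ => l.prod) := by
  have h : Primrec (fun l : List ℚ => l.foldr (fun a s => a * s) 1) :=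
    Primrec.list_foldr (f := fun l : List ℚ => l) (g := fun _ => (1 : ℚ))
      (h := fun _ p => p.1 * p.2) Primrec.id (Primrec.const 1)
      (rat_mul.comp (Primrec.fst.comp Primrec.snd) (Primrec.snd.comp Primrec.snd))
  refine h.of_eq fun l => ?_
  induction l with
  | nil => simp
  | cons a l ih => simp [← ih]

end Crest.Agent.Lib.RatPrimrec
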