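import Mathlib

/-! Riemann mapping theorem: Montel-type compactness, Hurwitz, and Koebe's extremal argument. -/

set_option autoImplicit false

open Filter Metric Set Topology ComplexConjugate

namespace Crest.Agent.Lib.RiemannMap

/-! ### local equicontinuity -/

theorem norm_sub_le_of_ball {f : ℂ → ℂ} {c : ℂ} {R : ℝ} (hR : 0 < R)
    (hf : DifferentiableOn ℂ f (ball c R)) (hM : ∀ z ∈ ball c R, ‖f z‖ ≤ 1)
    {z w : ℂ} (hz : z ∈ ball c (R / 2)) (hw : w ∈ ball c (R / 2)) :
    ‖f z - f w‖ ≤ 2 / R * ‖z - w‖ := by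
  have hderiv : ∀ x ∈ ball c (R / 2), ‖deriv f x‖ ≤ 2 / R := by
    intro x hx
    have hsub : closedBall x (R / 2) ⊆ ball c R := by
      intro y hy
      rw [mem_closedBall] at hy
      rw [mem_ball] at hx ⊢
      have := dist_triangle y x c
      linarith
    have h1 : DiffContOnCl ℂ f (ball x (R / 2)) := by
      apply DifferentiableOn.diffContOnCl
      rw [closure_ball x (by positivity)]
      exact hf.mono hsub
    have h2 := Complex.norm_deriv_le_of_forall_mem_sphere_norm_le (by positivity : 0 < R / 2) h1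
      (C := 1) (fun y hy => hM y (hsub (sphere_subset_closedBall hy)))
    calc ‖deriv f x‖ ≤ 1 / (R / 2) := h2
      _ = 2 / R := by field_simp
  have hdiff : ∀ x ∈ ball c (R / 2), DifferentiableAt ℂ f x := fun x hx =>
    hf.differentiableAt (isOpen_ball.mem_nhds (ball_subset_ball (by linarith) hx))
  exact Convex.norm_image_sub_le_of_norm_deriv_le hdiff hderiv (convex_ball c (R / 2)) hw hz

/-- For uniformly bounded families of holomorphic functions pointwise convergence implies locally
uniform convergence (along any filter). -/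
theorem tendstoLocallyUniformlyOn_of_pointwise {ι : Type*} {p : Filter ι} [p.NeBot]
    {F : ι → ℂ → ℂ} {g : ℂ → ℂ} {U : Set ℂ} (hU : IsOpen U)
    (hF : ∀ n, DifferentiableOn ℂ (F n) U) (hM : ∀ n, ∀ z ∈ U, ‖F n z‖ ≤ 1)
    (hlim : ∀ z ∈ U, Tendsto (fun n => F n z) p (𝓝 (g z))) :
    TendstoLocallyUniformlyOn F g p U := by
  rw [Metric.tendstoLocallyUniformlyOn_iff]
  intro ε hε x hx
  obtain ⟨R, hR, hRU⟩ := Metric.isOpen_iff.1 hU x hx
  obtain ⟨δ, hδdef⟩ : ∃ δ, δ = min (R / 2) (ε * R / 8) := ⟨_, rfl⟩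
  have hδ : 0 < δ := by rw [hδdef]; positivity
  have hδ1 : δ ≤ R / 2 := by rw [hδdef]; exact min_le_left _ _
  have hδ2 : δ ≤ ε * R / 8 := by rw [hδdef]; exact min_le_right _ _
  refine ⟨ball x δ, mem_nhdsWithin_of_mem_nhds (ball_mem_nhds x hδ), ?_⟩
  have h1 : ∀ y ∈ ball x δ, ∀ n, ‖F n y - F n x‖ ≤ ε / 4 := by
    intro y hy n
    have h := norm_sub_le_of_ball hR ((hF n).mono hRU) (fun z hz => hM n z (hRU hz))
      (ball_subset_ball hδ1 hy) (mem_ball_self (by positivity : 0 < R / 2))
    refine h.trans ?_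
    rw [mem_ball, dist_eq_norm] at hy
    calc 2 / R * ‖y - x‖ ≤ 2 / R * (ε * R / 8) := by gcongr; linarith
      _ = ε / 4 := by field_simp; norm_num
  have h2 : ∀ y ∈ ball x δ, ‖g y - g x‖ ≤ ε / 4 := by
    intro y hy
    have hyU : y ∈ U := hRU (ball_subset_ball (by linarith) hy)
    exact le_of_tendsto ((hlim y hyU).sub (hlim x hx)).norm (Eventually.of_forall (h1 y hy))
  filter_upwards [Metric.tendsto_nhds.1 (hlim x hx) (ε / 4) (by positivity)] with n hn y hy
  have e1 := h2 y hy
  have e2 := h1 y hy n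
  rw [← dist_eq_norm] at e1 e2
  rw [dist_comm] at hn e2
  calc dist (g y) (F n y) ≤ dist (g y) (g x) + dist (g x) (F n x) + dist (F n x) (F n y) :=
        dist_triangle4 _ _ _ _
    _ < ε := by linarith

/-! ### Hurwitz -/

/-- A locally uniform limit of injective holomorphic functions on a connected open set is injective
or has zero derivative. -/
theorem injOn_of_tendstoLocallyUniformlyOn {ι : Type*} {p : Filter ι} [p.NeBot]
    {F : ι → ℂ → ℂ} {g : ℂ → ℂ} {U : Set ℂ} (hU : IsOpen U) (hUc : IsPreconnected U)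
    (hF : ∀ n, DifferentiableOn ℂ (F n) U) (hinj : ∀ n, InjOn (F n) U)
    (hlim : TendstoLocallyUniformlyOn F g p U) (hne : ∃ z ∈ U, deriv g z ≠ 0) : InjOn g U := by
  have hg : DifferentiableOn ℂ g U :=
    hlim.differentiableOn (Eventually.of_forall hF) hU
  intro a ha b hb hab
  by_contra hne'
  have hgan : AnalyticOnNhd ℂ (fun z => g z - g a) U := by
    apply DifferentiableOn.analyticOnNhd _ hU
    exact hg.sub_const _
  -- g - g a has an isolated zero at b
  have hiso : ∀ᶠ z in 𝓝[≠] b, g z - g a ≠ 0 := by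
    rcases (hgan b hb).eventually_eq_zero_or_eventually_ne_zero with h0 | h0
    · exfalso
      have := hgan.eqOn_zero_of_preconnected_of_eventuallyEq_zero hUc hb h0
      obtain ⟨z, hz, hdz⟩ := hne
      apply hdz
      have hev : g =ᶠ[𝓝 z] fun _ => g a := by
        filter_upwards [hU.mem_nhds hz] with y hy
        have := this hy
        simpa [sub_eq_zero] using this
      rw [hev.deriv_eq]
      simp
    · exact h0
  -- choose a small closed ball
  obtain ⟨r, hr, hrU, hra, hrz⟩ : ∃ r > 0, closedBall b r ⊆ U ∧ a ∉ closedBall b r ∧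
      ∀ z ∈ closedBall b r, z ≠ b → g z - g a ≠ 0 := by
    rw [eventually_nhdsWithin_iff] at hiso
    obtain ⟨r1, hr1, h1⟩ := Metric.eventually_nhds_iff_ball.1 hiso
    obtain ⟨r2, hr2, h2⟩ := Metric.isOpen_iff.1 hU b hb
    have hd : 0 < dist a b := dist_pos.2 hne'
    refine ⟨min (r1 / 2) (min (r2 / 2) (dist a b / 2)), by positivity, ?_, ?_, ?_⟩
    · intro z hz
      apply h2
      rw [mem_closedBall] at hz
      rw [mem_ball]
      have := hz.trans ((min_le_right _ _).trans (min_le_left _ _))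
      linarith
    · intro hz
      rw [mem_closedBall] at hz
      have := hz.trans ((min_le_right _ _).trans (min_le_right _ _))
      linarith
    · intro z hz hzb
      apply h1 z _ hzb
      rw [mem_closedBall] at hz
      rw [mem_ball]
      have := hz.trans (min_le_left _ _)
      linarith
  -- minimum on the sphere
  obtain ⟨m, hm, hmz⟩ : ∃ m > 0, ∀ z ∈ sphere b r, m ≤ ‖g z - g a‖ := by
    have hcont : ContinuousOn (fun z => ‖g z - g a‖) (sphere b r) :=
      ((hg.continuousOn.mono (sphere_subset_closedBall.trans hrU)).sub continuousOn_const).norm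
    have hnes : (sphere b r).Nonempty := (NormedSpace.sphere_nonempty).2 hr.le
    obtain ⟨z0, hz0, hmin⟩ := (isCompact_sphere b r).exists_isMinOn hnes hcont
    refine ⟨‖g z0 - g a‖, ?_, fun z hz => hmin hz⟩
    refine norm_pos_iff.2 ?_
    apply hrz z0 (sphere_subset_closedBall hz0)
    intro h
    rw [h, mem_sphere, dist_self] at hz0
    linarith
  have hK : IsCompact (closedBall b r ∪ {a}) := (isCompact_closedBall b r).union isCompact_singleton
  have hKU : closedBall b r ∪ {a} ⊆ U := union_subset hrU (singleton_subset_iff.2 ha)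
  have hunif := (tendstoLocallyUniformlyOn_iff_forall_isCompact hU).1 hlim _ hKU hK
  have hev := Metric.tendstoUniformlyOn_iff.1 hunif (m / 4) (by positivity)
  obtain ⟨n, hn⟩ := hev.exists
  have hna : ‖g a - F n a‖ < m / 4 := by
    have := hn a (Or.inr rfl)
    rwa [dist_eq_norm] at this
  have hnz : ∀ z ∈ closedBall b r, ‖g z - F n z‖ < m / 4 := by
    intro z hz
    have := hn z (Or.inl hz)
    rwa [dist_eq_norm] at this
  have hnonzero : ∀ z ∈ closedBall b r, F n z - F n a ≠ 0 := by
    intro z hz h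
    have : z = a := hinj n (hrU hz) ha (sub_eq_zero.1 h)
    rw [this] at hz
    exact hra hz
  have hsph : ∀ z ∈ sphere b r, ‖(F n z - F n a)⁻¹‖ ≤ (m / 2)⁻¹ := by
    intro z hz
    rw [norm_inv]
    apply inv_anti₀ (by positivity)
    have h1 := hmz z hz
    have h2 := hnz z (sphere_subset_closedBall hz)
    have h3 : g z - g a = (F n z - F n a) + (g z - F n z) - (g a - F n a) := by ring
    rw [h3] at h1
    have h4 := norm_sub_le ((F n z - F n a) + (g z - F n z)) (g a - F n a)
    have h5 := norm_add_le (F n z - F n a) (g z - F n z)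
    linarith
  have hdiffinv : DiffContOnCl ℂ (fun z => (F n z - F n a)⁻¹) (ball b r) := by
    apply DifferentiableOn.diffContOnCl
    rw [closure_ball b hr.ne']
    intro z hz
    have h1 : DifferentiableWithinAt ℂ (fun z => F n z - F n a) (closedBall b r) z :=
      (((hF n) z (hrU hz)).mono hrU).sub_const _
    exact h1.inv (hnonzero z hz)
  have hmax := Complex.norm_le_of_forall_mem_frontier_norm_le isBounded_ball hdiffinv
    (C := (m / 2)⁻¹) (by
      intro z hz
      rw [frontier_ball b hr.ne'] at hz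
      exact hsph z hz) (subset_closure (mem_ball_self hr))
  rw [norm_inv] at hmax
  have hpos : 0 < ‖F n b - F n a‖ := norm_pos_iff.2 (hnonzero b (mem_closedBall_self hr.le))
  have h6 : m / 2 ≤ ‖F n b - F n a‖ := by
    rwa [inv_le_inv₀ hpos (by positivity)] at hmax
  have h7 : F n b - F n a = (g a - F n a) - (g b - F n b) := by rw [hab]; ring
  rw [h7] at h6
  have h8 := norm_sub_le (g a - F n a) (g b - F n b)
  have h9 := hnz b (mem_closedBall_self hr.le)
  linarith

/-! ### disc automorphisms -/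

/-- `(z - w) / (1 - conj w * z)` -/
noncomputable def mob (w z : ℂ) : ℂ := (z - w) / (1 - conj w * z)

theorem mob_den_ne {w z : ℂ} (hw : ‖w‖ < 1) (hz : ‖z‖ < 1) : 1 - conj w * z ≠ 0 := by
  intro h
  have : ‖conj w * z‖ = 1 := by
    rw [← sub_eq_zero.1 h]; simp
  rw [norm_mul, Complex.norm_conj] at this
  nlinarith [norm_nonneg w, norm_nonneg z]

theorem mob_norm_lt {w z : ℂ} (hw : ‖w‖ < 1) (hz : ‖z‖ < 1) : ‖mob w z‖ < 1 := by
  have hne := mob_den_ne hw hz
  rw [mob, norm_div, div_lt_one (norm_pos_iff.2 hne)]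
  have h1 : ‖z - w‖ ^ 2 < ‖1 - conj w * z‖ ^ 2 := by
    rw [← Complex.normSq_eq_norm_sq, ← Complex.normSq_eq_norm_sq]
    have hw2 : Complex.normSq w < 1 := by
      rw [Complex.normSq_eq_norm_sq]; nlinarith [norm_nonneg w]
    have hz2 : Complex.normSq z < 1 := by
      rw [Complex.normSq_eq_norm_sq]; nlinarith [norm_nonneg z]
    rw [Complex.normSq_apply] at *
    simp only [Complex.sub_re, Complex.sub_im, Complex.mul_re, Complex.mul_im, Complex.conj_re,
      Complex.conj_im, Complex.one_re, Complex.one_im, Complex.normSq_apply] at *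
    nlinarith [mul_pos (sub_pos.2 hw2) (sub_pos.2 hz2)]
  exact lt_of_pow_lt_pow_left₀ 2 (norm_nonneg _) h1

theorem mob_injOn {w : ℂ} (hw : ‖w‖ < 1) : InjOn (mob w) (ball 0 1) := by
  intro a ha b hb hab
  rw [mem_ball_zero_iff] at ha hb
  rw [mob, mob, div_eq_div_iff (mob_den_ne hw ha) (mob_den_ne hw hb)] at hab
  have h1 : (a - b) * (1 - conj w * w) = 0 := by linear_combination hab
  rcases mul_eq_zero.1 h1 with h | h
  · exact sub_eq_zero.1 h
  · exact absurd h (mob_den_ne hw hw)

theorem mob_hasDerivAt {w z : ℂ} (hw : ‖w‖ < 1) (hz : ‖z‖ < 1) :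
    HasDerivAt (mob w) ((1 - conj w * w) / (1 - conj w * z) ^ 2) z := by
  have hne := mob_den_ne hw hz
  have h1 : HasDerivAt (fun z : ℂ => z - w) 1 z := (hasDerivAt_id z).sub_const w
  have h2 : HasDerivAt (fun z : ℂ => 1 - conj w * z) (-(conj w * 1)) z :=
    ((hasDerivAt_id z).const_mul (conj w)).const_sub 1
  have h3 := h1.div h2 hne
  have h4 : (1 - conj w * w) / (1 - conj w * z) ^ 2 =
      (1 * (1 - conj w * z) - (z - w) * -(conj w * 1)) / (1 - conj w * z) ^ 2 := by
    congr 1; ring
  rw [h4]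
  exact h3

theorem mob_self (w : ℂ) : mob w w = 0 := by simp [mob]

theorem mob_ne_zero {w z : ℂ} (hw : ‖w‖ < 1) (hz : ‖z‖ < 1) (h : z ≠ w) : mob w z ≠ 0 := by
  rw [mob]
  exact div_ne_zero (sub_ne_zero.2 h) (mob_den_ne hw hz)

/-! ### the extremal argument -/

/-- A continuous square root of a nonvanishing holomorphic function is holomorphic. -/
theorem hasDerivAt_sqrt {U : Set ℂ} (hU : IsOpen U) {s h : ℂ → ℂ} (hs : ContinuousOn s U)
    (hsh : ∀ z, s z ^ 2 = h z) {z h' : ℂ} (hz : z ∈ U) (hne : s z ≠ 0) (hh : HasDerivAt h h' z) :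
    HasDerivAt s (h' / (2 * s z)) z := by
  have hcont : ContinuousAt s z := hs.continuousAt (hU.mem_nhds hz)
  rw [hasDerivAt_iff_tendsto_slope] at hh ⊢
  have h1 : Tendsto (fun y => (s y + s z)⁻¹) (𝓝[≠] z) (𝓝 ((s z + s z)⁻¹)) := by
    apply Tendsto.inv₀
    · exact (hcont.tendsto.mono_left nhdsWithin_le_nhds).add_const _
    · rw [← two_mul]; exact mul_ne_zero two_ne_zero hne
  have h2 := hh.mul h1
  have h3 : h' * (s z + s z)⁻¹ = h' / (2 * s z) := by rw [← two_mul]; rfl
  rw [h3] at h2
  refine h2.congr' ?_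
  have h4 : ∀ᶠ y in 𝓝[≠] z, s y + s z ≠ 0 := by
    have : Tendsto (fun y => s y + s z) (𝓝[≠] z) (𝓝 (s z + s z)) :=
      (hcont.tendsto.mono_left nhdsWithin_le_nhds).add_const _
    apply this.eventually_ne
    rw [← two_mul]; exact mul_ne_zero two_ne_zero hne
  filter_upwards [h4] with y hy
  simp only [slope, vsub_eq_sub, smul_eq_mul]
  rw [← hsh y, ← hsh z]
  field_simp
  ring


section MathlibPrivate

/-! The two lemmas of this section are copied from Mathlib (Mathlib/Analysis/Complex/RiemannMapping,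
by Yury Kudryashov), where they are not exported. -/

open Function Complex
open scoped Pointwise

/-- Proof of the Riemann Mapping Theorem, step 1.

If `U` is an open simply connected subset of `ℂ` that is not the whole `ℂ`,
then there exists a function `f : ℂ → ℂ` such that

- `f` is injective;
- the image `f '' U` isn't dense in `ℂ`;
- `f` is complex differentiable on `U` with nonzero derivative.

E.g., one can choose `a ∉ U`, then take `f z` to be the square root of `z - a`.
-/
theorem exists_injective_not_dense_image_deriv_ne_zero {U : Set ℂ} (hUo : IsOpen U)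
    (hUc : IsSimplyConnected U) (hU : U ≠ univ) :
    ∃ f : ℂ → ℂ, Injective f ∧ ¬Dense (f '' U) ∧ ∀ z ∈ U, deriv f z ≠ 0 := by
  -- WLOG, `0 ∉ U`, otherwise we choose `a ∉ U` and replace `U` with `-a +ᵥ U`
  wlog hU₀ : 0 ∉ U
  · rw [ne_univ_iff_exists_notMem] at hU
    rcases hU with ⟨a, ha⟩
    specialize this (hUo.vadd (-a)) (by simpa) (by simp [hU])
      (by simpa [mem_vadd_set_iff_neg_vadd_mem])
    rcases this with ⟨f, hf_inj, hf_dense, hdf⟩
    refine ⟨f ∘ (-a + ·), hf_inj.comp (add_right_injective (-a)), ?_, fun z hz ↦ ?_⟩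
    · simpa only [← image_vadd, Set.image_image] using! hf_dense
    · simpa [Function.comp_def, deriv_comp_const_add] using hdf (-a + z) (mapsTo_image _ _ hz)
  -- Choose a continuous branch of `√z` on `U`.
  -- This is the function we're looking for.
  rcases exists_continuousOn_pow_eq hUc hUo continuousOn_id (by rwa [image_id]) two_ne_zero
    with ⟨f, hfc, hf_inv⟩
  replace hf_inv : LeftInverse (· ^ 2) f := hf_inv
  -- Then `0 ∉ f '' U`
  have hf₀ : ∀ z ∈ U, f z ≠ 0 := by
    intro z hz hfz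
    simpa [hfz, (ne_of_mem_of_not_mem hz hU₀).symm] using hf_inv z
  -- Note that `f` is strictly differentiable at every point of `U`
  -- with derivative `1 / (2 * f z)`.
  have hdf : ∀ z ∈ U, HasStrictDerivAt f (2 * f z)⁻¹ z := by
    intro z hz
    apply HasStrictDerivAt.of_local_left_inverse
    · exact hfc.continuousAt <| hUo.mem_nhds hz
    · simpa using hasStrictDerivAt_pow 2 (f z)
    · simpa using hf₀ z hz
    · exact .of_forall hf_inv
  -- `f` has a left inverse, so it's injective. Let's show that `f '' U` isn't dense in `ℂ`.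
  refine ⟨f, hf_inv.injective, ?_, fun z hz ↦ ?_⟩
  · -- Take a point `x ∈ U`.
    simp only [Dense, not_forall, mem_closure_iff_frequently, not_frequently]
    rcases hUc.nonempty with ⟨x, hx⟩
    -- Show that `-f x` has a neighborhood disjoint with `f '' U`.
    use -f x
    -- Since `f` is strictly differentiable at `x` with nonzero derivative,
    -- `f '' U` is a neighborhood of `f x`.
    have : f '' U ∈ 𝓝 (f x) := by
      rw [← (hdf x hx).map_nhds_eq (by simpa using hf₀ x hx)]
      exact Filter.image_mem_map <| hUo.mem_nhds hx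
    -- Then `-f '' U` is a neighborhood of `-f x`.
    rw [nhds_neg, eventually_neg]
    -- This neighborhood has to be disjoint with `f '' U`,
    -- because `f a = - f b` implies `a = (f a) ^ 2 = (- f b) ^ 2 = b`, hence `f a = f b = 0`,
    -- which is impossible.
    filter_upwards [this]
    rintro _ ⟨a, ha, rfl⟩ ⟨b, hb, hab⟩
    obtain rfl : a = b := by
      rw [← hf_inv b, hab]
      simp [hf_inv a]
    refine hf₀ a ha ?_
    linear_combination hab / 2
  · simpa [(hdf z hz).hasDerivAt.deriv] using hf₀ z hz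

/-- Proof of the Riemann Mapping Theorem, step 2.

If `U` is an open simply connected subset of `ℂ` which is not the whole field,
then there exists a map `f : ℂ → ℂ` such that

- `f` maps `U` to the unit disk;
- `f` is injective on `U`;
- `f` is differentiable on `U` with nonzero derivative.

Once the proof of the Riemann Mapping Theorem gets merged into Mathlib,
this lemma will be made private.
-/
lemma exists_mapsTo_unitBall_injOn_deriv_ne_zero {U : Set ℂ} (hUo : IsOpen U)
    (hUc : IsSimplyConnected U) (hU : U ≠ univ) :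
    ∃ f : ℂ → ℂ, MapsTo f U (ball 0 1) ∧ InjOn f U ∧ ∀ z ∈ U, deriv f z ≠ 0 := by
  -- Take a continuous branch of the square root on `U`.
  -- It is injective, differentiable function on `U`, and `f '' U` isn't dense in `ℂ`.
  rcases exists_injective_not_dense_image_deriv_ne_zero hUo hUc hU with ⟨f, hf_inj, hfd, hdf⟩
  -- Choose a closed ball `Metric.closedBall x ε`, `ε > 0`, that is disjoint with `f '' U`.
  obtain ⟨x, ε, hε₀, hε⟩ : ∃ (x : ℂ) (ε : ℝ), 0 < ε ∧ ∀ a ∈ U, ε < dist (f a) x := by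
    simpa [Dense, mem_closure_iff_nhds_basis Metric.nhds_basis_closedBall] using hfd
  have hfx : ∀ z ∈ U, f z ≠ x := fun z hz ↦ by simpa using hε₀.trans (hε z hz)
  -- Then `z ↦ ε / (f z - x)` satisfies all the assertions.
  use fun z ↦ ε / (f z - x)
  refine ⟨?mapsTo, ?injOn, ?deriv⟩
  case mapsTo =>
    intro z hz
    rw [mem_ball_zero_iff, norm_div, norm_real, Real.norm_of_nonneg hε₀.le, div_lt_one₀]
    · simpa [dist_eq_norm] using hε z hz
    · simpa [sub_eq_zero] using hfx z hz
  case injOn =>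
    intro z hz w hw heq
    simpa [div_eq_mul_inv, hε₀.ne', hf_inj.eq_iff] using heq
  case deriv =>
    intro z hz
    have hdz : DifferentiableAt ℂ f z := differentiableAt_of_deriv_ne_zero (hdf z hz)
    rw [(hasDerivAt_const _ _).fun_div (hdz.hasDerivAt.sub_const _) _ |>.deriv] <;>
      simp [*, ne_of_gt, sub_eq_zero]


end MathlibPrivate

/-- The competing family. -/
structure Fam (U : Set ℂ) (z₀ : ℂ) (f : ℂ → ℂ) : Prop where
  diff : DifferentiableOn ℂ f U
  inj : InjOn f U
  maps : MapsTo f U (ball 0 1)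
  zero : f z₀ = 0

theorem Fam.exists {U : Set ℂ} (hUo : IsOpen U) (hUc : IsSimplyConnected U) (hU : U ≠ univ)
    {z₀ : ℂ} (hz₀ : z₀ ∈ U) : ∃ f, Fam U z₀ f ∧ deriv f z₀ ≠ 0 := by
  obtain ⟨f, hmaps, hinj, hderiv⟩ :=
    exists_mapsTo_unitBall_injOn_deriv_ne_zero hUo hUc hU
  have hw : ‖f z₀‖ < 1 := by simpa using hmaps hz₀
  have hd : ∀ z ∈ U, HasDerivAt (fun z => mob (f z₀) (f z))
      ((1 - conj (f z₀) * f z₀) / (1 - conj (f z₀) * f z) ^ 2 * deriv f z) z := by
    intro z hz
    have hfz : ‖f z‖ < 1 := by simpa using hmaps hz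
    exact (mob_hasDerivAt hw hfz).comp z
      (differentiableAt_of_deriv_ne_zero (hderiv z hz)).hasDerivAt
  refine ⟨fun z => mob (f z₀) (f z), ⟨?_, ?_, ?_, mob_self _⟩, ?_⟩
  · intro z hz
    exact (hd z hz).differentiableAt.differentiableWithinAt
  · intro a ha b hb hab
    exact hinj ha hb (mob_injOn hw (hmaps ha) (hmaps hb) hab)
  · intro z hz
    rw [mem_ball_zero_iff]
    exact mob_norm_lt hw (by simpa using hmaps hz)
  · rw [(hd z₀ hz₀).deriv]
    refine mul_ne_zero (div_ne_zero (mob_den_ne hw hw) (pow_ne_zero 2 (mob_den_ne hw hw)))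
      (hderiv z₀ hz₀)

/-- Koebe's square root trick: a non-surjective member of the family is not extremal. -/
theorem Fam.improve {U : Set ℂ} (hUo : IsOpen U) (hUc : IsSimplyConnected U)
    {z₀ : ℂ} (hz₀ : z₀ ∈ U) {f : ℂ → ℂ} (hf : Fam U z₀ f) (hd : deriv f z₀ ≠ 0)
    {w : ℂ} (hw : ‖w‖ < 1) (hwf : w ∉ f '' U) :
    ∃ g, Fam U z₀ g ∧ ‖deriv f z₀‖ < ‖deriv g z₀‖ := by
  have hw0 : w ≠ 0 := by
    rintro rfl
    exact hwf ⟨z₀, hz₀, hf.zero⟩
  have hfn : ∀ z ∈ U, ‖f z‖ < 1 := fun z hz => by simpa using hf.maps hz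
  have hfne : ∀ z ∈ U, f z ≠ w := fun z hz h => hwf ⟨z, hz, h⟩
  have hh : ∀ z ∈ U, HasDerivAt (fun z => mob w (f z))
      ((1 - conj w * w) / (1 - conj w * f z) ^ 2 * deriv f z) z := by
    intro z hz
    exact (mob_hasDerivAt hw (hfn z hz)).comp z
      (hf.diff.differentiableAt (hUo.mem_nhds hz)).hasDerivAt
  obtain ⟨s, hsc, hs⟩ := Complex.exists_continuousOn_pow_eq hUc hUo (g := fun z => mob w (f z))
    (fun z hz => (hh z hz).continuousAt.continuousWithinAt)
    (by
      rintro ⟨z, hz, h0⟩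
      exact mob_ne_zero hw (hfn z hz) (hfne z hz) h0) two_ne_zero
  have hsne : ∀ z ∈ U, s z ≠ 0 := by
    intro z hz h0
    have := hs z
    rw [h0] at this
    exact mob_ne_zero hw (hfn z hz) (hfne z hz) (by rw [← this]; simp)
  have hsn : ∀ z ∈ U, ‖s z‖ < 1 := by
    intro z hz
    have h1 : ‖s z‖ ^ 2 < 1 := by
      rw [← norm_pow, hs z]
      exact mob_norm_lt hw (hfn z hz)
    nlinarith [norm_nonneg (s z)]
  have hsd : ∀ z ∈ U, HasDerivAt s
      ((1 - conj w * w) / (1 - conj w * f z) ^ 2 * deriv f z / (2 * s z)) z := fun z hz =>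
    hasDerivAt_sqrt hUo hsc hs hz (hsne z hz) (hh z hz)
  have hgd : ∀ z ∈ U, HasDerivAt (fun z => mob (s z₀) (s z))
      ((1 - conj (s z₀) * s z₀) / (1 - conj (s z₀) * s z) ^ 2 *
        ((1 - conj w * w) / (1 - conj w * f z) ^ 2 * deriv f z / (2 * s z))) z := by
    intro z hz
    exact (mob_hasDerivAt (hsn z₀ hz₀) (hsn z hz)).comp z (hsd z hz)
  refine ⟨fun z => mob (s z₀) (s z), ⟨?_, ?_, ?_, mob_self _⟩, ?_⟩
  · intro z hz
    exact (hgd z hz).differentiableAt.differentiableWithinAt
  · intro a ha b hb hab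
    have h1 := mob_injOn (hsn z₀ hz₀) (by simpa using hsn a ha) (by simpa using hsn b hb) hab
    have h2 : mob w (f a) = mob w (f b) := by
      rw [← hs a, ← hs b, h1]
    exact hf.inj ha hb (mob_injOn hw (hf.maps ha) (hf.maps hb) h2)
  · intro z hz
    rw [mem_ball_zero_iff]
    exact mob_norm_lt (hsn z₀ hz₀) (hsn z hz)
  · rw [(hgd z₀ hz₀).deriv]
    -- |s z0|^2 = |w|
    have hs0 : ‖s z₀‖ ^ 2 = ‖w‖ := by
      rw [← norm_pow, hs z₀, hf.zero]
      simp [mob]
    have hsp : 0 < ‖s z₀‖ := norm_pos_iff.2 (hsne z₀ hz₀)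
    have hs1 : ‖s z₀‖ < 1 := hsn z₀ hz₀
    have e1 : ‖1 - conj (s z₀) * s z₀‖ = 1 - ‖s z₀‖ ^ 2 := by
      rw [← Complex.normSq_eq_conj_mul_self, Complex.normSq_eq_norm_sq]
      rw [← Complex.ofReal_one, ← Complex.ofReal_sub, Complex.norm_real, Real.norm_eq_abs,
        abs_of_pos]
      nlinarith
    have e2 : ‖1 - conj w * w‖ = 1 - ‖w‖ ^ 2 := by
      rw [← Complex.normSq_eq_conj_mul_self, Complex.normSq_eq_norm_sq]
      rw [← Complex.ofReal_one, ← Complex.ofReal_sub, Complex.norm_real, Real.norm_eq_abs,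
        abs_of_pos]
      nlinarith [norm_nonneg w]
    rw [hf.zero, mul_zero, sub_zero, one_pow, div_one]
    rw [norm_mul, norm_div, norm_pow, norm_div, norm_mul, norm_mul, e1, e2]
    set a := ‖s z₀‖ with ha
    set D := ‖deriv f z₀‖ with hD
    have hDpos : 0 < D := norm_pos_iff.2 hd
    rw [← hs0]
    have h2 : ‖(2 : ℂ)‖ = 2 := by simp
    rw [h2]
    have h1a : 0 < 1 - a ^ 2 := by nlinarith
    have hkey : (1 - a ^ 2) / (1 - a ^ 2) ^ 2 * ((1 - (a ^ 2) ^ 2) * D / (2 * a)) =
        D * ((1 + a ^ 2) / (2 * a)) := by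
      field_simp
      ring
    rw [hkey]
    have : 1 < (1 + a ^ 2) / (2 * a) := by
      rw [lt_div_iff₀ (by positivity)]
      nlinarith [sq_pos_of_pos (sub_pos.2 hs1)]
    nlinarith

/-- **Riemann mapping theorem.** -/
theorem riemann_mapping {U : Set ℂ} (hUo : IsOpen U) (hUc : IsSimplyConnected U) (hU : U ≠ univ)
    {z₀ : ℂ} (hz₀ : z₀ ∈ U) :
    ∃ f : ℂ → ℂ, DifferentiableOn ℂ f U ∧ InjOn f U ∧ f '' U = ball 0 1 ∧ f z₀ = 0 := by
  obtain ⟨f₀, hf₀, hd₀⟩ := Fam.exists hUo hUc hU hz₀
  obtain ⟨R, hR, hRU⟩ := Metric.isOpen_iff.1 hUo z₀ hz₀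
  -- the set of derivatives
  set S : Set ℝ := {x | ∃ f, Fam U z₀ f ∧ x = ‖deriv f z₀‖} with hS
  have hSne : S.Nonempty := ⟨_, f₀, hf₀, rfl⟩
  have hbound : ∀ f, Fam U z₀ f → ‖deriv f z₀‖ ≤ 1 / (R / 2) := by
    intro f hf
    have hsub : closedBall z₀ (R / 2) ⊆ U :=
      (closedBall_subset_ball (by linarith)).trans hRU
    apply Complex.norm_deriv_le_of_forall_mem_sphere_norm_le (by positivity : 0 < R / 2)
    · apply DifferentiableOn.diffContOnCl
      rw [closure_ball z₀ (by positivity)]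
      exact hf.diff.mono hsub
    · intro y hy
      have := hf.maps (hsub (sphere_subset_closedBall hy))
      rw [mem_ball_zero_iff] at this
      exact this.le
  have hSbdd : BddAbove S := by
    refine ⟨1 / (R / 2), ?_⟩
    rintro x ⟨f, hf, rfl⟩
    exact hbound f hf
  obtain ⟨u, -, hu_lim, hu_mem⟩ := exists_seq_tendsto_sSup hSne hSbdd
  choose F hF hFu using hu_mem
  -- ultrafilter limit
  set p : Ultrafilter ℕ := Ultrafilter.of atTop with hp
  have hp_le : (p : Filter ℕ) ≤ atTop := Ultrafilter.of_le atTop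
  have hlim_ex : ∀ z, ∃ y, z ∈ U → Tendsto (fun n => F n z) p (𝓝 y) := by
    intro z
    by_cases hz : z ∈ U
    · have hcomp : IsCompact (closedBall (0 : ℂ) 1) := isCompact_closedBall 0 1
      obtain ⟨y, -, hy⟩ := hcomp.ultrafilter_le_nhds (p.map fun n => F n z) (by
        rw [Ultrafilter.coe_map, le_principal_iff, mem_map]
        apply Filter.univ_mem'
        intro n
        exact ball_subset_closedBall ((hF n).maps hz))
      exact ⟨y, fun _ => by rwa [Ultrafilter.coe_map] at hy⟩
    · exact ⟨0, fun h => absurd h hz⟩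
  choose g hg using hlim_ex
  have hloc : TendstoLocallyUniformlyOn F g p U :=
    tendstoLocallyUniformlyOn_of_pointwise hUo (fun n => (hF n).diff)
      (fun n z hz => by
        have := (hF n).maps hz
        rw [mem_ball_zero_iff] at this
        exact this.le) hg
  have hgdiff : DifferentiableOn ℂ g U :=
    hloc.differentiableOn (Eventually.of_forall fun n => (hF n).diff) hUo
  have hderiv_lim : Tendsto (fun n => ‖deriv (F n) z₀‖) p (𝓝 ‖deriv g z₀‖) :=
    ((hloc.deriv (Eventually.of_forall fun n => (hF n).diff) hUo).tendsto_at hz₀).norm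
  have hL : ‖deriv g z₀‖ = sSup S := by
    have h1 : Tendsto (fun n => ‖deriv (F n) z₀‖) p (𝓝 (sSup S)) := by
      have : (fun n => ‖deriv (F n) z₀‖) = u := by
        funext n; exact (hFu n).symm
      rw [this]
      exact hu_lim.mono_left hp_le
    exact tendsto_nhds_unique hderiv_lim h1
  have hLpos : 0 < ‖deriv g z₀‖ := by
    rw [hL]
    exact lt_of_lt_of_le (norm_pos_iff.2 hd₀) (le_csSup hSbdd ⟨f₀, hf₀, rfl⟩)
  have hgd : deriv g z₀ ≠ 0 := norm_pos_iff.1 hLpos
  have hUpre : IsPreconnected U := hUc.isPathConnected.isConnected.isPreconnected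
  have hginj : InjOn g U := injOn_of_tendstoLocallyUniformlyOn hUo hUpre
    (fun n => (hF n).diff) (fun n => (hF n).inj) hloc ⟨z₀, hz₀, hgd⟩
  have hg0 : g z₀ = 0 := by
    have h1 : Tendsto (fun n => F n z₀) p (𝓝 0) := by
      have : (fun n => F n z₀) = fun _ => 0 := by funext n; exact (hF n).zero
      rw [this]; exact tendsto_const_nhds
    exact tendsto_nhds_unique (hg z₀ hz₀) h1
  have hgmaps : MapsTo g U (ball 0 1) := by
    have hopen : IsOpen (g '' U) := by
      rcases (hgdiff.analyticOnNhd hUo).is_constant_or_isOpen hUpre with ⟨w, hw⟩ | h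
      · exfalso
        apply hgd
        have hev : g =ᶠ[𝓝 z₀] fun _ => w := by
          filter_upwards [hUo.mem_nhds hz₀] with y hy
          exact hw y hy
        rw [hev.deriv_eq]; simp
      · exact h U subset_rfl hUo
    have hsub : g '' U ⊆ closedBall 0 1 := by
      rintro _ ⟨z, hz, rfl⟩
      rw [mem_closedBall_zero_iff]
      refine le_of_tendsto (hg z hz).norm (Eventually.of_forall fun n => ?_)
      have := (hF n).maps hz
      rw [mem_ball_zero_iff] at this
      exact this.le
    have hint : g '' U ⊆ interior (closedBall 0 1) := interior_maximal hsub hopen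
    rw [interior_closedBall _ one_ne_zero] at hint
    intro z hz
    exact hint ⟨z, hz, rfl⟩
  have hgFam : Fam U z₀ g := ⟨hgdiff, hginj, hgmaps, hg0⟩
  refine ⟨g, hgdiff, hginj, ?_, hg0⟩
  apply Subset.antisymm (image_subset_iff.2 hgmaps)
  intro w hw
  rw [mem_ball_zero_iff] at hw
  by_contra hwg
  obtain ⟨g', hg', hlt⟩ := hgFam.improve hUo hUc hz₀ hgd hw hwg
  have : ‖deriv g' z₀‖ ≤ sSup S := le_csSup hSbdd ⟨g', hg', rfl⟩
  rw [← hL] at this
  linarith

end Crest.Agent.Lib.RiemannMap
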